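import Mathlib

/-!
Decompositions of the host graph and certificates of embeddings (P064).

The host vertices are removed one by one.  When `x` is removed it records its later neighbours
(`out`), the link vertices of the derived items at `x` (`lin`), the link vertices of the items it
absorbs (`childs`); `owner` records where the item created at a vertex is absorbed.  For an
embedding `φ`, a certificate records the roots, the link edges and the cluster map.
-/

open Finset

namespace Vale.Agent.P064

variable {α β : Type*} [Fintype α] [DecidableEq α] [DecidableEq β]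

/-- Data of a decomposition of the host graph. -/
structure Deco (β : Type*) where
  rank : β → ℕ
  out : β → Finset β
  lin : β → Finset β
  childs : β → Finset β
  owner : β → β

/-- Size and order bounds of a complete decomposition. -/
structure Deco.Bounded (D : Deco β) (K1 K2 : ℕ) : Prop where
  out_card : ∀ x, (D.out x).card ≤ K1
  lin_card : ∀ x, (D.lin x).card ≤ K2
  out_rank : ∀ x, ∀ y ∈ D.out x, D.rank x < D.rank y

/-- Certificate data of one embedding: roots, link edges, cluster map. -/
structure PS (α : Type*) where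
  rt : Finset α
  M : Finset (α × α)
  cl : α → α

/-- The darts of `F` whose image points from earlier to later. -/
def odarts (F : SimpleGraph α) [DecidableRel F.Adj] (D : Deco β) (φ : α ↪ β) :
    Finset (α × α) :=
  univ.filter fun d => F.Adj d.1 d.2 ∧ φ d.2 ∈ D.out (φ d.1)

/-- The cluster of `r`. -/
def fib (cl : α → α) (r : α) : Finset α := univ.filter fun w => cl w = r

/-- The darts with tail in `S`. -/
def dartsFrom (o : Finset (α × α)) (S : Finset α) : Finset (α × α) := o.filter fun d => d.1 ∈ S

/-- The heads outside `S` of the darts with tail in `S`. -/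
def heads (o : Finset (α × α)) (S : Finset α) : Finset α := (dartsFrom o S).image Prod.snd \ S

/-- The tails of the link edges into `u`. -/
def inEdges (M : Finset (α × α)) (u : α) : Finset α :=
  (M.filter fun d => d.2 = u).image Prod.fst

/-- The weight `|P| l - |Z| N` of the cluster `S`. -/
noncomputable def weight (N l : ℝ) (o : Finset (α × α)) (S : Finset α) : ℝ :=
  (dartsFrom o S).card * l - S.card * N

/-- The cost of the choices at the non-root vertices in `S`. -/
noncomputable def costOn (K1 K2 : ℕ) (M : Finset (α × α)) (S : Finset α) : ℝ :=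
  ∏ u ∈ S, (2 : ℝ) ^ K1 * 2 ^ ((inEdges M u).card + 1) * K2.choose (inEdges M u).card

/-- A complete certificate of an embedding. -/
structure Good (F : SimpleGraph α) [DecidableRel F.Adj] (D : Deco β) (N l : ℝ) (φ : α ↪ β)
    (p : PS α) : Prop where
  cl_rt : ∀ u, p.cl u ∈ p.rt
  rt_cl : ∀ r ∈ p.rt, p.cl r = r
  orient : ∀ a b, F.Adj a b → φ b ∈ D.out (φ a) ∨ φ a ∈ D.out (φ b)
  M_sub : ∀ d ∈ p.M, d ∈ odarts F D φ ∧ p.cl d.1 = p.cl d.2
  M_card : p.M.card + p.rt.card = Fintype.card α
  conn : ∀ r ∈ p.rt, ∀ S ⊆ fib p.cl r, S.Nonempty → S ≠ fib p.cl r →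
    ∃ d ∈ p.M, p.cl d.1 = r ∧ ¬ (d.1 ∈ S ↔ d.2 ∈ S)
  lin : ∀ u ∈ p.rt, (inEdges p.M u).image φ ⊆ D.lin (φ u)
  kept : ∀ u ∉ p.rt, (inEdges p.M u).image φ = D.childs (φ u)
  parent : ∀ u ∉ p.rt, ∃ w, p.cl w = p.cl u ∧ φ w = D.owner (φ u) ∧ D.rank (φ u) < D.rank (φ w)
  rank_cl : ∀ u, D.rank (φ u) ≤ D.rank (φ (p.cl u))
  rt_weight : ∀ r ∈ p.rt, (heads (odarts F D φ) (fib p.cl r)).Nonempty →
    weight N l (odarts F D φ) (fib p.cl r) ≤ (heads (odarts F D φ) (fib p.cl r)).card
  rt_nonroot : ∀ r ∈ p.rt, (((fib p.cl r).card : ℝ) - 1) * N ≤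
    (dartsFrom (odarts F D φ) (fib p.cl r)).card * l
  rt_heads : ∀ r ∈ p.rt, ∀ h ∈ heads (odarts F D φ) (fib p.cl r),
    D.rank (φ r) < D.rank (φ h)

end Vale.Agent.P064
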