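import Mathlib

/-!
Definitions for P064 (thresholds of containment and expectation thresholds).
-/

open MeasureTheory unitInterval SimpleGraph

namespace Vale.Agent.P064

variable {W : Type*}

/-- The probability that `G(n,p)` contains a copy of `H`. -/
noncomputable def probContains (n : ℕ) (H : SimpleGraph W) (p : I) : ℝ :=
  (binomialRandom (Fin n) p).real {G | H ⊑ G}

/-- The expected number of subgraphs of `G(n,p)` isomorphic to `F`. -/
noncomputable def expCopies (n : ℕ) (F : SimpleGraph W) (p : I) : ℝ :=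
  ∫ G, (G.copyCount F : ℝ) ∂(binomialRandom (Fin n) p)

/-- The threshold `p_c(n,H)`. -/
noncomputable def pC (n : ℕ) (H : SimpleGraph W) : ℝ :=
  sInf {p : ℝ | ∃ hp : p ∈ I, 1 / 2 ≤ probContains n H ⟨p, hp⟩}

/-- The expectation threshold `p_E(n,H)`. -/
noncomputable def pE (n : ℕ) (H : SimpleGraph W) : ℝ :=
  sInf {p : ℝ | ∃ hp : p ∈ I, ∀ F : H.Subgraph, 1 / 2 ≤ expCopies n F.coe ⟨p, hp⟩}

/-- The fractional expectation threshold of containing a copy of `H`. -/
noncomputable def pTildeE {v : ℕ} (n : ℕ) (H : SimpleGraph (Fin v)) : ℝ :=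
  sInf {p : ℝ | ∃ hp : p ∈ I,
    ∀ F : H.Subgraph, (H.copyCount F.coe : ℝ) / 2 ≤ expCopies n F.coe ⟨p, hp⟩}

/-- The exponent `min 1 (log (1/p) / log n)`. -/
noncomputable def expo (n : ℕ) (p : ℝ) : ℝ :=
  min 1 (Real.log (1 / p) / Real.log n)

/-- Number of permutations supported on `S` that preserve the edge set `E`. -/
noncomputable def autCount {β : Type*} [DecidableEq β] (S : Finset β) (E : Finset (Sym2 β)) : ℕ :=
  Nat.card {g : Equiv.Perm β // (∀ x ∉ S, g x = x) ∧ E.image (Sym2.map g) = E}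

/-- Every subgraph `(S,E)` of `H` has `n^|S| q^|E| ≥ aut/2`. -/
def Hyp {β : Type*} [DecidableEq β] (n : ℕ) (q : ℝ) (H : SimpleGraph β) : Prop :=
  ∀ (S : Finset β) (E : Finset (Sym2 β)),
    (∀ e ∈ E, e ∈ H.edgeSet ∧ ∀ x ∈ e, x ∈ S) →
      (autCount S E : ℝ) ≤ 2 * (n : ℝ) ^ S.card * q ^ E.card

/-- The main counting lemma, as a proposition: labelled copies of a graph `F` without isolated
vertices in `H` are few. -/
def LabelledBound : Prop :=
  ∃ C : ℝ, 1 ≤ C ∧ ∀ (n : ℕ) (q : ℝ), 2 ≤ n → 0 < q → q ≤ 1 →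
    ∀ (v : ℕ) (H : SimpleGraph (Fin v)), v ≤ n → Hyp n q H →
    ∀ (k : ℕ) (F : SimpleGraph (Fin k)) [DecidableRel F.Adj], (∀ a, ∃ b, F.Adj a b) →
      (H.labelledCopyCount F : ℝ) ≤
        (n : ℝ) ^ k * (C * Real.log n ^ expo n q * q) ^ F.edgeFinset.card

end Vale.Agent.P064
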