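import Mathlib

/-!
Elementary lemmas for the counting bound of P064.
-/

open Finset

namespace Vale.Agent.P064

/-- If the conflict relation has out-degree at most `d`, there is an independent set of relative
size `1/(2d+1)`. -/
lemma exists_indep {β : Type*} [DecidableEq β] (X : Finset β) (f : β → Finset β) (d : ℕ)
    (hd : ∀ x ∈ X, (f x).card ≤ d) :
    ∃ I ⊆ X, X.card ≤ (2 * d + 1) * I.card ∧ ∀ x ∈ I, ∀ y ∈ I, x ≠ y → y ∉ f x := by
  induction X using Finset.strongInduction with
  | H X ih =>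
    rcases X.eq_empty_or_nonempty with rfl | hne
    · exact ⟨∅, Subset.rfl, by simp, by simp⟩
    have hsum : ∑ x ∈ X, (X.filter fun y => x ∈ f y).card ≤ X.card * d := by
      calc ∑ x ∈ X, (X.filter fun y => x ∈ f y).card
          = ∑ y ∈ X, (X.filter fun x => x ∈ f y).card := by
            simp only [card_filter]; exact sum_comm
        _ ≤ ∑ _y ∈ X, d := sum_le_sum fun y hy =>
            (card_le_card fun x hx => (mem_filter.1 hx).2).trans (hd y hy)
        _ = X.card * d := by simp
    obtain ⟨x, hx, hxd⟩ : ∃ x ∈ X, (X.filter fun y => x ∈ f y).card ≤ d := by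
      by_contra h
      push Not at h
      have h1 := sum_lt_sum_of_nonempty (f := fun _ => d) hne h
      simp at h1
      omega
    set Y := X \ (insert x (f x ∪ X.filter fun y => x ∈ f y)) with hY
    have hss : Y ⊂ X := by
      refine ⟨sdiff_subset, fun h => ?_⟩
      have := h hx
      simp [hY] at this
    obtain ⟨I, hI, hc, hind⟩ := ih Y hss fun y hy => hd y (mem_sdiff.1 hy).1
    have hxI : x ∉ I := fun h => by have := hI h; simp [hY] at this
    refine ⟨insert x I, insert_subset hx fun y hy => (mem_sdiff.1 (hI hy)).1, ?_, ?_⟩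
    · have h1 : X.card ≤ Y.card + (insert x (f x ∪ X.filter fun y => x ∈ f y)).card := by
        rw [hY]
        exact card_le_card_sdiff_add_card
      have h2 := (card_insert_le x (f x ∪ X.filter fun y => x ∈ f y))
      have h3 := card_union_le (f x) (X.filter fun y => x ∈ f y)
      have h4 := hd x hx
      rw [card_insert_of_notMem hxI]
      nlinarith
    · intro a ha b hb hab
      rcases mem_insert.1 ha with rfl | ha' <;> rcases mem_insert.1 hb with rfl | hb'
      · exact absurd rfl hab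
      · intro h
        have := hI hb'
        simp [hY, h] at this
      · intro h
        have := hI ha'
        simp [hY, h, (mem_sdiff.1 (hI ha')).1] at this
      · exact hind a ha' b hb' hab

/-- A weighted average is attained. -/
lemma exists_ge_average {ι : Type*} (s : Finset ι) (w g : ι → ℝ) (hw : ∀ i ∈ s, 0 ≤ w i)
    (hw0 : 0 < ∑ i ∈ s, w i) {a : ℝ}
    (h : (∑ i ∈ s, w i) * a ≤ ∑ i ∈ s, w i * g i) : ∃ i ∈ s, a ≤ g i := by
  have hs : s.Nonempty := nonempty_of_sum_ne_zero hw0.ne'
  obtain ⟨i, hi, hmax⟩ := exists_max_image s g hs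
  refine ⟨i, hi, le_of_mul_le_mul_left (h.trans ?_) hw0⟩
  calc ∑ j ∈ s, w j * g j ≤ ∑ j ∈ s, w j * g i :=
        sum_le_sum fun j hj => mul_le_mul_of_nonneg_left (hmax j hj) (hw j hj)
    _ = (∑ j ∈ s, w j) * g i := (sum_mul ..).symm

/-- The weights `2^{-|A|-1} / C(k,|A|)` on subsets of a `k`-set sum to at most `1`. -/
lemma sum_weights_le_one {γ : Type*} (s : Finset γ) :
    ∑ A ∈ s.powerset, (1 : ℝ) / (2 ^ (A.card + 1) * s.card.choose A.card) ≤ 1 := by
  rw [sum_powerset, ]
  calc ∑ j ∈ range (s.card + 1), ∑ A ∈ powersetCard j s,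
        (1 : ℝ) / (2 ^ (A.card + 1) * s.card.choose A.card)
      = ∑ j ∈ range (s.card + 1), (1 / 2 : ℝ) ^ (j + 1) := by
        refine sum_congr rfl fun j hj => ?_
        rw [sum_congr rfl fun A hA => by rw [(mem_powersetCard.1 hA).2], sum_const,
          card_powersetCard, nsmul_eq_mul, one_div_pow]
        have : (0 : ℝ) < s.card.choose j := by
          exact_mod_cast Nat.choose_pos (by simpa [Nat.lt_succ_iff] using mem_range.1 hj)
        field_simp
    _ = 1 / 2 * ∑ j ∈ range (s.card + 1), (1 / 2 : ℝ) ^ j := by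
        rw [mul_sum]; exact sum_congr rfl fun j _ => by ring
    _ ≤ 1 / 2 * 2 := by gcongr; exact sum_geometric_two_le _
    _ = 1 := by norm_num

/-- The bound on the number `m` of disjoint isomorphic copies attached to `t` fixed vertices. -/
lemma copies_bound {N μ : ℝ} (hN : 0 ≤ N) (hμ0 : 0 < μ) {m t : ℕ}
    (hμ : 1 ≤ t → Real.exp (-(t : ℝ)) ≤ μ)
    (h : (m.factorial : ℝ) ≤ 2 * Real.exp (t * N) * μ ^ m) :
    (m : ℝ) ≤ 9 * Real.exp (2 * t) * μ * if 1 ≤ t ∧ μ < N + 1 then N + 2 else 1 := by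
  have he2 : Real.exp 2 < 8 := by
    have h1 := Real.exp_one_lt_d9
    have h2 : Real.exp 2 = Real.exp 1 * Real.exp 1 := by rw [← Real.exp_add]; norm_num
    nlinarith [Real.exp_pos 1]
  have hE : 1 ≤ Real.exp (2 * t) := Real.one_le_exp (by positivity)
  have key : (m : ℝ) ≤ Real.exp 2 * μ ∨ (m : ℝ) < t * N + 1 := by
    by_contra hcon
    push Not at hcon
    obtain ⟨h1, h2⟩ := hcon
    have hm : (0 : ℝ) < m := lt_trans (by positivity) h1
    have h3 := Real.pow_div_factorial_le_exp (m : ℝ) hm.le m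
    rw [div_le_iff₀ (by positivity)] at h3
    have h4 : (Real.exp 2 * μ) ^ m ≤ (m : ℝ) ^ m := pow_le_pow_left₀ (by positivity) h1.le m
    have h5 : (Real.exp 2 * μ) ^ m ≤ Real.exp m * (2 * Real.exp (t * N) * μ ^ m) :=
      h4.trans (h3.trans (mul_le_mul_of_nonneg_left h (Real.exp_pos _).le))
    rw [mul_pow, ← Real.exp_nat_mul] at h5
    have h6 : Real.exp (m * 2) ≤ Real.exp m * (2 * Real.exp (t * N)) :=
      le_of_mul_le_mul_right (h5.trans_eq (by ring)) (pow_pos hμ0 m)
    have h7 : 2 * Real.exp (t * N) < Real.exp (t * N + 1) := by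
      rw [Real.exp_add, mul_comm]
      exact mul_lt_mul_of_pos_left (lt_trans (by norm_num) Real.exp_one_gt_d9) (Real.exp_pos _)
    have h8 : Real.exp (m * 2) < Real.exp (m + (t * N + 1)) := by
      rw [Real.exp_add]
      exact h6.trans_lt (mul_lt_mul_of_pos_left h7 (Real.exp_pos _))
    have := Real.exp_lt_exp.1 h8
    linarith
  rcases key with h1 | h1
  · have : (1 : ℝ) ≤ if 1 ≤ t ∧ μ < N + 1 then N + 2 else 1 := by split_ifs <;> linarith
    calc (m : ℝ) ≤ Real.exp 2 * μ := h1
      _ ≤ 9 * 1 * μ * 1 := by nlinarith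
      _ ≤ _ := by gcongr
  rcases Nat.eq_zero_or_pos t with rfl | ht
  · have : m = 0 := by
      simp only [Nat.cast_zero, zero_mul, zero_add] at h1
      exact Nat.lt_one_iff.1 (by exact_mod_cast h1)
    subst this
    rw [Nat.cast_zero]
    positivity
  have ht1 : (1 : ℝ) ≤ t := by exact_mod_cast ht
  have hte : (t : ℝ) ≤ Real.exp t := by linarith [Real.add_one_le_exp (t : ℝ)]
  have hμt := hμ ht
  by_cases hev : μ < N + 1
  · rw [if_pos ⟨ht, hev⟩]
    have h9 : 1 ≤ Real.exp t * μ := by
      calc (1 : ℝ) = Real.exp t * Real.exp (-(t : ℝ)) := by rw [← Real.exp_add]; simp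
        _ ≤ _ := by gcongr
    calc (m : ℝ) ≤ t * (N + 1) := by nlinarith
      _ ≤ Real.exp t * (N + 2) * 1 := by
          rw [mul_one]; exact mul_le_mul hte (by linarith) (by linarith) (Real.exp_pos _).le
      _ ≤ Real.exp t * (N + 2) * (Real.exp t * μ) :=
          mul_le_mul_of_nonneg_left h9 (mul_nonneg (Real.exp_pos _).le (by linarith))
      _ = Real.exp (2 * t) * μ * (N + 2) := by rw [two_mul, Real.exp_add]; ring
      _ ≤ _ := by
          have : (0 : ℝ) < Real.exp (2 * t) * μ * (N + 2) :=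
            mul_pos (mul_pos (Real.exp_pos _) hμ0) (by linarith)
          linarith
  · rw [if_neg (fun h => hev h.2)]
    push Not at hev
    have : Real.exp t ≤ Real.exp (2 * t) := Real.exp_le_exp.2 (by linarith)
    calc (m : ℝ) ≤ t * (N + 1) := by nlinarith
      _ ≤ Real.exp (2 * t) * μ := by nlinarith
      _ ≤ _ := by nlinarith

/-- The arithmetic behind the exponent. -/
lemma pow_events_le {N l : ℝ} (hN : 2 / 3 ≤ N) (hl : 0 ≤ l) {X ev e : ℕ} (hXe : X ≤ e)
    (hev : ev ≤ e) (h : (X : ℝ) * N ≤ e * l + ev * Real.log (N + 1)) :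
    (N + 2) ^ X ≤ (Real.exp 20 * N ^ min 1 (l / N)) ^ e := by
  have hN0 : 0 < N := by linarith
  have h4 : N + 2 ≤ 4 * N := by linarith
  have hL0 : 0 ≤ Real.log (N + 1) := Real.log_nonneg (by linarith)
  have hL12 : Real.log (N + 1) ≤ Real.log (N + 2) := Real.log_le_log (by linarith) (by linarith)
  have hθ0 : 0 ≤ min 1 (l / N) := le_min zero_le_one (div_nonneg hl hN0.le)
  have hθ1 : min 1 (l / N) ≤ 1 := min_le_left _ _
  have hL2 : Real.log (N + 2) ≤ 3 + Real.log N := by
    calc Real.log (N + 2) ≤ Real.log (4 * N) := Real.log_le_log (by linarith) h4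
      _ = Real.log 4 + Real.log N := Real.log_mul (by norm_num) hN0.ne'
      _ ≤ _ := by linarith [Real.log_le_sub_one_of_pos (show (0 : ℝ) < 4 by norm_num)]
  have hsq : Real.log (N + 2) * Real.log (N + 2) ≤ 16 * N := by
    have hs : 0 < √(N + 2) := Real.sqrt_pos.2 (by linarith)
    have h1 : Real.log (N + 2) = 2 * Real.log √(N + 2) := by
      rw [Real.log_sqrt (by linarith)]; ring
    have h2 := Real.log_le_sub_one_of_pos hs
    have h3 : √(N + 2) * √(N + 2) = N + 2 := Real.mul_self_sqrt (by linarith)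
    have h5 : 0 ≤ Real.log (N + 2) := by linarith
    nlinarith
  have hδ : Real.log (N + 1) / N * Real.log (N + 2) ≤ 16 := by
    rw [div_mul_eq_mul_div, div_le_iff₀ hN0]
    calc Real.log (N + 1) * Real.log (N + 2) ≤ Real.log (N + 2) * Real.log (N + 2) :=
          mul_le_mul_of_nonneg_right hL12 (by linarith)
      _ ≤ 16 * N := hsq
  have hX : (X : ℝ) ≤ e * (min 1 (l / N) + Real.log (N + 1) / N) := by
    have he : (X : ℝ) ≤ e := by exact_mod_cast hXe
    have he' : (ev : ℝ) ≤ e := by exact_mod_cast hev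
    have hd0 : 0 ≤ Real.log (N + 1) / N := div_nonneg hL0 hN0.le
    rcases min_choice 1 (l / N) with hm | hm <;> rw [hm]
    · nlinarith
    · rw [mul_add, ← mul_div_assoc, ← mul_div_assoc, ← add_div, le_div_iff₀ hN0]
      nlinarith
  have hkey : (min 1 (l / N) + Real.log (N + 1) / N) * Real.log (N + 2) ≤
      20 + min 1 (l / N) * Real.log N := by
    nlinarith
  have hL0' : 0 ≤ Real.log (N + 2) := by linarith
  have e1 : Real.exp 20 * N ^ min 1 (l / N) = Real.exp (20 + min 1 (l / N) * Real.log N) := by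
    rw [Real.exp_add, Real.rpow_def_of_pos hN0, mul_comm (Real.log N)]
  rw [e1, ← Real.exp_nat_mul, ← Real.exp_log (show (0 : ℝ) < N + 2 by linarith),
    ← Real.exp_nat_mul, Real.exp_le_exp]
  calc (X : ℝ) * Real.log (N + 2)
      ≤ e * (min 1 (l / N) + Real.log (N + 1) / N) * Real.log (N + 2) :=
        mul_le_mul_of_nonneg_right hX hL0'
    _ ≤ _ := by rw [mul_assoc]; exact mul_le_mul_of_nonneg_left hkey (by positivity)

end Vale.Agent.P064
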