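import Mathlib
import Vale.Agent.P064.Defs
import Vale.Agent.P064.Cert
import Vale.Agent.P064.Lemmas

/-!
The counting step of P064: embeddings with the same orientation, links and roots are few, measured
by the cost of the choices in the random decomposition.
-/

open Finset

namespace Vale.Agent.P064

/-- The absolute constant of the counting step. -/
noncomputable def countC : ℝ := 729 * Real.exp 2 * 12 * 1024 * Real.exp 20

lemma one_le_countC : 1 ≤ countC := by
  have h1 : 1 ≤ Real.exp 2 := Real.one_le_exp (by norm_num)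
  have h2 : 1 ≤ Real.exp 20 := Real.one_le_exp (by norm_num)
  unfold countC
  nlinarith

namespace Count

variable {α β : Type*} [Fintype α] [DecidableEq α] [Fintype β] [DecidableEq β]

/-! ### Restrictions -/

/-- The restriction of an embedding to `S`. -/
def res (S : Finset α) (φ : α ↪ β) (u : α) : Option β := if u ∈ S then some (φ u) else none

omit [Fintype α] [Fintype β] [DecidableEq β] in
lemma res_eq_iff {S : Finset α} {φ ψ : α ↪ β} :
    res S φ = res S ψ ↔ ∀ u ∈ S, φ u = ψ u := by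
  constructor
  · intro h u hu
    simpa [res, hu] using congrFun h u
  · intro h
    funext u
    by_cases hu : u ∈ S <;> simp [res, hu, h]

omit [Fintype β] in
lemma card_res_le_one {S : Finset α} {Φ : Finset (α ↪ β)}
    (h : ∀ φ ∈ Φ, ∀ ψ ∈ Φ, ∀ u ∈ S, φ u = ψ u) : (Φ.image (res S)).card ≤ 1 := by
  refine card_le_one.2 fun a ha b hb => ?_
  obtain ⟨φ, hφ, rfl⟩ := mem_image.1 ha
  obtain ⟨ψ, hψ, rfl⟩ := mem_image.1 hb
  exact res_eq_iff.2 (h φ hφ ψ hψ)

omit [Fintype β] in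
/-- Extending the restriction from `S` to `T`. -/
lemma card_res_le_mul {S T : Finset α} (hST : S ⊆ T) (Φ : Finset (α ↪ β)) {B : ℝ}
    (h : ∀ φ ∈ Φ, (((Φ.filter fun ψ => res S ψ = res S φ).image (res T)).card : ℝ) ≤ B) :
    ((Φ.image (res T)).card : ℝ) ≤ (Φ.image (res S)).card * B := by
  set g : (α → Option β) → (α → Option β) := fun a u => if u ∈ S then a u else none
  have hg : ∀ φ : α ↪ β, g (res T φ) = res S φ := by
    intro φ
    funext u
    by_cases hu : u ∈ S
    · simp [g, res, hu, hST hu]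
    · simp [g, res, hu]
  have himg : (Φ.image (res T)).image g = Φ.image (res S) := by
    rw [image_image]
    exact image_congr fun φ _ => hg φ
  rw [card_eq_sum_card_image g (Φ.image (res T)), himg, Nat.cast_sum]
  refine (sum_le_card_nsmul _ _ B fun b hb => ?_).trans_eq (nsmul_eq_mul _ _)
  obtain ⟨φ, hφ, rfl⟩ := mem_image.1 hb
  refine le_trans (Nat.cast_le.2 (card_le_card ?_)) (h φ hφ)
  intro a ha
  rw [mem_filter, mem_image] at ha
  obtain ⟨⟨ψ, hψ, rfl⟩, he⟩ := ha
  exact mem_image.2 ⟨ψ, mem_filter.2 ⟨hψ, (hg ψ).symm.trans he⟩, rfl⟩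

omit [Fintype β] in
lemma card_res_univ (Φ : Finset (α ↪ β)) : (Φ.image (res univ)).card = Φ.card :=
  card_image_of_injective _ fun _ _ h =>
    Function.Embedding.ext fun u => res_eq_iff.1 h u (mem_univ u)

/-! ### The fixed data -/

/-- What all embeddings of the family share. -/
structure Fam (F : SimpleGraph α) [DecidableRel F.Adj] (D : Deco β) (H : SimpleGraph β) (N l : ℝ)
    (o M : Finset (α × α)) (rt : Finset α) (cl : α → α) (φ : α ↪ β) : Prop where
  hom : ∀ a b, F.Adj a b → H.Adj (φ a) (φ b)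
  good : Good F D N l φ ⟨rt, M, cl⟩
  dart : odarts F D φ = o

/-- The factor of a link edge. -/
def fac (K1 K2 : ℕ) (M : Finset (α × α)) (rt : Finset α) (d : α × α) : ℝ :=
  ((K1 : ℝ) + 1) * if d.2 ∈ rt then ((K2 : ℝ) + 1) else max 1 ((inEdges M d.2).card : ℝ)

omit [Fintype α] in
lemma one_le_fac (K1 K2 : ℕ) (M : Finset (α × α)) (rt : Finset α) (d : α × α) :
    1 ≤ fac K1 K2 M rt d := by
  unfold fac
  refine one_le_mul_of_one_le_of_one_le (by linarith [(Nat.cast_nonneg K1 : (0 : ℝ) ≤ K1)]) ?_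
  split_ifs
  · linarith [(Nat.cast_nonneg K2 : (0 : ℝ) ≤ K2)]
  · exact le_max_left _ _

variable {F : SimpleGraph α} [DecidableRel F.Adj] {D : Deco β} {H : SimpleGraph β} {N l : ℝ}
  {o M : Finset (α × α)} {rt : Finset α} {cl : α → α}

omit [Fintype β] in
/-- The cluster map is determined by the links and roots. -/
lemma cl_eq {φ φ' : α ↪ β} {p p' : PS α} (h : Good F D N l φ p) (h' : Good F D N l φ' p')
    (hM : p.M = p'.M) (hrt : p.rt = p'.rt) : p'.cl = p.cl := by
  funext u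
  set r := p.cl u with hr
  have hrm : r ∈ p.rt := h.cl_rt u
  set S := (fib p.cl r).filter fun w => p'.cl w = r with hS
  by_contra hne
  have hne' : S ≠ fib p.cl r := by
    intro he
    have : u ∈ S := by rw [he]; simp [fib, hr]
    exact hne (mem_filter.1 this).2
  have hrS : r ∈ S := mem_filter.2
    ⟨mem_filter.2 ⟨mem_univ _, h.rt_cl r hrm⟩, h'.rt_cl r (hrt ▸ hrm)⟩
  obtain ⟨d, hd, hd1, hcross⟩ := h.conn r hrm S (filter_subset _ _) ⟨r, hrS⟩ hne'
  have hd2 : p.cl d.2 = r := (h.M_sub d hd).2.symm.trans hd1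
  have he := (h'.M_sub d (hM ▸ hd)).2
  exact hcross (by simp [hS, fib, hd1, hd2, he])

omit [Fintype β] in
/-- Following the owners inside a cluster reaches the root. -/
lemma owner_iterate {φ : α ↪ β} (h : Fam F D H N l o M rt cl φ) {r : α} {u : α}
    (hu : u ∈ fib cl r) : ∃ i < (fib cl r).card, D.owner^[i] (φ u) = φ r := by
  set C := fib cl r with hC
  set g : α → ℕ := fun u => (C.filter fun w => D.rank (φ u) < D.rank (φ w)).card with hg
  suffices key : ∀ k u, u ∈ C → g u ≤ k → ∃ i ≤ g u, D.owner^[i] (φ u) = φ r by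
    obtain ⟨i, hi, he⟩ := key (g u) u hu le_rfl
    refine ⟨i, lt_of_le_of_lt hi ?_, he⟩
    exact card_lt_card ⟨filter_subset _ _, fun hh => lt_irrefl _ (mem_filter.1 (hh hu)).2⟩
  intro k
  induction k with
  | zero =>
    intro u hu hk
    have hur : cl u = r := by simpa [hC, fib] using hu
    by_cases hrt : u ∈ rt
    · exact ⟨0, Nat.zero_le _, by rw [← hur, show cl u = u from h.good.rt_cl u hrt]; rfl⟩
    obtain ⟨w, hw, -, hwr⟩ := h.good.parent u hrt
    exfalso
    have : w ∈ C.filter fun w => D.rank (φ u) < D.rank (φ w) :=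
      mem_filter.2 ⟨by simpa [hC, fib] using hw.trans hur, hwr⟩
    exact (Nat.pos_iff_ne_zero.1 (card_pos.2 ⟨w, this⟩)) (Nat.le_zero.1 hk)
  | succ k ih =>
    intro u hu hk
    have hur : cl u = r := by simpa [hC, fib] using hu
    by_cases hrt : u ∈ rt
    · exact ⟨0, Nat.zero_le _, by rw [← hur, show cl u = u from h.good.rt_cl u hrt]; rfl⟩
    obtain ⟨w, hw, hwo, hwr⟩ := h.good.parent u hrt
    have hwC : w ∈ C := by simpa [hC, fib] using hw.trans hur
    have hlt : g w < g u := by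
      refine card_lt_card ⟨fun z hz => ?_, fun hh => ?_⟩
      · rw [mem_filter] at hz ⊢
        exact ⟨hz.1, hwr.trans hz.2⟩
      · exact lt_irrefl _ (mem_filter.1 (hh (mem_filter.2 ⟨hwC, hwr⟩))).2
    obtain ⟨i, hi, he⟩ := ih w hwC (by omega)
    exact ⟨i + 1, by omega, by rw [Function.iterate_succ_apply, ← hwo]; exact he⟩

omit [Fintype β] in
/-- Restrictions to a cluster with prescribed values on `S` are few. -/
lemma card_cluster_le {K1 K2 : ℕ} (hD : D.Bounded K1 K2) {Φ : Finset (α ↪ β)}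
    (hΦ : ∀ φ ∈ Φ, Fam F D H N l o M rt cl φ) {r : α} (hr : r ∈ rt) :
    ∀ (k : ℕ) (S : Finset α), S ⊆ fib cl r → r ∈ S → (fib cl r \ S).card ≤ k →
      ∀ Φ' ⊆ Φ, (∀ φ ∈ Φ', ∀ ψ ∈ Φ', ∀ u ∈ S, φ u = ψ u) →
        ((Φ'.image (res (fib cl r))).card : ℝ) ≤
          ∏ d ∈ M.filter (fun d => cl d.1 = r ∧ ¬ (d.1 ∈ S ∧ d.2 ∈ S)), fac K1 K2 M rt d := by
  intro k
  induction k with
  | zero =>
    intro S hS _ hk Φ' _ hag
    have hSC : fib cl r ⊆ S := sdiff_eq_empty_iff_subset.1 (card_eq_zero.1 (Nat.le_zero.1 hk))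
    refine le_trans ?_ (one_le_prod fun d _ => one_le_fac K1 K2 M rt d)
    exact_mod_cast card_res_le_one fun φ hφ ψ hψ u hu => hag φ hφ ψ hψ u (hSC hu)
  | succ k ih =>
    intro S hS hrS hk Φ' hΦ' hag
    rcases Φ'.eq_empty_or_nonempty with rfl | ⟨φ₀, hφ₀⟩
    · rw [image_empty, card_empty, Nat.cast_zero]
      exact prod_nonneg fun d _ => le_trans zero_le_one (one_le_fac K1 K2 M rt d)
    by_cases hSC : S = fib cl r
    · refine le_trans ?_ (one_le_prod fun d _ => one_le_fac K1 K2 M rt d)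
      exact_mod_cast card_res_le_one fun φ hφ ψ hψ u hu => hag φ hφ ψ hψ u (by rw [hSC]; exact hu)
    have hG₀ := (hΦ φ₀ (hΦ' hφ₀)).good
    obtain ⟨d, hdM, hd1, hcross⟩ := hG₀.conn r hr S hS ⟨r, hrS⟩ hSC
    have hd2 : cl d.2 = r := (hG₀.M_sub d hdM).2.symm.trans hd1
    -- the new vertex and the set of its possible values
    obtain ⟨v, hvC, hvS, hdv, hval⟩ : ∃ v ∈ fib cl r, v ∉ S ∧
        (d.1 ∈ insert v S ∧ d.2 ∈ insert v S) ∧
        ((Φ'.image fun φ => φ v).card : ℝ) ≤ fac K1 K2 M rt d := by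
      have hK2 : (1 : ℝ) ≤ if d.2 ∈ rt then ((K2 : ℝ) + 1) else max 1 ((inEdges M d.2).card : ℝ) := by
        split_ifs
        · linarith [(Nat.cast_nonneg K2 : (0 : ℝ) ≤ K2)]
        · exact le_max_left _ _
      by_cases ha : d.1 ∈ S
      · have hb : d.2 ∉ S := fun hb => hcross ⟨fun _ => hb, fun _ => ha⟩
        refine ⟨d.2, by simp [fib, hd2], hb, ⟨by simp [ha], by simp⟩, ?_⟩
        have hsub : (Φ'.image fun φ => φ d.2) ⊆ D.out (φ₀ d.1) := by
          intro z hz
          obtain ⟨φ, hφ, rfl⟩ := mem_image.1 hz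
          have h1 := ((hΦ φ (hΦ' hφ)).good.M_sub d hdM).1
          rw [odarts, mem_filter] at h1
          rw [← hag φ hφ φ₀ hφ₀ d.1 ha]
          exact h1.2.2
        calc ((Φ'.image fun φ => φ d.2).card : ℝ) ≤ (K1 : ℝ) :=
              Nat.cast_le.2 ((card_le_card hsub).trans (hD.out_card _))
          _ ≤ ((K1 : ℝ) + 1) * 1 := by linarith
          _ ≤ _ := mul_le_mul_of_nonneg_left hK2 (by positivity)
      · have hb : d.2 ∈ S := by
          by_contra hb
          exact hcross ⟨fun h => absurd h ha, fun h => absurd h hb⟩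
        refine ⟨d.1, mem_filter.2 ⟨mem_univ _, hd1⟩, ha, ⟨by simp, by simp [hb]⟩, ?_⟩
        have hmem : ∀ φ ∈ Φ', φ d.1 ∈ (inEdges M d.2).image φ := fun φ _ =>
          mem_image_of_mem _ (mem_image.2 ⟨d, mem_filter.2 ⟨hdM, rfl⟩, rfl⟩)
        have hK1 : (1 : ℝ) ≤ (K1 : ℝ) + 1 := by linarith [(Nat.cast_nonneg K1 : (0 : ℝ) ≤ K1)]
        by_cases hrt2 : d.2 ∈ rt
        · have hsub : (Φ'.image fun φ => φ d.1) ⊆ D.lin (φ₀ d.2) := by
            intro z hz
            obtain ⟨φ, hφ, rfl⟩ := mem_image.1 hz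
            rw [← hag φ hφ φ₀ hφ₀ d.2 hb]
            exact (hΦ φ (hΦ' hφ)).good.lin d.2 hrt2 (hmem φ hφ)
          calc ((Φ'.image fun φ => φ d.1).card : ℝ) ≤ (K2 : ℝ) :=
                Nat.cast_le.2 ((card_le_card hsub).trans (hD.lin_card _))
            _ ≤ 1 * ((K2 : ℝ) + 1) := by linarith
            _ ≤ _ := by
                rw [fac, if_pos hrt2]
                exact mul_le_mul_of_nonneg_right hK1 (by positivity)
        · have hsub : (Φ'.image fun φ => φ d.1) ⊆ (inEdges M d.2).image φ₀ := by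
            intro z hz
            obtain ⟨φ, hφ, rfl⟩ := mem_image.1 hz
            have h1 := (hΦ φ (hΦ' hφ)).good.kept d.2 hrt2
            have h2 := hG₀.kept d.2 hrt2
            simp only at h1 h2
            rw [h2, ← hag φ hφ φ₀ hφ₀ d.2 hb, ← h1]
            exact hmem φ hφ
          calc ((Φ'.image fun φ => φ d.1).card : ℝ) ≤ ((inEdges M d.2).card : ℝ) :=
                Nat.cast_le.2 ((card_le_card hsub).trans card_image_le)
            _ ≤ 1 * max 1 ((inEdges M d.2).card : ℝ) := by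
                rw [one_mul]; exact le_max_right _ _
            _ ≤ _ := by
                rw [fac, if_neg hrt2]
                exact mul_le_mul_of_nonneg_right hK1 (le_trans zero_le_one (le_max_left _ _))
    set B := ∏ e ∈ M.filter (fun e => cl e.1 = r ∧ ¬ (e.1 ∈ insert v S ∧ e.2 ∈ insert v S)),
      fac K1 K2 M rt e with hB
    have hB0 : 0 ≤ B := prod_nonneg fun e _ => le_trans zero_le_one (one_le_fac K1 K2 M rt e)
    have hsplit : ((Φ'.image (res (fib cl r))).card : ℝ) ≤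
        (Φ'.image (res (insert v S))).card * B := by
      refine card_res_le_mul (insert_subset hvC hS) Φ' fun φ _ => ?_
      refine ih (insert v S) (insert_subset hvC hS) (mem_insert_of_mem hrS) ?_ _
        ((filter_subset _ _).trans hΦ') fun ψ hψ ψ' hψ' u hu => ?_
      · rw [sdiff_insert, card_erase_of_mem (mem_sdiff.2 ⟨hvC, hvS⟩)]
        omega
      · exact res_eq_iff.1 ((mem_filter.1 hψ).2.trans (mem_filter.1 hψ').2.symm) u hu
    have hins : ((Φ'.image (res (insert v S))).card : ℝ) ≤ (Φ'.image fun φ => φ v).card := by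
      set z : β → (α → Option β) := fun b u => if u = v then some b else res S φ₀ u
      refine Nat.cast_le.2 ((card_le_card (t := (Φ'.image fun φ => φ v).image z) ?_).trans
        card_image_le)
      intro a ha
      obtain ⟨φ, hφ, rfl⟩ := mem_image.1 ha
      refine mem_image.2 ⟨φ v, mem_image_of_mem _ hφ, ?_⟩
      funext u
      by_cases hu : u = v
      · simp [z, res, hu]
      · by_cases huS : u ∈ S
        · simp [z, res, hu, huS, hag φ hφ φ₀ hφ₀ u huS]
        · simp [z, res, hu, huS]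
    have hprod : fac K1 K2 M rt d * B ≤
        ∏ e ∈ M.filter (fun e => cl e.1 = r ∧ ¬ (e.1 ∈ S ∧ e.2 ∈ S)), fac K1 K2 M rt e := by
      rw [hB, ← prod_insert (f := fac K1 K2 M rt) (fun h => (mem_filter.1 h).2.2 hdv)]
      refine prod_le_prod_of_subset_of_one_le (insert_subset ?_ ?_)
        (fun e _ => le_trans zero_le_one (one_le_fac K1 K2 M rt e))
        fun e _ _ => one_le_fac K1 K2 M rt e
      · exact mem_filter.2 ⟨hdM, hd1, fun h => hcross ⟨fun _ => h.2, fun _ => h.1⟩⟩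
      · intro e he
        obtain ⟨heM, he1, he2⟩ := mem_filter.1 he
        exact mem_filter.2 ⟨heM, he1,
          fun h => he2 ⟨mem_insert_of_mem h.1, mem_insert_of_mem h.2⟩⟩
    calc ((Φ'.image (res (fib cl r))).card : ℝ) ≤ (Φ'.image (res (insert v S))).card * B := hsplit
      _ ≤ fac K1 K2 M rt d * B := mul_le_mul_of_nonneg_right (hins.trans hval) hB0
      _ ≤ _ := hprod

/-! ### The bound for one cluster -/

/-- `n^c q^p` for a cluster. -/
noncomputable def mu (n : ℕ) (q : ℝ) (o : Finset (α × α)) (C : Finset α) : ℝ :=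
  (n : ℝ) ^ C.card * q ^ (dartsFrom o C).card

/-- The loss of an exceptional root. -/
noncomputable def evf (n : ℕ) (q : ℝ) (o : Finset (α × α)) (C : Finset α) : ℝ :=
  if 1 ≤ (heads o C).card ∧ mu n q o C < Real.log n + 1 then Real.log n + 2 else 1

/-- The bound for a cluster. -/
noncomputable def Bfac (n : ℕ) (q : ℝ) (K1 K2 : ℕ) (o M : Finset (α × α)) (rt : Finset α)
    (cl : α → α) (r : α) : ℝ :=
  ((2 * (fib cl r).card + 1 : ℕ) : ℝ) *
    (9 * Real.exp (2 * (heads o (fib cl r)).card) * mu n q o (fib cl r) *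
      evf n q o (fib cl r)) *
    ∏ d ∈ M.filter (fun d => cl d.1 = r), fac K1 K2 M rt d

lemma exp_log_mul {n : ℕ} (hn : 2 ≤ n) (t : ℕ) : Real.exp (t * Real.log n) = (n : ℝ) ^ t := by
  rw [Real.exp_nat_mul, Real.exp_log (by exact_mod_cast lt_of_lt_of_le two_pos hn)]

/-- Disjoint copies of a cluster on the same heads are limited by automorphisms. -/
lemma copies_factorial {n : ℕ} {q : ℝ} (hn : 2 ≤ n) (hq : 0 < q) (hH : Hyp n q H) {K1 K2 : ℕ}
    (hD : D.Bounded K1 K2) {r : α} (hr : r ∈ rt) {I : Finset β} {ψ : β → (α ↪ β)}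
    (hψ : ∀ x ∈ I, Fam F D H (Real.log n) l o M rt cl (ψ x))
    (hag : ∀ x ∈ I, ∀ y ∈ I, ∀ h ∈ heads o (fib cl r), ψ x h = ψ y h)
    (hdisj : ∀ x ∈ I, ∀ y ∈ I, ∀ u ∈ fib cl r, ∀ w ∈ fib cl r, ψ x u = ψ y w → x = y)
    (hne : I.Nonempty) :
    (I.card.factorial : ℝ) ≤ 2 * Real.exp ((heads o (fib cl r)).card * Real.log n) *
      mu n q o (fib cl r) ^ I.card := by
  classical
  obtain ⟨x₀, hx₀⟩ := hne
  set C := fib cl r with hC
  have hrC : r ∈ C := mem_filter.2 ⟨mem_univ _, (hψ x₀ hx₀).good.rt_cl r hr⟩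
  set T := (heads o C).image (ψ x₀) with hT
  set S := T ∪ (I ×ˢ C).image fun z => ψ z.1 z.2 with hS
  set E := (I ×ˢ dartsFrom o C).image fun z => s(ψ z.1 z.2.1, ψ z.1 z.2.2) with hE
  have hmemC : ∀ x ∈ I, ∀ u ∈ C, ψ x u ∈ S := fun x hx u hu =>
    mem_union_right _ (mem_image.2 ⟨(x, u), mem_product.2 ⟨hx, hu⟩, rfl⟩)
  have hmemH : ∀ x ∈ I, ∀ u ∈ heads o C, ψ x u ∈ S := fun x hx u hu =>
    mem_union_left _ (mem_image.2 ⟨u, hu, hag x₀ hx₀ x hx u hu⟩)
  have hhead : ∀ d ∈ dartsFrom o C, d.2 ∈ C ∨ d.2 ∈ heads o C := by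
    intro d hd
    by_cases h : d.2 ∈ C
    · exact Or.inl h
    · exact Or.inr (mem_sdiff.2 ⟨mem_image_of_mem _ hd, h⟩)
  have hnotC : ∀ h ∈ heads o C, h ∉ C := fun h hh => (mem_sdiff.1 hh).2
  have hdart : ∀ x ∈ I, ∀ d ∈ dartsFrom o C, d.1 ∈ C ∧ F.Adj d.1 d.2 ∧
      D.rank (ψ x d.1) < D.rank (ψ x d.2) := by
    intro x hx d hd
    obtain ⟨hdo, hd1⟩ := mem_filter.1 hd
    rw [← (hψ x hx).dart, odarts, mem_filter] at hdo
    exact ⟨hd1, hdo.2.1, hD.out_rank _ _ hdo.2.2⟩
  -- the perms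
  have hinj : Function.Injective fun z : {x // x ∈ I} × {u // u ∈ C} => ψ z.1.1 z.2.1 := by
    rintro ⟨⟨x, hx⟩, ⟨u, hu⟩⟩ ⟨⟨y, hy⟩, ⟨w, hw⟩⟩ h
    simp only at h
    have hxy := hdisj x hx y hy u hu w hw h
    subst hxy
    exact Prod.ext rfl (Subtype.ext ((ψ x).injective h))
  let g : Equiv.Perm {x // x ∈ I} → Equiv.Perm β := fun σ =>
    Equiv.Perm.extendDomain (Equiv.prodCongr σ (Equiv.refl {u // u ∈ C}))
      (Equiv.ofInjective _ hinj)
  have hgC : ∀ σ x (hx : x ∈ I) u, u ∈ C → g σ (ψ x u) = ψ (σ ⟨x, hx⟩).1 u := by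
    intro σ x hx u hu
    exact Equiv.Perm.extendDomain_apply_image _ (Equiv.ofInjective _ hinj) (⟨x, hx⟩, ⟨u, hu⟩)
  have hgO : ∀ σ z, (∀ x ∈ I, ∀ u ∈ C, ψ x u ≠ z) → g σ z = z := by
    intro σ z hz
    refine Equiv.Perm.extendDomain_apply_not_subtype _ _ ?_
    rintro ⟨⟨⟨x, hx⟩, ⟨u, hu⟩⟩, rfl⟩
    exact hz x hx u hu rfl
  have hgH : ∀ σ x (hx : x ∈ I) h, h ∈ heads o C → g σ (ψ x h) = ψ (σ ⟨x, hx⟩).1 h := by
    intro σ x hx h hh
    rw [hgO σ _ fun y hy u hu he => ?_]
    · exact hag x hx _ (σ ⟨x, hx⟩).2 h hh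
    · rw [hag x hx y hy h hh] at he
      exact hnotC h hh ((ψ y).injective he ▸ hu)
  have haut : ∀ σ, (∀ z ∉ S, g σ z = z) ∧ E.image (Sym2.map (g σ)) = E := by
    intro σ
    refine ⟨fun z hz => hgO σ z fun x hx u hu he => hz (he ▸ hmemC x hx u hu), ?_⟩
    refine eq_of_subset_of_card_le ?_
      (card_image_of_injective _ (Sym2.map.injective (g σ).injective)).ge
    intro e he
    obtain ⟨e', he', rfl⟩ := mem_image.1 he
    obtain ⟨⟨x, d⟩, hxd, rfl⟩ := mem_image.1 he'
    obtain ⟨hx, hd⟩ := mem_product.1 hxd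
    refine mem_image.2 ⟨((σ ⟨x, hx⟩).1, d), mem_product.2 ⟨(σ ⟨x, hx⟩).2, hd⟩, ?_⟩
    rw [Sym2.map_mk, hgC σ x hx d.1 (hdart x hx d hd).1]
    rcases hhead d hd with h | h
    · rw [hgC σ x hx d.2 h]
    · rw [hgH σ x hx d.2 h]
  have hfact : I.card.factorial ≤ autCount S E := by
    rw [← Fintype.card_coe I, ← Fintype.card_perm, autCount, ← Nat.card_eq_fintype_card]
    refine Nat.card_le_card_of_injective (fun σ => ⟨g σ, haut σ⟩) fun σ σ' h => Equiv.ext fun x => ?_
    have h1 : g σ (ψ x.1 r) = g σ' (ψ x.1 r) :=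
      Equiv.ext_iff.1 (congrArg Subtype.val h) _
    rw [hgC σ x.1 x.2 r hrC, hgC σ' x.1 x.2 r hrC] at h1
    exact Subtype.ext (hdisj _ (σ x).2 _ (σ' x).2 r hrC r hrC h1)
  have hedge : ∀ e ∈ E, e ∈ H.edgeSet ∧ ∀ z ∈ e, z ∈ S := by
    intro e he
    obtain ⟨⟨x, d⟩, hxd, rfl⟩ := mem_image.1 he
    obtain ⟨hx, hd⟩ := mem_product.1 hxd
    obtain ⟨hd1, hadj, -⟩ := hdart x hx d hd
    refine ⟨(hψ x hx).hom _ _ hadj, fun z hz => ?_⟩
    rcases Sym2.mem_iff.1 hz with rfl | rfl
    · exact hmemC x hx _ hd1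
    · rcases hhead d hd with h | h
      · exact hmemC x hx _ h
      · exact hmemH x hx _ h
  have hEcard : E.card = I.card * (dartsFrom o C).card := by
    rw [hE, card_image_of_injOn, card_product]
    rintro ⟨x, d⟩ hxd ⟨y, d'⟩ hyd h
    obtain ⟨hx, hd⟩ := mem_product.1 (mem_coe.1 hxd)
    obtain ⟨hy, hd'⟩ := mem_product.1 (mem_coe.1 hyd)
    obtain ⟨hd1, -, hrk⟩ := hdart x hx d hd
    obtain ⟨hd1', -, hrk'⟩ := hdart y hy d' hd'
    simp only [Sym2.eq_iff] at h
    have hxy : x = y := by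
      rcases h with ⟨h1, -⟩ | ⟨h1, -⟩
      · exact hdisj x hx y hy _ hd1 _ hd1' h1
      · rcases hhead d' hd' with hh | hh
        · exact hdisj x hx y hy _ hd1 _ hh h1
        · rw [hag y hy x hx _ hh] at h1
          exact absurd ((ψ x).injective h1 ▸ hd1) (hnotC _ hh)
    subst hxy
    rcases h with ⟨h1, h2⟩ | ⟨h1, h2⟩
    · exact Prod.ext rfl (Prod.ext ((ψ x).injective h1) ((ψ x).injective h2))
    · exfalso
      rw [h1, h2] at hrk
      omega
  have hScard : S.card ≤ (heads o C).card + I.card * C.card :=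
    (card_union_le _ _).trans (add_le_add card_image_le
      (card_image_le.trans (card_product _ _).le))
  have hn1 : (1 : ℝ) ≤ n := by exact_mod_cast le_trans one_le_two hn
  calc (I.card.factorial : ℝ) ≤ autCount S E := by exact_mod_cast hfact
    _ ≤ 2 * (n : ℝ) ^ S.card * q ^ E.card := hH S E hedge
    _ ≤ 2 * (n : ℝ) ^ ((heads o C).card + I.card * C.card) * q ^ E.card := by
        refine mul_le_mul_of_nonneg_right (mul_le_mul_of_nonneg_left ?_ (by norm_num))
          (by positivity)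
        exact pow_le_pow_right₀ hn1 hScard
    _ = _ := by
        rw [hEcard, exp_log_mul hn, mu, mul_pow, ← pow_mul, ← pow_mul, pow_add,
          mul_comm C.card, mul_comm (dartsFrom o C).card]
        ring

/-- Restrictions to a cluster, for prescribed values on its heads. -/
lemma cluster_bound {n : ℕ} {q : ℝ} (hn : 2 ≤ n) (hq : 0 < q) (hH : Hyp n q H) {K1 K2 : ℕ}
    (hD : D.Bounded K1 K2) {Φ : Finset (α ↪ β)}
    (hΦ : ∀ φ ∈ Φ, Fam F D H (Real.log n) (Real.log (1 / q)) o M rt cl φ) {r : α} (hr : r ∈ rt)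
    (hag : ∀ φ ∈ Φ, ∀ ψ ∈ Φ, ∀ h ∈ heads o (fib cl r), φ h = ψ h) :
    ((Φ.image (res (fib cl r))).card : ℝ) ≤ Bfac n q K1 K2 o M rt cl r := by
  classical
  have hn0 : (0 : ℝ) < n := by exact_mod_cast lt_of_lt_of_le two_pos hn
  have hN : 0 ≤ Real.log n := Real.log_nonneg (by exact_mod_cast le_trans one_le_two hn)
  have hμ0 : 0 < mu n q o (fib cl r) := by unfold mu; positivity
  have hev : (0 : ℝ) ≤ evf n q o (fib cl r) := by unfold evf; split_ifs <;> linarith
  have hP : (0 : ℝ) ≤ ∏ d ∈ M.filter (fun d => cl d.1 = r), fac K1 K2 M rt d :=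
    prod_nonneg fun d _ => le_trans zero_le_one (one_le_fac K1 K2 M rt d)
  rcases Φ.eq_empty_or_nonempty with rfl | ⟨φ₀, hφ₀⟩
  · rw [image_empty, card_empty, Nat.cast_zero]
    unfold Bfac
    positivity
  have hrC : r ∈ fib cl r := mem_filter.2 ⟨mem_univ _, (hΦ φ₀ hφ₀).good.rt_cl r hr⟩
  -- fix the value at the root
  have h1 : ((Φ.image (res (fib cl r))).card : ℝ) ≤
      (Φ.image (res {r})).card * ∏ d ∈ M.filter (fun d => cl d.1 = r), fac K1 K2 M rt d := by
    refine card_res_le_mul (singleton_subset_iff.2 hrC) Φ fun φ _ => ?_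
    refine (card_cluster_le hD hΦ hr (fib cl r \ {r}).card {r} (singleton_subset_iff.2 hrC)
      (mem_singleton_self r) le_rfl _ (filter_subset _ _)
      (fun ψ hψ ψ' hψ' u hu =>
        res_eq_iff.1 ((mem_filter.1 hψ).2.trans (mem_filter.1 hψ').2.symm) u hu)).trans ?_
    exact prod_le_prod_of_subset_of_one_le
      (fun d hd => mem_filter.2 ⟨(mem_filter.1 hd).1, (mem_filter.1 hd).2.1⟩)
      (fun d _ => le_trans zero_le_one (one_le_fac K1 K2 M rt d))
      fun d _ _ => one_le_fac K1 K2 M rt d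
  set X := Φ.image fun φ => φ r with hX
  have h2 : (Φ.image (res {r})).card ≤ X.card := by
    set z : β → (α → Option β) := fun b u => if u = r then some b else none
    refine (card_le_card (t := X.image z) ?_).trans card_image_le
    intro a ha
    obtain ⟨φ, hφ, rfl⟩ := mem_image.1 ha
    refine mem_image.2 ⟨φ r, mem_image_of_mem _ hφ, ?_⟩
    funext u
    by_cases hu : u = r <;> simp [z, res, hu]
  -- choose an embedding for each possible root value
  have hex : ∀ x, ∃ φ, x ∈ X → φ ∈ Φ ∧ φ r = x := fun x => by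
    by_cases hx : x ∈ X
    · obtain ⟨φ, hφ, he⟩ := mem_image.1 hx
      exact ⟨φ, fun _ => ⟨hφ, he⟩⟩
    · exact ⟨φ₀, fun h => absurd h hx⟩
  choose ψ hψ using hex
  set f : β → Finset β := fun x => (range (fib cl r).card).image fun i => D.owner^[i] x
  obtain ⟨I, hIX, hXI, hind⟩ := exists_indep X f (fib cl r).card
    fun x _ => card_image_le.trans (card_range _).le
  have hdisj : ∀ x ∈ I, ∀ y ∈ I, ∀ u ∈ fib cl r, ∀ w ∈ fib cl r, ψ x u = ψ y w → x = y := by
    intro x hx y hy u hu w hw h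
    by_contra hne
    obtain ⟨i, hi, hxi⟩ := owner_iterate (hΦ _ (hψ x (hIX hx)).1) hu
    obtain ⟨j, hj, hyj⟩ := owner_iterate (hΦ _ (hψ y (hIX hy)).1) hw
    rw [(hψ x (hIX hx)).2] at hxi
    rw [(hψ y (hIX hy)).2, ← h] at hyj
    rcases le_total i j with hij | hij
    · refine hind x hx y hy hne (mem_image.2 ⟨j - i, mem_range.2 (by omega), ?_⟩)
      rw [← hxi, ← Function.iterate_add_apply, Nat.sub_add_cancel hij, hyj]
    · refine hind y hy x hx (Ne.symm hne) (mem_image.2 ⟨i - j, mem_range.2 (by omega), ?_⟩)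
      rw [← hyj, ← Function.iterate_add_apply, Nat.sub_add_cancel hij, hxi]
  have hXne : X.Nonempty := ⟨φ₀ r, mem_image_of_mem _ hφ₀⟩
  have hIne : I.Nonempty := by
    rcases I.eq_empty_or_nonempty with rfl | h
    · simp at hXI
      exact absurd hXI hXne.ne_empty
    · exact h
  have hfac := copies_factorial (l := Real.log (1 / q)) hn hq hH hD hr
    (fun x hx => hΦ _ (hψ x (hIX hx)).1)
    (fun x hx y hy h hh => hag _ (hψ x (hIX hx)).1 _ (hψ y (hIX hy)).1 h hh) hdisj hIne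
  have hμt : 1 ≤ (heads o (fib cl r)).card →
      Real.exp (-((heads o (fib cl r)).card : ℝ)) ≤ mu n q o (fib cl r) := by
    intro ht
    have hw := (hΦ φ₀ hφ₀).good.rt_weight r hr
    simp only [(hΦ φ₀ hφ₀).dart] at hw
    have h3 := hw (card_pos.1 ht)
    rw [weight, one_div, Real.log_inv] at h3
    rw [← Real.exp_log hμ0, Real.exp_le_exp, mu, Real.log_mul (by positivity) (by positivity),
      Real.log_pow, Real.log_pow]
    linarith
  have hm : (I.card : ℝ) ≤ 9 * Real.exp (2 * (heads o (fib cl r)).card) *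
      mu n q o (fib cl r) * evf n q o (fib cl r) := copies_bound hN hμ0 hμt hfac
  calc ((Φ.image (res (fib cl r))).card : ℝ)
      ≤ (Φ.image (res {r})).card * ∏ d ∈ M.filter (fun d => cl d.1 = r), fac K1 K2 M rt d := h1
    _ ≤ (((2 * (fib cl r).card + 1 : ℕ) : ℝ) * (I.card : ℝ)) *
          ∏ d ∈ M.filter (fun d => cl d.1 = r), fac K1 K2 M rt d := by
        refine mul_le_mul_of_nonneg_right ?_ hP
        exact_mod_cast h2.trans hXI
    _ ≤ _ := by
        unfold Bfac
        gcongr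

/-- All embeddings of the family. -/
lemma card_le_prod {n : ℕ} {q : ℝ} (hn : 2 ≤ n) (hq : 0 < q) (hH : Hyp n q H) {K1 K2 : ℕ}
    (hD : D.Bounded K1 K2) {Φ : Finset (α ↪ β)}
    (hΦ : ∀ φ ∈ Φ, Fam F D H (Real.log n) (Real.log (1 / q)) o M rt cl φ) {φ₀ : α ↪ β}
    (hφ₀ : φ₀ ∈ Φ) : (Φ.card : ℝ) ≤ ∏ r ∈ rt, Bfac n q K1 K2 o M rt cl r := by
  classical
  have hn0 : (0 : ℝ) < n := by exact_mod_cast lt_of_lt_of_le two_pos hn
  have hN : 0 ≤ Real.log n := Real.log_nonneg (by exact_mod_cast le_trans one_le_two hn)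
  have hnn : ∀ r, 0 ≤ Bfac n q K1 K2 o M rt cl r := fun r => by
    have h1 : 0 ≤ evf n q o (fib cl r) := by unfold evf; split_ifs <;> linarith
    have h2 : (0 : ℝ) ≤ ∏ d ∈ M.filter (fun d => cl d.1 = r), fac K1 K2 M rt d :=
      prod_nonneg fun d _ => le_trans zero_le_one (one_le_fac K1 K2 M rt d)
    have h3 : 0 ≤ mu n q o (fib cl r) := by unfold mu; positivity
    unfold Bfac
    positivity
  suffices key : ∀ k (Q : Finset α), Q.card = k → Q ⊆ rt →
      (∀ r ∈ Q, ∀ h ∈ heads o (fib cl r), cl h ∈ Q) →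
      ((Φ.image (res (univ.filter fun u => cl u ∈ Q))).card : ℝ) ≤
        ∏ r ∈ Q, Bfac n q K1 K2 o M rt cl r by
    have h := key _ rt rfl Subset.rfl fun r _ h _ => (hΦ φ₀ hφ₀).good.cl_rt h
    rw [filter_true_of_mem fun u _ => (hΦ φ₀ hφ₀).good.cl_rt u, card_res_univ] at h
    exact h
  intro k
  induction k with
  | zero =>
    intro Q hQ _ _
    rw [card_eq_zero.1 hQ, prod_empty]
    exact_mod_cast card_res_le_one fun φ _ ψ _ u hu => absurd (mem_filter.1 hu).2 (notMem_empty _)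
  | succ k ih =>
    intro Q hQ hQrt hcl
    obtain ⟨a, ha, hmin⟩ := exists_min_image Q (fun r => D.rank (φ₀ r)) (card_pos.1 (by omega))
    have hlt : ∀ r ∈ Q, ∀ h ∈ heads o (fib cl r), D.rank (φ₀ r) < D.rank (φ₀ (cl h)) := by
      intro r hr h hh
      have h1 := (hΦ φ₀ hφ₀).good.rt_heads r (hQrt hr) h
      simp only [(hΦ φ₀ hφ₀).dart] at h1
      exact lt_of_lt_of_le (h1 hh) ((hΦ φ₀ hφ₀).good.rank_cl h)
    have hclosed : ∀ r ∈ Q, ∀ h ∈ heads o (fib cl r), cl h ∈ Q.erase a := by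
      intro r hr h hh
      refine mem_erase.2 ⟨fun he => ?_, hcl r hr h hh⟩
      have h2 := hlt r hr h hh
      rw [he] at h2
      exact absurd (hmin r hr) (not_le.2 h2)
    have hih := ih (Q.erase a) (by rw [card_erase_of_mem ha, hQ]; omega)
      ((erase_subset _ _).trans hQrt) fun r hr => hclosed r (mem_of_mem_erase hr)
    set S := univ.filter (fun u => cl u ∈ Q.erase a)
    set T := univ.filter (fun u => cl u ∈ Q)
    have hST : S ⊆ T := fun u hu =>
      mem_filter.2 ⟨mem_univ _, mem_of_mem_erase (mem_filter.1 hu).2⟩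
    rw [← mul_prod_erase Q _ ha, mul_comm]
    refine (card_res_le_mul hST Φ (B := Bfac n q K1 K2 o M rt cl a) fun φ _ => ?_).trans
      (mul_le_mul_of_nonneg_right hih (hnn a))
    set Φ' := Φ.filter fun ψ => res S ψ = res S φ
    have hag : ∀ ψ ∈ Φ', ∀ ψ' ∈ Φ', ∀ u ∈ S, ψ u = ψ' u := fun ψ hψ ψ' hψ' u hu =>
      res_eq_iff.1 ((mem_filter.1 hψ).2.trans (mem_filter.1 hψ').2.symm) u hu
    refine le_trans (Nat.cast_le.2 ?_) (cluster_bound hn hq hH hD
      (fun ψ hψ => hΦ ψ (mem_filter.1 hψ).1) (hQrt ha)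
      fun ψ hψ ψ' hψ' h hh => hag ψ hψ ψ' hψ' h (mem_filter.2 ⟨mem_univ _, hclosed a ha h hh⟩))
    set z : (α → Option β) → (α → Option β) := fun b u => if u ∈ S then res S φ u else b u
    refine (card_le_card (t := (Φ'.image (res (fib cl a))).image z) ?_).trans card_image_le
    intro b hb
    obtain ⟨ψ, hψ, rfl⟩ := mem_image.1 hb
    refine mem_image.2 ⟨_, mem_image_of_mem _ hψ, ?_⟩
    funext u
    by_cases hu : u ∈ S
    · simp only [z, if_pos hu]
      rw [← (mem_filter.1 hψ).2]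
      simp [res, hu, hST hu]
    · simp only [z, if_neg hu, res]
      have e : u ∈ fib cl a ↔ u ∈ T := by
        simp only [fib, T, mem_filter, mem_univ, true_and]
        refine ⟨fun h => h ▸ ha, fun h => ?_⟩
        by_contra hne
        exact hu (mem_filter.2 ⟨mem_univ _, mem_erase.2 ⟨hne, h⟩⟩)
      by_cases hv : u ∈ T
      · rw [if_pos hv, if_pos (e.2 hv)]
      · rw [if_neg hv, if_neg fun h => hv (e.1 h)]

omit [Fintype β] in
/-- The cost of the choices against the link factors. -/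
lemma cost_mul_fac_le {K1 K2 : ℕ} (hcard : M.card + rt.card = Fintype.card α) :
    (∏ d ∈ M, fac K1 K2 M rt d) * costOn K1 K2 M (univ \ rt) ≤
      (12 * (4 : ℝ) ^ K1 * ((K2 : ℝ) + 1)) ^ M.card := by
  classical
  set j : α → ℕ := fun u => (inEdges M u).card
  have hj : ∀ u, j u = (M.filter fun d => d.2 = u).card := fun u =>
    card_image_of_injOn fun a ha b hb h => Prod.ext h
      ((mem_filter.1 ha).2.trans (mem_filter.1 hb).2.symm)
  set w : α → ℝ := fun u =>
    ((K1 : ℝ) + 1) * if u ∈ rt then ((K2 : ℝ) + 1) else max 1 (j u : ℝ)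
  have hw : ∀ u, 0 ≤ w u := fun u => by
    simp only [w]
    refine mul_nonneg (by positivity) ?_
    split_ifs
    · positivity
    · exact le_trans zero_le_one (le_max_left _ _)
  have e1 : ∏ d ∈ M, fac K1 K2 M rt d = ∏ u, w u ^ j u := by
    rw [← prod_fiberwise M Prod.snd]
    refine prod_congr rfl fun u _ => ?_
    rw [prod_congr rfl fun d hd => show fac K1 K2 M rt d = w u by
      rw [fac, (mem_filter.1 hd).2], prod_const, hj]
  have e2 : costOn K1 K2 M (univ \ rt) =
      ∏ u, if u ∈ rt then (1 : ℝ) else 2 ^ K1 * 2 ^ (j u + 1) * K2.choose (j u) := by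
    rw [costOn, prod_ite, prod_const_one, one_mul]
    refine prod_congr ?_ fun u _ => rfl
    ext u
    simp
  have hK2 : (1 : ℝ) ≤ (K2 : ℝ) + 1 := by linarith [(Nat.cast_nonneg K2 : (0 : ℝ) ≤ K2)]
  have hper : ∀ u, (w u ^ j u * if u ∈ rt then (1 : ℝ) else 2 ^ K1 * 2 ^ (j u + 1) * K2.choose (j u))
      ≤ (if u ∈ rt then (1 : ℝ) else 2 ^ (K1 + 1)) *
        (6 * ((K1 : ℝ) + 1) * ((K2 : ℝ) + 1)) ^ j u := by
    intro u
    by_cases hu : u ∈ rt
    · simp only [w, if_pos hu, mul_one, one_mul]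
      refine pow_le_pow_left₀ (by positivity) ?_ _
      have : (0 : ℝ) ≤ ((K1 : ℝ) + 1) * ((K2 : ℝ) + 1) := by positivity
      linarith
    · simp only [w, if_neg hu]
      rcases Nat.eq_zero_or_pos (j u) with h0 | h0
      · simp [h0, pow_succ]
      · have hj1 : (1 : ℝ) ≤ (j u : ℝ) := by exact_mod_cast h0
        rw [max_eq_right hj1]
        set m := j u
        have hf : (0 : ℝ) < m.factorial := by exact_mod_cast Nat.factorial_pos m
        have hch : (K2.choose m : ℝ) * m.factorial ≤ ((K2 : ℝ) + 1) ^ m := by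
          calc (K2.choose m : ℝ) * m.factorial = (K2.descFactorial m : ℝ) := by
                rw [Nat.descFactorial_eq_factorial_mul_choose]; push_cast; ring
            _ ≤ (K2 : ℝ) ^ m := by exact_mod_cast Nat.descFactorial_le_pow K2 m
            _ ≤ _ := pow_le_pow_left₀ (by positivity) (by linarith) m
        have hmm : (m : ℝ) ^ m ≤ 3 ^ m * m.factorial := by
          have h1 := Real.pow_div_factorial_le_exp (m : ℝ) (Nat.cast_nonneg m) m
          rw [div_le_iff₀ hf] at h1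
          refine h1.trans (mul_le_mul_of_nonneg_right ?_ hf.le)
          rw [← Real.exp_one_pow]
          exact pow_le_pow_left₀ (Real.exp_pos _).le
            (by linarith [Real.exp_one_lt_d9]) m
        have hcm : (K2.choose m : ℝ) * (m : ℝ) ^ m ≤ ((K2 : ℝ) + 1) ^ m * 3 ^ m := by
          calc (K2.choose m : ℝ) * (m : ℝ) ^ m ≤ (K2.choose m : ℝ) * (3 ^ m * m.factorial) :=
                mul_le_mul_of_nonneg_left hmm (Nat.cast_nonneg _)
            _ = (K2.choose m : ℝ) * m.factorial * 3 ^ m := by ring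
            _ ≤ _ := mul_le_mul_of_nonneg_right hch (by positivity)
        calc (((K1 : ℝ) + 1) * m) ^ m * (2 ^ K1 * 2 ^ (m + 1) * K2.choose m)
            = ((K1 : ℝ) + 1) ^ m * (2 ^ K1 * 2 ^ (m + 1)) * ((K2.choose m : ℝ) * (m : ℝ) ^ m) := by
              rw [mul_pow]; ring
          _ ≤ ((K1 : ℝ) + 1) ^ m * (2 ^ K1 * 2 ^ (m + 1)) * (((K2 : ℝ) + 1) ^ m * 3 ^ m) :=
              mul_le_mul_of_nonneg_left hcm (by positivity)
          _ = _ := by
              rw [mul_pow, mul_pow, show (6 : ℝ) = 2 * 3 by norm_num, mul_pow]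
              ring
  have hnot : (univ.filter fun u : α => u ∉ rt).card = M.card := by
    rw [filter_not, filter_univ_mem, card_sdiff_of_subset (subset_univ _), card_univ]
    omega
  have hsumj : ∑ u, j u = M.card := by
    simp only [hj]
    exact (card_eq_sum_card_fiberwise fun d _ => mem_univ _).symm
  rw [e1, e2, ← prod_mul_distrib]
  calc ∏ u, w u ^ j u * (if u ∈ rt then (1 : ℝ) else 2 ^ K1 * 2 ^ (j u + 1) * K2.choose (j u))
      ≤ ∏ u, (if u ∈ rt then (1 : ℝ) else 2 ^ (K1 + 1)) *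
          (6 * ((K1 : ℝ) + 1) * ((K2 : ℝ) + 1)) ^ j u := by
        refine prod_le_prod (fun u _ => mul_nonneg (pow_nonneg (hw u) _) ?_) fun u _ => hper u
        split_ifs <;> positivity
    _ = ((2 : ℝ) ^ (K1 + 1) * (6 * ((K1 : ℝ) + 1) * ((K2 : ℝ) + 1))) ^ M.card := by
        rw [prod_mul_distrib, prod_pow_eq_pow_sum, hsumj, prod_ite, prod_const_one, one_mul,
          prod_const, hnot, ← mul_pow]
    _ ≤ _ := by
        refine pow_le_pow_left₀ (by positivity) ?_ _
        have h2 : (K1 : ℝ) + 1 ≤ 2 ^ K1 := by exact_mod_cast K1.lt_two_pow_self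
        calc (2 : ℝ) ^ (K1 + 1) * (6 * ((K1 : ℝ) + 1) * ((K2 : ℝ) + 1))
            ≤ 2 ^ (K1 + 1) * (6 * 2 ^ K1 * ((K2 : ℝ) + 1)) := by gcongr
          _ = _ := by
              rw [show (4 : ℝ) = 2 * 2 by norm_num, mul_pow]
              ring

end Count

open Vale.Agent.P064.Count in
/-- The counting step, with an explicit constant. -/
theorem count_cert_le {α β : Type*} [Fintype α] [DecidableEq α] [Fintype β] [DecidableEq β]
    {n : ℕ} {q : ℝ} (hn : 2 ≤ n) (hq : 0 < q) (hq2 : q ≤ 1 / 2) (H : SimpleGraph β)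
    (hH : Hyp n q H) (D : Deco β)
    (hD : D.Bounded ⌊2 * (Real.log n + 1) / Real.log (1 / q)⌋₊ ⌊Real.log n + 1⌋₊)
    (F : SimpleGraph α) [DecidableRel F.Adj] (hF : ∀ a, ∃ b, F.Adj a b)
    (o M : Finset (α × α)) (rt : Finset α) (Ψ : Finset (α ↪ β)) (ps : (α ↪ β) → PS α)
    (hΨ : ∀ φ ∈ Ψ, (∀ a b, F.Adj a b → H.Adj (φ a) (φ b)) ∧
      Good F D (Real.log n) (Real.log (1 / q)) φ (ps φ) ∧
      odarts F D φ = o ∧ (ps φ).M = M ∧ (ps φ).rt = rt) :
    (Ψ.card : ℝ) *
        costOn ⌊2 * (Real.log n + 1) / Real.log (1 / q)⌋₊ ⌊Real.log n + 1⌋₊ M (univ \ rt) ≤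
      (n : ℝ) ^ Fintype.card α * (countC * Real.log n ^ expo n q * q) ^ F.edgeFinset.card := by
  classical
  set N := Real.log n with hNdef
  set l := Real.log (1 / q) with hldef
  set K1 := ⌊2 * (N + 1) / l⌋₊
  set K2 := ⌊N + 1⌋₊
  have hN : 2 / 3 ≤ N := by
    have h2 : Real.log 2 ≤ N := Real.log_le_log (by norm_num) (by exact_mod_cast hn)
    linarith [Real.log_two_gt_d9]
  have hl : 0 < l := Real.log_pos (by rw [lt_div_iff₀ hq]; linarith)
  have hn0 : (0 : ℝ) < n := by exact_mod_cast lt_of_lt_of_le two_pos hn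
  have hC0 : 0 < countC := lt_of_lt_of_le one_pos one_le_countC
  rcases Ψ.eq_empty_or_nonempty with rfl | ⟨φ₀, hφ₀⟩
  · simp only [card_empty, Nat.cast_zero, zero_mul]
    have : 0 ≤ N ^ expo n q := Real.rpow_nonneg (by linarith) _
    positivity
  set cl := (ps φ₀).cl with hcl
  obtain ⟨-, hG₀, -, hM₀, hrt₀⟩ := hΨ φ₀ hφ₀
  have hfam : ∀ φ ∈ Ψ, Fam F D H N l o M rt cl φ := by
    intro φ hφ
    obtain ⟨hhom, hG, ho, hM, hrt⟩ := hΨ φ hφ
    refine ⟨hhom, ?_, ho⟩
    have he : ps φ = ⟨rt, M, cl⟩ := by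
      have h1 := cl_eq hG₀ hG (hM₀.trans hM.symm) (hrt₀.trans hrt.symm)
      rcases hp : ps φ with ⟨a, b, c⟩
      rw [hp] at hM hrt h1
      simp only at hM hrt h1
      subst hM hrt h1
      rfl
    rwa [he] at hG
  obtain ⟨-, hG, hdart⟩ := hfam φ₀ hφ₀
  have hbig := card_le_prod hn hq hH hD hfam hφ₀
  -- counting identities
  set e := F.edgeFinset.card
  set k := Fintype.card α
  set K := M.card
  have hKk : K + rt.card = k := hG.M_card
  have hMcl : ∀ d ∈ M, cl d.1 ∈ rt := fun d _ => hG.cl_rt d.1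
  have hosum : o.card = e := by
    refine card_bij (fun d _ => s(d.1, d.2)) (fun d hd => ?_) (fun d hd d' hd' h => ?_)
      fun z hz => ?_
    · rw [← hdart, odarts, mem_filter] at hd
      exact SimpleGraph.mem_edgeFinset.2 hd.2.1
    · rw [← hdart, odarts, mem_filter] at hd hd'
      rcases Sym2.eq_iff.1 h with ⟨h1, h2⟩ | ⟨h1, h2⟩
      · exact Prod.ext h1 h2
      · exfalso
        have r1 := hD.out_rank _ _ hd.2.2
        have r2 := hD.out_rank _ _ hd'.2.2
        rw [h1, h2] at r1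
        omega
    · induction z using Sym2.ind with
      | _ a b =>
        rw [SimpleGraph.mem_edgeFinset, SimpleGraph.mem_edgeSet] at hz
        rcases hG.orient a b hz with h | h
        · exact ⟨(a, b), by rw [← hdart, odarts, mem_filter]; exact ⟨mem_univ _, hz, h⟩, rfl⟩
        · exact ⟨(b, a), by rw [← hdart, odarts, mem_filter]; exact ⟨mem_univ _, hz.symm, h⟩,
            Sym2.eq_swap⟩
  have hk2e : k ≤ 2 * e := by
    rw [← hosum, two_mul]
    have h1 : (univ : Finset α) ⊆ o.image Prod.fst ∪ o.image Prod.snd := by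
      intro a _
      obtain ⟨b, hb⟩ := hF a
      rcases hG.orient a b hb with h | h
      · exact mem_union_left _ (mem_image.2
          ⟨(a, b), by rw [← hdart, odarts, mem_filter]; exact ⟨mem_univ _, hb, h⟩, rfl⟩)
      · exact mem_union_right _ (mem_image.2
          ⟨(b, a), by rw [← hdart, odarts, mem_filter]; exact ⟨mem_univ _, hb.symm, h⟩, rfl⟩)
    exact ((card_univ (α := α)).symm.le.trans (card_le_card h1)).trans
      ((card_union_le _ _).trans (add_le_add card_image_le card_image_le))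
  have hpsum : ∑ r ∈ rt, (dartsFrom o (fib cl r)).card = e := by
    rw [← hosum, card_eq_sum_card_fiberwise fun d (_ : d ∈ o) => hG.cl_rt d.1]
    refine sum_congr rfl fun r _ => ?_
    congr 1
    ext d
    simp [dartsFrom, fib]
  have hcsum : ∑ r ∈ rt, (fib cl r).card = k := by
    show ∑ r ∈ rt, (univ.filter fun w => cl w = r).card = k
    exact (card_eq_sum_card_fiberwise fun u (_ : u ∈ (univ : Finset α)) => hG.cl_rt u).symm
  have htM : ∀ r ∈ rt, (heads o (fib cl r)).card + (M.filter fun d => cl d.1 = r).card ≤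
      (dartsFrom o (fib cl r)).card := by
    intro r _
    have h1 : heads o (fib cl r) ⊆
        ((dartsFrom o (fib cl r)).filter fun d => d.2 ∉ fib cl r).image Prod.snd := by
      intro h hh
      obtain ⟨hh1, hh2⟩ := mem_sdiff.1 hh
      obtain ⟨d, hd, rfl⟩ := mem_image.1 hh1
      exact mem_image.2 ⟨d, mem_filter.2 ⟨hd, hh2⟩, rfl⟩
    have h2 : (M.filter fun d => cl d.1 = r) ⊆
        (dartsFrom o (fib cl r)).filter fun d => d.2 ∈ fib cl r := by
      intro d hd
      obtain ⟨hdM, hd1⟩ := mem_filter.1 hd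
      obtain ⟨ho', heq⟩ := hG.M_sub d hdM
      simp only at ho' heq
      rw [hdart] at ho'
      exact mem_filter.2 ⟨mem_filter.2 ⟨ho', by simp [fib, hd1]⟩, by simp [fib, ← heq, hd1]⟩
    have h3 := card_filter_add_card_filter_not (s := dartsFrom o (fib cl r))
      fun d => d.2 ∈ fib cl r
    have h4 := (card_le_card h1).trans card_image_le
    have h5 := card_le_card h2
    omega
  have hMsum : ∑ r ∈ rt, (M.filter fun d => cl d.1 = r).card = K :=
    (card_eq_sum_card_fiberwise fun d (_ : d ∈ M) => hG.cl_rt d.1).symm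
  set ev := (rt.filter fun r => 1 ≤ (heads o (fib cl r)).card ∧ mu n q o (fib cl r) < N + 1).card
    with hev
  have htK : (∑ r ∈ rt, (heads o (fib cl r)).card) + K ≤ e := by
    rw [← hMsum, ← sum_add_distrib, ← hpsum]
    exact sum_le_sum htM
  have hevt : ev ≤ ∑ r ∈ rt, (heads o (fib cl r)).card := by
    rw [hev, card_filter]
    exact sum_le_sum fun r _ => by split_ifs with h <;> omega
  have hXe : K + ev ≤ e := by omega
  have hsumN : ((K : ℝ) + ev) * N ≤ e * l + ev * Real.log (N + 1) := by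
    have h1 : ∀ r ∈ rt, ((fib cl r).card : ℝ) * N ≤ (dartsFrom o (fib cl r)).card * l +
        (if 1 ≤ (heads o (fib cl r)).card ∧ mu n q o (fib cl r) < N + 1
          then Real.log (N + 1) else N) := by
      intro r hr
      split_ifs with h
      · have h2 := Real.log_lt_log (by unfold mu; positivity) h.2
        rw [mu, Real.log_mul (by positivity) (by positivity), Real.log_pow, Real.log_pow] at h2
        have hlq : l = -Real.log q := by rw [hldef, one_div, Real.log_inv]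
        rw [hlq]
        linarith [show Real.log n = N from rfl]
      · have := hG.rt_nonroot r hr
        simp only at this
        rw [hdart] at this
        linarith
    have h2 := sum_le_sum h1
    rw [sum_add_distrib, ← sum_mul, ← sum_mul, ← Nat.cast_sum, ← Nat.cast_sum, hcsum, hpsum,
      sum_ite, sum_const, sum_const, nsmul_eq_mul, nsmul_eq_mul, ← hev] at h2
    have h3 : ((rt.filter fun r => ¬ (1 ≤ (heads o (fib cl r)).card ∧
        mu n q o (fib cl r) < N + 1)).card : ℝ) = (rt.card : ℝ) - ev := by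
      rw [eq_sub_iff_add_eq, ← Nat.cast_add, Nat.cast_inj, hev, add_comm]
      exact card_filter_add_card_filter_not _
    rw [h3, ← hKk, Nat.cast_add] at h2
    linarith
  have hK1K : (K1 * K : ℕ) ≤ 5 * e := by
    have h1 : (K : ℝ) * N ≤ e * l := by
      have h2 := sum_le_sum fun r (hr : r ∈ rt) => hG.rt_nonroot r hr
      simp only [hdart] at h2
      rw [← sum_mul, ← sum_mul, sum_sub_distrib, ← Nat.cast_sum, ← Nat.cast_sum, hcsum, hpsum,
        sum_const, nsmul_eq_mul, mul_one, ← hKk, Nat.cast_add, add_sub_cancel_right] at h2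
      exact h2
    have h2 : (K1 : ℝ) ≤ 2 * (N + 1) / l := Nat.floor_le (by positivity)
    rw [le_div_iff₀ hl] at h2
    have h3 : (K1 : ℝ) * K * N ≤ 5 * e * N := by
      have hK1 : (0 : ℝ) ≤ K1 := Nat.cast_nonneg _
      have he0 : (0 : ℝ) ≤ e := Nat.cast_nonneg _
      calc (K1 : ℝ) * K * N = K1 * (K * N) := by ring
        _ ≤ K1 * (e * l) := mul_le_mul_of_nonneg_left h1 hK1
        _ = (K1 * l) * e := by ring
        _ ≤ (2 * (N + 1)) * e := mul_le_mul_of_nonneg_right h2 he0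
        _ ≤ (5 * N) * e := mul_le_mul_of_nonneg_right (by linarith) he0
        _ = _ := by ring
    exact_mod_cast le_of_mul_le_mul_right h3 (by linarith)
  -- assemble
  have hevprod : ∏ r ∈ rt, evf n q o (fib cl r) = (N + 2) ^ ev := by
    simp only [evf, ← hNdef]
    rw [prod_ite, prod_const, prod_const_one, mul_one]
  have hmuprod : ∏ r ∈ rt, mu n q o (fib cl r) = (n : ℝ) ^ k * q ^ e := by
    simp only [mu]
    rw [prod_mul_distrib, prod_pow_eq_pow_sum, prod_pow_eq_pow_sum, hcsum, hpsum]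
  have hMprod : ∏ r ∈ rt, ∏ d ∈ M.filter (fun d => cl d.1 = r), fac K1 K2 M rt d =
      ∏ d ∈ M, fac K1 K2 M rt d := prod_fiberwise_of_maps_to hMcl _
  have hsmall : ∏ r ∈ rt, (((2 * (fib cl r).card + 1 : ℕ) : ℝ) * 9) ≤ (27 : ℝ) ^ k := by
    have h1 : ∀ r ∈ rt, ((2 * (fib cl r).card + 1 : ℕ) : ℝ) * 9 ≤ 27 ^ (fib cl r).card := by
      intro r hr
      have hc : 1 ≤ (fib cl r).card :=
        card_pos.2 ⟨r, by simpa [fib] using hG.rt_cl r hr⟩
      have h3 : ((2 * (fib cl r).card + 1 : ℕ) : ℝ) ≤ 3 ^ (fib cl r).card := by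
        have := one_add_mul_le_pow (a := (2 : ℝ)) (by norm_num) (fib cl r).card
        norm_num at this
        push_cast
        linarith
      calc ((2 * (fib cl r).card + 1 : ℕ) : ℝ) * 9 ≤ 3 ^ (fib cl r).card * 9 ^ (fib cl r).card :=
            mul_le_mul h3 (le_self_pow₀ (by norm_num) (by omega)) (by norm_num) (by positivity)
        _ = _ := by rw [← mul_pow]; norm_num
    refine (prod_le_prod (fun r _ => by positivity) h1).trans_eq ?_
    rw [prod_pow_eq_pow_sum, hcsum]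
  have hexp : ∏ r ∈ rt, Real.exp (2 * (heads o (fib cl r)).card) ≤ Real.exp 2 ^ e := by
    rw [← Real.exp_sum, ← Real.exp_nat_mul, Real.exp_le_exp, ← mul_sum, mul_comm (e : ℝ)]
    refine mul_le_mul_of_nonneg_left ?_ (by norm_num)
    exact_mod_cast le_trans (Nat.le_add_right _ K) htK
  have hcost : (∏ d ∈ M, fac K1 K2 M rt d) * costOn K1 K2 M (univ \ rt) ≤
      (12 : ℝ) ^ e * 1024 ^ e * (N + 2) ^ K := by
    refine (cost_mul_fac_le (M := M) (rt := rt) hG.M_card).trans ?_
    rw [mul_pow, mul_pow, ← pow_mul]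
    have h4 : (4 : ℝ) ^ (K1 * K) ≤ 1024 ^ e := by
      refine (pow_le_pow_right₀ (by norm_num) hK1K).trans_eq ?_
      rw [pow_mul]; norm_num
    have h5 : (K2 : ℝ) + 1 ≤ N + 2 := by
      have : (K2 : ℝ) ≤ N + 1 := Nat.floor_le (by linarith)
      linarith
    exact mul_le_mul (mul_le_mul (pow_le_pow_right₀ (by norm_num) (show K ≤ e by omega)) h4 (by positivity)
      (by positivity)) (pow_le_pow_left₀ (by positivity) h5 _) (by positivity) (by positivity)
  have hpow : (N + 2) ^ (K + ev) ≤ (Real.exp 20 * N ^ expo n q) ^ e :=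
    pow_events_le (ev := ev) hN hl.le hXe (by omega) (by push_cast; exact hsumN)
  have hBprod : ∏ r ∈ rt, Bfac n q K1 K2 o M rt cl r =
      (∏ r ∈ rt, (((2 * (fib cl r).card + 1 : ℕ) : ℝ) * 9)) *
        (∏ r ∈ rt, Real.exp (2 * (heads o (fib cl r)).card)) * ((n : ℝ) ^ k * q ^ e) *
        (N + 2) ^ ev * ∏ d ∈ M, fac K1 K2 M rt d := by
    rw [← hmuprod, ← hevprod, ← hMprod, ← prod_mul_distrib, ← prod_mul_distrib,
      ← prod_mul_distrib, ← prod_mul_distrib]
    refine prod_congr rfl fun r _ => ?_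
    unfold Bfac
    ring
  have hcost0 : 0 ≤ costOn K1 K2 M (univ \ rt) := prod_nonneg fun u _ => by positivity
  have hfac0 : (0 : ℝ) ≤ ∏ d ∈ M, fac K1 K2 M rt d :=
    prod_nonneg fun d _ => le_trans zero_le_one (one_le_fac K1 K2 M rt d)
  calc (Ψ.card : ℝ) * costOn K1 K2 M (univ \ rt)
      ≤ (∏ r ∈ rt, Bfac n q K1 K2 o M rt cl r) * costOn K1 K2 M (univ \ rt) :=
        mul_le_mul_of_nonneg_right hbig hcost0
    _ = (∏ r ∈ rt, (((2 * (fib cl r).card + 1 : ℕ) : ℝ) * 9)) *
          (∏ r ∈ rt, Real.exp (2 * (heads o (fib cl r)).card)) * ((n : ℝ) ^ k * q ^ e) *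
          (N + 2) ^ ev * ((∏ d ∈ M, fac K1 K2 M rt d) * costOn K1 K2 M (univ \ rt)) := by
        rw [hBprod]; ring
    _ ≤ (27 : ℝ) ^ k * Real.exp 2 ^ e * ((n : ℝ) ^ k * q ^ e) *
          (N + 2) ^ ev * ((12 : ℝ) ^ e * 1024 ^ e * (N + 2) ^ K) := by
        gcongr
    _ ≤ (729 : ℝ) ^ e * Real.exp 2 ^ e * ((n : ℝ) ^ k * q ^ e) *
          ((12 : ℝ) ^ e * 1024 ^ e * (Real.exp 20 * N ^ expo n q) ^ e) := by
        have h27 : (27 : ℝ) ^ k ≤ 729 ^ e := by
          refine (pow_le_pow_right₀ (by norm_num) hk2e).trans_eq ?_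
          rw [pow_mul]; norm_num
        calc (27 : ℝ) ^ k * Real.exp 2 ^ e * ((n : ℝ) ^ k * q ^ e) *
              (N + 2) ^ ev * ((12 : ℝ) ^ e * 1024 ^ e * (N + 2) ^ K)
            = (27 : ℝ) ^ k * Real.exp 2 ^ e * ((n : ℝ) ^ k * q ^ e) *
              ((12 : ℝ) ^ e * 1024 ^ e * (N + 2) ^ (K + ev)) := by ring
          _ ≤ _ := by gcongr
    _ = _ := by
        simp only [countC, mul_pow]
        ring

/-- The counting step. -/
theorem count_cert.{u, v} : ∃ C : ℝ, 1 ≤ C ∧
    ∀ {α : Type u} {β : Type v} [Fintype α] [DecidableEq α] [Fintype β] [DecidableEq β]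
      {n : ℕ} {q : ℝ}, 2 ≤ n → 0 < q → q ≤ 1 / 2 →
    ∀ (H : SimpleGraph β), Hyp n q H → ∀ (D : Deco β),
    D.Bounded ⌊2 * (Real.log n + 1) / Real.log (1 / q)⌋₊ ⌊Real.log n + 1⌋₊ →
    ∀ (F : SimpleGraph α) [DecidableRel F.Adj], (∀ a, ∃ b, F.Adj a b) →
    ∀ (o M : Finset (α × α)) (rt : Finset α) (Ψ : Finset (α ↪ β)) (ps : (α ↪ β) → PS α),
    (∀ φ ∈ Ψ, (∀ a b, F.Adj a b → H.Adj (φ a) (φ b)) ∧
      Good F D (Real.log n) (Real.log (1 / q)) φ (ps φ) ∧
      odarts F D φ = o ∧ (ps φ).M = M ∧ (ps φ).rt = rt) →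
    (Ψ.card : ℝ) *
        costOn ⌊2 * (Real.log n + 1) / Real.log (1 / q)⌋₊ ⌊Real.log n + 1⌋₊ M (univ \ rt) ≤
      (n : ℝ) ^ Fintype.card α * (C * Real.log n ^ expo n q * q) ^ F.edgeFinset.card :=
  ⟨countC, one_le_countC, fun hn hq hq2 H hH D hD F _ hF o M rt Ψ ps hΨ =>
    count_cert_le hn hq hq2 H hH D hD F hF o M rt Ψ ps hΨ⟩

end Vale.Agent.P064
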