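import Vale.Agent.P064.Defs
import Vale.Agent.P064.Cert
import Vale.Agent.P064.Lemmas

/-!
Counting the embeddings with a given certificate (P064).

Clusters are handled from the latest root to the earliest one.  Given the images of the targets
of a cluster, few vertices can be the image of its root (disjoint copies create automorphisms),
and given the root the link edges determine the rest up to few choices.
-/

open Finset

namespace Vale.Agent.P064

variable {α β : Type*} [Fintype α] [DecidableEq α] [Fintype β] [DecidableEq β]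

/-- The restriction of `φ` to `S`, as a partial map. -/
def restr (S : Finset α) (φ : α ↪ β) : α → Option β := fun a => if a ∈ S then some (φ a) else none

omit [Fintype α] [Fintype β] [DecidableEq β] in
lemma restr_eq_iff {S : Finset α} {φ ψ : α ↪ β} :
    restr S φ = restr S ψ ↔ ∀ a ∈ S, φ a = ψ a := by
  constructor
  · intro h a ha
    simpa [restr, ha] using congrFun h a
  · intro h
    funext a
    by_cases ha : a ∈ S <;> simp [restr, ha, h]

/-- The number of choices along a link edge. -/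
def fac (K1 K2 : ℕ) (M : Finset (α × α)) (rt : Finset α) (d : α × α) : ℕ :=
  (K1 + 1) * if d.2 ∈ rt then K2 + 1 else max 1 (inEdges M d.2).card

/-- Hypotheses shared by the embeddings of one certificate class. -/
structure CertClass (F : SimpleGraph α) [DecidableRel F.Adj] (H : SimpleGraph β) (D : Deco β)
    (N l : ℝ) (o M : Finset (α × α)) (rt : Finset α) (cl : α → α) (φ : α ↪ β) : Prop where
  hom : ∀ a b, F.Adj a b → H.Adj (φ a) (φ b)
  od : odarts F D φ = o
  good : Good F D N l φ ⟨rt, M, cl⟩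

variable {F : SimpleGraph α} [DecidableRel F.Adj] {H : SimpleGraph β} {D : Deco β} {N l : ℝ}
  {o M : Finset (α × α)} {rt : Finset α} {cl : α → α} {Ψ : Finset (α ↪ β)} {K1 K2 : ℕ}

/-- Given the root, the link edges determine a cluster up to few choices. -/
lemma walk_card (hD : D.Bounded K1 K2) (hΨ : ∀ φ ∈ Ψ, CertClass F H D N l o M rt cl φ)
    {r : α} (hr : r ∈ rt) :
    ∀ (k : ℕ) (S : Finset α), (fib cl r \ S).card ≤ k → S ⊆ fib cl r → r ∈ S →
      ∀ Ψ' ⊆ Ψ, (∀ φ ∈ Ψ', ∀ ψ ∈ Ψ', ∀ a ∈ S, φ a = ψ a) →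
      (Ψ'.image (restr (fib cl r))).card ≤
        ∏ d ∈ (M.filter fun d => cl d.1 = r).filter (fun d => ¬ (d.1 ∈ S ∧ d.2 ∈ S)),
          fac K1 K2 M rt d := by
  intro k
  induction k with
  | zero =>
    intro S hk hS _ Ψ' _ hagree
    refine le_trans (card_le_one.2 ?_) (one_le_prod' fun d _ => ?_)
    · simp only [mem_image]
      rintro _ ⟨φ, hφ, rfl⟩ _ ⟨ψ, hψ, rfl⟩
      refine restr_eq_iff.2 fun a ha => hagree φ hφ ψ hψ a ?_
      by_contra h
      have : a ∈ fib cl r \ S := mem_sdiff.2 ⟨ha, h⟩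
      rw [card_eq_zero.1 (Nat.le_zero.1 hk)] at this
      exact notMem_empty a this
    · exact Nat.mul_pos (Nat.succ_pos _) (by split_ifs <;> omega)
  | succ k ih =>
    intro S hk hS hrS Ψ' hsub hagree
    rcases Ψ'.eq_empty_or_nonempty with rfl | ⟨φ0, hφ0⟩
    · simp
    by_cases hSC : S = fib cl r
    · exact ih S (by simp [hSC]) hS hrS Ψ' hsub hagree
    obtain ⟨d, hdM, hdr, hcross⟩ :=
      (hΨ φ0 (hsub hφ0)).good.conn r hr S hS ⟨r, hrS⟩ hSC
    replace hdr : cl d.1 = r := hdr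
    replace hdM : d ∈ M := hdM
    have hd12 : cl d.1 = cl d.2 := ((hΨ φ0 (hsub hφ0)).good.M_sub d hdM).2
    have hd2 : cl d.2 = r := hd12.symm.trans hdr
    have hfac : ∀ e, 1 ≤ fac K1 K2 M rt e := fun e =>
      Nat.mul_pos (Nat.succ_pos _) (by split_ifs <;> omega)
    -- the new vertex and its candidates
    obtain ⟨b, Q, hbC, hbS, hbd, hQ, hQcard⟩ : ∃ (b : α) (Q : Finset β), b ∈ fib cl r ∧ b ∉ S ∧
        (d.1 ∈ insert b S ∧ d.2 ∈ insert b S) ∧
        (∀ φ ∈ Ψ', φ b ∈ Q) ∧ Q.card ≤ fac K1 K2 M rt d := by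
      by_cases h1 : d.1 ∈ S
      · have h2 : d.2 ∉ S := fun h => hcross ⟨fun _ => h, fun _ => h1⟩
        refine ⟨d.2, D.out (φ0 d.1), by simp [fib, hd2], h2, ⟨mem_insert_of_mem h1,
          mem_insert_self _ _⟩, fun φ hφ => ?_, ?_⟩
        · have hdo := ((hΨ φ (hsub hφ)).good.M_sub d hdM).1
          rw [← hagree φ hφ φ0 hφ0 _ h1]
          exact (mem_filter.1 hdo).2.2
        · calc (D.out (φ0 d.1)).card ≤ (K1 + 1) * 1 := by have := hD.out_card (φ0 d.1); omega
            _ ≤ _ := Nat.mul_le_mul_left _ (by split_ifs <;> omega)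
      · have h2 : d.2 ∈ S := by
          by_contra h2
          exact hcross ⟨fun h => absurd h h1, fun h => absurd h h2⟩
        have hin : d.1 ∈ inEdges M d.2 :=
          mem_image.2 ⟨d, mem_filter.2 ⟨hdM, rfl⟩, rfl⟩
        refine ⟨d.1, if d.2 ∈ rt then D.lin (φ0 d.2) else D.childs (φ0 d.2), by simp [fib, hdr],
          h1, ⟨mem_insert_self _ _, mem_insert_of_mem h2⟩, fun φ hφ => ?_, ?_⟩
        · rw [← hagree φ hφ φ0 hφ0 _ h2]
          split_ifs with hrt
          · exact (hΨ φ (hsub hφ)).good.lin _ hrt (mem_image_of_mem φ hin)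
          · rw [← (hΨ φ (hsub hφ)).good.kept _ hrt]
            exact mem_image_of_mem φ hin
        · calc _ ≤ 1 * (if d.2 ∈ rt then K2 + 1 else max 1 (inEdges M d.2).card) := by
                rw [one_mul]
                split_ifs with hrt
                · have := hD.lin_card (φ0 d.2); omega
                · rw [← (hΨ φ0 (hsub hφ0)).good.kept _ hrt, card_image_of_injective _ φ0.injective]
                  exact le_max_right _ _
            _ ≤ _ := Nat.mul_le_mul_right _ (Nat.succ_pos _)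
    set S' := insert b S
    set rest := ((M.filter fun d => cl d.1 = r).filter fun d => ¬ (d.1 ∈ S' ∧ d.2 ∈ S'))
    have hd_mem : d ∈ (M.filter fun d => cl d.1 = r).filter fun d => ¬ (d.1 ∈ S ∧ d.2 ∈ S) :=
      mem_filter.2 ⟨mem_filter.2 ⟨hdM, hdr⟩, fun h => hcross ⟨fun _ => h.2, fun _ => h.1⟩⟩
    have hd_rest : d ∉ rest := fun h => (mem_filter.1 h).2 hbd
    have hrest : rest ⊆ ((M.filter fun d => cl d.1 = r).filter
        fun d => ¬ (d.1 ∈ S ∧ d.2 ∈ S)).erase d := by
      intro e he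
      refine mem_erase.2 ⟨fun h => hd_rest (h ▸ he), mem_filter.2 ⟨(mem_filter.1 he).1, ?_⟩⟩
      exact fun h => (mem_filter.1 he).2 ⟨mem_insert_of_mem h.1, mem_insert_of_mem h.2⟩
    have hkS : (fib cl r \ S').card ≤ k := by
      have : (fib cl r \ S').card < (fib cl r \ S).card :=
        card_lt_card ⟨sdiff_subset_sdiff Subset.rfl (subset_insert _ _), fun h => by
          have := h (mem_sdiff.2 ⟨hbC, hbS⟩)
          simp [S'] at this⟩
      omega
    have hcover : Ψ'.image (restr (fib cl r)) ⊆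
        Q.biUnion fun y => (Ψ'.filter fun φ => φ b = y).image (restr (fib cl r)) := by
      intro f hf
      obtain ⟨φ, hφ, rfl⟩ := mem_image.1 hf
      exact mem_biUnion.2 ⟨φ b, hQ φ hφ, mem_image_of_mem _ (mem_filter.2 ⟨hφ, rfl⟩)⟩
    calc (Ψ'.image (restr (fib cl r))).card
        ≤ ∑ y ∈ Q, ((Ψ'.filter fun φ => φ b = y).image (restr (fib cl r))).card :=
          (card_le_card hcover).trans card_biUnion_le
      _ ≤ ∑ _y ∈ Q, ∏ e ∈ rest, fac K1 K2 M rt e := by
          refine sum_le_sum fun y _ => ih S' hkS (insert_subset hbC hS) (mem_insert_of_mem hrS) _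
            ((filter_subset _ _).trans hsub) fun φ hφ ψ hψ a ha => ?_
          rcases mem_insert.1 ha with rfl | ha
          · exact (mem_filter.1 hφ).2.trans (mem_filter.1 hψ).2.symm
          · exact hagree φ (mem_filter.1 hφ).1 ψ (mem_filter.1 hψ).1 a ha
      _ = Q.card * ∏ e ∈ rest, fac K1 K2 M rt e := by rw [sum_const, smul_eq_mul]
      _ ≤ fac K1 K2 M rt d * ∏ e ∈ ((M.filter fun d => cl d.1 = r).filter
            fun d => ¬ (d.1 ∈ S ∧ d.2 ∈ S)).erase d, fac K1 K2 M rt e :=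
          Nat.mul_le_mul hQcard (prod_le_prod_of_subset_of_one_le' hrest fun e _ _ => hfac e)
      _ = _ := mul_prod_erase _ _ hd_mem

omit [Fintype β] in
/-- Inside a cluster the owner map leads to the root in fewer steps than the cluster size. -/
lemma owner_chain {φ : α ↪ β} {p : PS α} (hg : Good F D N l φ p) {r : α} (hr : r ∈ p.rt) :
    ∀ u ∈ fib p.cl r, ∃ i < (fib p.cl r).card, D.owner^[i] (φ u) = φ r := by
  suffices h : ∀ k, ∀ u ∈ fib p.cl r,
      ((fib p.cl r).filter fun w => D.rank (φ u) < D.rank (φ w)).card ≤ k →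
      ∃ i ≤ k, D.owner^[i] (φ u) = φ r by
    intro u hu
    have hlt : ((fib p.cl r).filter fun w => D.rank (φ u) < D.rank (φ w)).card <
        (fib p.cl r).card :=
      card_lt_card (filter_ssubset.2 ⟨u, hu, lt_irrefl _⟩)
    obtain ⟨i, hi, h'⟩ := h _ u hu le_rfl
    exact ⟨i, by omega, h'⟩
  intro k
  induction k with
  | zero =>
    intro u hu hk
    refine ⟨0, le_rfl, ?_⟩
    by_cases hu' : u ∈ p.rt
    · rw [← (mem_filter.1 hu).2, hg.rt_cl u hu']
      rfl
    · obtain ⟨w, h1, -, h3⟩ := hg.parent u hu'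
      have : w ∈ (fib p.cl r).filter fun w => D.rank (φ u) < D.rank (φ w) := by
        simp [fib, h1, (mem_filter.1 hu).2, h3]
      rw [card_eq_zero.1 (Nat.le_zero.1 hk)] at this
      exact absurd this (notMem_empty w)
  | succ k ih =>
    intro u hu hk
    by_cases hu' : u ∈ p.rt
    · refine ⟨0, Nat.zero_le _, ?_⟩
      rw [← (mem_filter.1 hu).2, hg.rt_cl u hu']
      rfl
    · obtain ⟨w, h1, h2, h3⟩ := hg.parent u hu'
      have hw : w ∈ fib p.cl r := by simp [fib, h1, (mem_filter.1 hu).2]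
      have hlt : ((fib p.cl r).filter fun z => D.rank (φ w) < D.rank (φ z)).card <
          ((fib p.cl r).filter fun z => D.rank (φ u) < D.rank (φ z)).card := by
        refine card_lt_card ⟨fun z hz => ?_, fun h => ?_⟩
        · simp only [mem_filter] at hz ⊢
          exact ⟨hz.1, h3.trans hz.2⟩
        · have := h (mem_filter.2 ⟨hw, h3⟩)
          simp at this
      obtain ⟨i, hi, h'⟩ := ih w hw (by omega)
      refine ⟨i + 1, by omega, ?_⟩
      rw [Function.iterate_succ_apply, ← h2, h']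

/-- The subgraph hypothesis in exponential form. -/
def HypExp (H : SimpleGraph β) (N l : ℝ) : Prop :=
  ∀ (S : Finset β) (E : Finset (Sym2 β)), (∀ e ∈ E, e ∈ H.edgeSet ∧ ∀ x ∈ e, x ∈ S) →
    (autCount S E : ℝ) ≤ 2 * Real.exp (S.card * N - E.card * l)

/-- The indicator of a sparse cluster with few expected copies, as a factor. -/
noncomputable def evFac (N l : ℝ) (o : Finset (α × α)) (C : Finset α) : ℝ :=
  if 1 ≤ (heads o C).card ∧ Real.exp (C.card * N - (dartsFrom o C).card * l) < N + 1 then N + 2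
  else 1

/-- The bound for one cluster. -/
noncomputable def clusterBound (N l : ℝ) (K1 K2 : ℕ) (o M : Finset (α × α)) (rt : Finset α)
    (cl : α → α) (r : α) : ℝ :=
  (2 * (fib cl r).card + 1) * (9 * Real.exp (2 * (heads o (fib cl r)).card) *
    Real.exp ((fib cl r).card * N - (dartsFrom o (fib cl r)).card * l) *
    evFac N l o (fib cl r)) * ∏ d ∈ M.filter (fun d => cl d.1 = r), (fac K1 K2 M rt d : ℝ)

/-- Few restrictions to a cluster once the targets are fixed. -/
lemma cluster_card (hN : 0 ≤ N) (hJ : HypExp H N l) (hD : D.Bounded K1 K2)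
    (hΨ : ∀ φ ∈ Ψ, CertClass F H D N l o M rt cl φ) {r : α} (hr : r ∈ rt) {Ψ' : Finset (α ↪ β)}
    (hsub : Ψ' ⊆ Ψ) (hagree : ∀ φ ∈ Ψ', ∀ ψ ∈ Ψ', ∀ h ∈ heads o (fib cl r), φ h = ψ h) :
    ((Ψ'.image (restr (fib cl r))).card : ℝ) ≤ clusterBound N l K1 K2 o M rt cl r := by
  classical
  have hevpos : 0 ≤ evFac N l o (fib cl r) := by unfold evFac; split_ifs <;> linarith
  rcases Ψ'.eq_empty_or_nonempty with rfl | ⟨φ0, hφ0⟩
  · simp only [image_empty, card_empty, Nat.cast_zero, clusterBound]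
    refine mul_nonneg (mul_nonneg (by positivity) ?_) (prod_nonneg fun d _ => Nat.cast_nonneg _)
    exact mul_nonneg (by positivity) hevpos
  set C := fib cl r with hC
  have hg0 := (hΨ φ0 (hsub hφ0)).good
  have hrC : r ∈ C := by
    have h : cl r = r := hg0.rt_cl r hr
    simp [hC, fib, h]
  set c := C.card with hc
  set T := heads o C with hT
  set Dt := dartsFrom o C with hDt
  set X := Ψ'.image (fun φ => φ r) with hX
  -- the walk
  set W : ℕ := ∏ d ∈ M.filter (fun d => cl d.1 = r), fac K1 K2 M rt d with hW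
  have hwalk : (Ψ'.image (restr C)).card ≤ X.card * W := by
    have hcover : Ψ'.image (restr C) ⊆
        X.biUnion fun x => (Ψ'.filter fun φ => φ r = x).image (restr C) := by
      intro f hf
      obtain ⟨φ, hφ, rfl⟩ := mem_image.1 hf
      exact mem_biUnion.2 ⟨φ r, mem_image.2 ⟨φ, hφ, rfl⟩,
        mem_image_of_mem _ (mem_filter.2 ⟨hφ, rfl⟩)⟩
    refine (card_le_card hcover).trans (card_biUnion_le.trans ?_)
    rw [← smul_eq_mul, ← sum_const]
    refine sum_le_sum fun x _ => ?_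
    refine (walk_card hD hΨ hr (C \ {r}).card {r} le_rfl (singleton_subset_iff.2 hrC)
      (mem_singleton_self r) _ ((filter_subset _ _).trans hsub) fun φ hφ ψ hψ a ha => ?_).trans ?_
    · obtain rfl := mem_singleton.1 ha
      exact (mem_filter.1 hφ).2.trans (mem_filter.1 hψ).2.symm
    · exact prod_le_prod_of_subset_of_one_le' (filter_subset _ _)
        fun d _ _ => Nat.mul_pos (Nat.succ_pos _) (by split_ifs <;> omega)
  -- a choice of a copy for every possible root
  have hchoice : ∀ x : {x // x ∈ X}, ∃ φ ∈ Ψ', φ r = x.1 := fun x => mem_image.1 x.2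
  choose ψ hψmem hψr using hchoice
  -- independent roots
  obtain ⟨I, hIX, hIcard, hIind⟩ := exists_indep X
    (fun x => (range c).image fun i => D.owner^[i] x) c
    (fun x _ => card_image_le.trans (card_range c).le)
  set m := I.card with hm
  let emb : {x // x ∈ I} × {a // a ∈ C} → β := fun z => ψ ⟨z.1.1, hIX z.1.2⟩ z.2.1
  have hemb : Function.Injective emb := by
    rintro ⟨⟨x, hx⟩, ⟨a, ha⟩⟩ ⟨⟨y, hy⟩, ⟨b, hb⟩⟩ h
    simp only [emb] at h
    obtain ⟨i, hi, hix⟩ := owner_chain (hΨ _ (hsub (hψmem ⟨x, hIX hx⟩))).good hr a ha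
    obtain ⟨j, hj, hjy⟩ := owner_chain (hΨ _ (hsub (hψmem ⟨y, hIX hy⟩))).good hr b hb
    rw [hψr ⟨x, hIX hx⟩] at hix
    rw [hψr ⟨y, hIX hy⟩, ← h] at hjy
    simp only at hix hjy hi hj
    replace hi : i < c := hi
    replace hj : j < c := hj
    have hxy : x = y := by
      by_contra hne
      rcases le_total i j with hij | hij
      · refine hIind x hx y hy hne (mem_image.2 ⟨j - i, mem_range.2 (by omega), ?_⟩)
        rw [← hix, ← Function.iterate_add_apply, Nat.sub_add_cancel hij, hjy]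
      · refine hIind y hy x hx (Ne.symm hne) (mem_image.2 ⟨i - j, mem_range.2 (by omega), ?_⟩)
        rw [← hjy, ← Function.iterate_add_apply, Nat.sub_add_cancel hij, hix]
    subst hxy
    exact Prod.ext rfl (Subtype.ext ((ψ ⟨x, hIX hx⟩).injective h))
  have hTval : ∀ x, ∀ h ∈ T, ψ x h = φ0 h := fun x h hh => hagree _ (hψmem x) _ hφ0 h hh
  have hTC : ∀ a ∈ C, a ∉ T := fun a ha h => (mem_sdiff.1 h).2 ha
  have hTdisj : ∀ z, ∀ h ∈ T, emb z ≠ φ0 h := by
    rintro ⟨⟨x, hx⟩, ⟨a, ha⟩⟩ h hh he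
    simp only [emb] at he
    rw [← hTval ⟨x, hIX hx⟩ h hh] at he
    exact hTC a ha ((ψ ⟨x, hIX hx⟩).injective he ▸ hh)
  set SJ := T.image φ0 ∪ (univ : Finset _).image emb with hSJ
  set EJ := (I.attach ×ˢ Dt).image
    (fun z => s(ψ ⟨z.1.1, hIX z.1.2⟩ z.2.1, ψ ⟨z.1.1, hIX z.1.2⟩ z.2.2)) with hEJ
  have hhead : ∀ d ∈ Dt, d.2 ∈ C ∨ d.2 ∈ T := fun d hd => by
    by_cases h : d.2 ∈ C
    · exact Or.inl h
    · exact Or.inr (mem_sdiff.2 ⟨mem_image_of_mem _ hd, h⟩)
  have hSJcard : SJ.card = T.card + m * c := by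
    rw [hSJ, card_union_of_disjoint, card_image_of_injective _ φ0.injective,
      card_image_of_injective _ hemb]
    · simp [hm, hc, Fintype.card_prod]
    · refine Finset.disjoint_left.2 fun y h1 h2 => ?_
      obtain ⟨h, hh, rfl⟩ := mem_image.1 h1
      obtain ⟨z, -, hz⟩ := mem_image.1 h2
      exact hTdisj z h hh hz
  have hEJinj : Set.InjOn (fun z : {x // x ∈ I} × (α × α) =>
      s(ψ ⟨z.1.1, hIX z.1.2⟩ z.2.1, ψ ⟨z.1.1, hIX z.1.2⟩ z.2.2))
      ((I.attach ×ˢ Dt : Finset _) : Set _) := by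
    rintro ⟨x, d⟩ hd ⟨y, e⟩ he h
    simp only [coe_product, Set.mem_prod, mem_coe, mem_attach, true_and] at hd he
    have hd1 : d.1 ∈ C := (mem_filter.1 hd).2
    have he1 : e.1 ∈ C := (mem_filter.1 he).2
    rcases Sym2.eq_iff.1 h with ⟨h1, h2⟩ | ⟨h1, h2⟩
    · have := @hemb ⟨x, ⟨d.1, hd1⟩⟩ ⟨y, ⟨e.1, he1⟩⟩ h1
      simp only [Prod.mk.injEq, Subtype.mk.injEq] at this
      obtain ⟨rfl, h1'⟩ := this
      exact Prod.ext rfl (Prod.ext h1' ((ψ ⟨x.1, hIX x.2⟩).injective h2))
    · rcases hhead e he with he2 | he2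
      · have := @hemb ⟨x, ⟨d.1, hd1⟩⟩ ⟨y, ⟨e.2, he2⟩⟩ h1
        simp only [Prod.mk.injEq, Subtype.mk.injEq] at this
        obtain ⟨rfl, h1'⟩ := this
        have h2' : d.2 = e.1 := (ψ ⟨x.1, hIX x.2⟩).injective h2
        exfalso
        have hgx := (hΨ _ (hsub (hψmem ⟨x.1, hIX x.2⟩))).od
        have hdo : d ∈ o := (mem_filter.1 hd).1
        have heo : e ∈ o := (mem_filter.1 he).1
        rw [← hgx] at hdo heo
        have r1 := hD.out_rank _ _ (mem_filter.1 hdo).2.2
        have r2 := hD.out_rank _ _ (mem_filter.1 heo).2.2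
        rw [← h1', ← h2'] at r2
        omega
      · exact absurd (h1.trans (hTval _ _ he2))
          (hTdisj ⟨x, ⟨d.1, hd1⟩⟩ _ he2)
  have hEJcard : EJ.card = m * Dt.card := by
    rw [hEJ, card_image_of_injOn hEJinj, card_product, card_attach]
  have hEJok : ∀ e ∈ EJ, e ∈ H.edgeSet ∧ ∀ x ∈ e, x ∈ SJ := by
    intro e he
    obtain ⟨⟨x, d⟩, hz, rfl⟩ := mem_image.1 he
    simp only [mem_product, mem_attach, true_and] at hz
    have hψx := hΨ _ (hsub (hψmem ⟨x.1, hIX x.2⟩))
    have hdo : d ∈ odarts F D (ψ ⟨x.1, hIX x.2⟩) := hψx.od ▸ (mem_filter.1 hz).1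
    refine ⟨H.mem_edgeSet.2 (hψx.hom _ _ (mem_filter.1 hdo).2.1), fun y hy => ?_⟩
    have hcopy : ∀ a ∈ C, ψ ⟨x.1, hIX x.2⟩ a ∈ SJ := fun a ha =>
      mem_union_right _ (mem_image.2 ⟨⟨x, ⟨a, ha⟩⟩, mem_univ _, rfl⟩)
    rcases Sym2.mem_iff.1 hy with rfl | rfl
    · exact hcopy _ (mem_filter.1 hz).2
    · rcases hhead d hz with h | h
      · exact hcopy _ h
      · exact mem_union_left _ (hTval _ _ h ▸ mem_image_of_mem φ0 h)
  -- permutations of the copies
  have haut : m.factorial ≤ autCount SJ EJ := by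
    let embE : {x // x ∈ I} × {a // a ∈ C} ↪ β := ⟨emb, hemb⟩
    let mk : Equiv.Perm {x // x ∈ I} → Equiv.Perm β := fun π =>
      Equiv.Perm.viaFintypeEmbedding (π.prodCongr (Equiv.refl {a // a ∈ C})) embE
    have hmk : ∀ π x (a : {a // a ∈ C}), mk π (emb (x, a)) = emb (π x, a) := fun π x a => by
      simp only [mk]
      exact Equiv.Perm.viaFintypeEmbedding_apply_image _ embE (x, a)
    have hfix : ∀ π y, y ∉ Set.range emb → mk π y = y := fun π y hy => by
      simp only [mk]
      exact Equiv.Perm.viaFintypeEmbedding_apply_notMem_range _ embE hy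
    have hval : ∀ π (x : {x // x ∈ I}), ∀ d ∈ Dt, ∀ b, b = d.1 ∨ b = d.2 →
        mk π (ψ ⟨x.1, hIX x.2⟩ b) = ψ ⟨(π x).1, hIX (π x).2⟩ b := by
      intro π x d hd b hb
      by_cases hbC : b ∈ C
      · exact hmk π x ⟨b, hbC⟩
      · have hbT : b ∈ T := by
          rcases hb with rfl | rfl
          · exact absurd (mem_filter.1 hd).2 hbC
          · exact (hhead d hd).resolve_left hbC
        rw [hTval _ _ hbT, hTval _ _ hbT]
        exact hfix π _ fun ⟨z, hz⟩ => hTdisj z b hbT hz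
    have hsupp : ∀ π, ∀ y ∉ SJ, mk π y = y := fun π y hy =>
      hfix π y fun ⟨z, hz⟩ => hy (mem_union_right _ (mem_image.2 ⟨z, mem_univ _, hz⟩))
    have hpres : ∀ π, EJ.image (Sym2.map (mk π)) = EJ := by
      intro π
      refine eq_of_subset_of_card_le (fun e he => ?_) ?_
      · obtain ⟨e', he', rfl⟩ := mem_image.1 he
        obtain ⟨⟨x, d⟩, hz, rfl⟩ := mem_image.1 he'
        have hd : d ∈ Dt := (mem_product.1 hz).2
        refine mem_image.2 ⟨(π x, d), mem_product.2 ⟨mem_attach _ _, hd⟩, ?_⟩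
        rw [Sym2.map_mk, hval π x d hd _ (Or.inl rfl), hval π x d hd _ (Or.inr rfl)]
      · rw [card_image_of_injective _ (Sym2.map.injective (mk π).injective)]
    let f : Equiv.Perm {x // x ∈ I} → {g : Equiv.Perm β //
        (∀ x ∉ SJ, g x = x) ∧ EJ.image (Sym2.map g) = EJ} :=
      fun π => ⟨mk π, hsupp π, hpres π⟩
    have hf : Function.Injective f := by
      intro π π' h
      ext x
      have h1 := hmk π x ⟨r, hrC⟩
      have h2 := hmk π' x ⟨r, hrC⟩
      have h3 : mk π = mk π' := congrArg Subtype.val h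
      rw [h3, h2] at h1
      have := hemb h1
      simp only [Prod.mk.injEq, and_true] at this
      exact congrArg Subtype.val this.symm
    have := Nat.card_le_card_of_injective f hf
    rwa [Nat.card_perm, Nat.card_eq_fintype_card, Fintype.card_coe] at this
  -- the arithmetic
  set μ := Real.exp ((c : ℝ) * N - (Dt.card : ℝ) * l) with hμ
  have hfact : (m.factorial : ℝ) ≤ 2 * Real.exp ((T.card : ℝ) * N) * μ ^ m := by
    have h1 : (m.factorial : ℝ) ≤ autCount SJ EJ := by exact_mod_cast haut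
    refine h1.trans ((hJ SJ EJ hEJok).trans (le_of_eq ?_))
    rw [hSJcard, hEJcard, hμ, ← Real.exp_nat_mul, mul_assoc, ← Real.exp_add]
    push_cast
    ring_nf
  have hμT : 1 ≤ T.card → Real.exp (-(T.card : ℝ)) ≤ μ := by
    intro ht
    have h1 := hg0.rt_weight r hr
    simp only [(hΨ φ0 (hsub hφ0)).od] at h1
    have h2 : weight N l o C ≤ T.card := h1 (card_pos.1 ht)
    rw [hμ, Real.exp_le_exp]
    simp only [weight] at h2
    linarith
  have hmb := copies_bound hN (Real.exp_pos _) hμT hfact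
  have hXr : (X.card : ℝ) ≤ (2 * (c : ℝ) + 1) * m := by exact_mod_cast hIcard
  calc ((Ψ'.image (restr C)).card : ℝ) ≤ (X.card : ℝ) * (W : ℝ) := by exact_mod_cast hwalk
    _ ≤ (2 * (c : ℝ) + 1) * (9 * Real.exp (2 * T.card) * μ * evFac N l o C) * W := by
        refine mul_le_mul_of_nonneg_right (hXr.trans ?_) (Nat.cast_nonneg _)
        exact mul_le_mul_of_nonneg_left hmb (by positivity)
    _ = _ := by rw [clusterBound, hW, Nat.cast_prod]

/-- The product bound over all clusters. -/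
lemma class_card (hN : 0 ≤ N) (hJ : HypExp H N l) (hD : D.Bounded K1 K2)
    (hΨ : ∀ φ ∈ Ψ, CertClass F H D N l o M rt cl φ) (hne : Ψ.Nonempty) :
    (Ψ.card : ℝ) ≤ ∏ r ∈ rt, clusterBound N l K1 K2 o M rt cl r := by
  classical
  obtain ⟨φ0, hφ0⟩ := hne
  have hg0 := (hΨ φ0 hφ0).good
  suffices h : ∀ R ⊆ rt, (∀ r ∈ R, ∀ r' ∈ rt, D.rank (φ0 r) < D.rank (φ0 r') → r' ∈ R) →
      ((Ψ.image (restr (R.biUnion (fib cl)))).card : ℝ) ≤
        ∏ r ∈ R, clusterBound N l K1 K2 o M rt cl r by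
    have h' := h rt Subset.rfl fun r _ r' hr' _ => hr'
    rwa [card_image_of_injective] at h'
    intro φ ψ he
    ext a
    exact restr_eq_iff.1 he a (mem_biUnion.2 ⟨cl a, hg0.cl_rt a, by simp [fib]⟩)
  intro R
  induction R using Finset.strongInduction with
  | H R ih =>
    intro hR hclosed
    rcases R.eq_empty_or_nonempty with rfl | hRne
    · simp only [prod_empty]
      exact_mod_cast card_le_one.2 fun a ha b hb => by
        obtain ⟨φ, -, rfl⟩ := mem_image.1 ha
        obtain ⟨ψ, -, rfl⟩ := mem_image.1 hb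
        exact restr_eq_iff.2 (by simp)
    obtain ⟨r, hr, hmin⟩ := exists_min_image R (fun r => D.rank (φ0 r)) hRne
    set R' := R.erase r
    set U' := R'.biUnion (fib cl)
    set U := R.biUnion (fib cl)
    have hR' : ∀ a ∈ R', ∀ r' ∈ rt, D.rank (φ0 a) < D.rank (φ0 r') → r' ∈ R' := by
      intro a ha r' hr' hlt
      refine mem_erase.2 ⟨fun e => ?_, hclosed a (mem_of_mem_erase ha) r' hr' hlt⟩
      subst e
      have := hmin a (mem_of_mem_erase ha)
      omega
    have hih := ih R' (erase_ssubset hr) ((erase_subset _ _).trans hR) hR'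
    have hheads : heads o (fib cl r) ⊆ U' := by
      intro h hh
      have h1 := hg0.rt_heads r (hR hr) h (by rw [(hΨ φ0 hφ0).od]; exact hh)
      have h2 := hg0.rank_cl h
      have hlt : D.rank (φ0 r) < D.rank (φ0 (cl h)) := lt_of_lt_of_le h1 h2
      refine mem_biUnion.2 ⟨cl h, mem_erase.2 ⟨fun e => ?_, hclosed r hr _ (hg0.cl_rt h) hlt⟩,
        by simp [fib]⟩
      rw [e] at hlt
      exact lt_irrefl _ hlt
    have hU : ∀ a, a ∈ U ↔ a ∈ U' ∨ a ∈ fib cl r := by
      intro a
      simp only [U, U', R', mem_biUnion, mem_erase]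
      constructor
      · rintro ⟨s, hs, ha⟩
        by_cases hsr : s = r
        · exact Or.inr (hsr ▸ ha)
        · exact Or.inl ⟨s, ⟨hsr, hs⟩, ha⟩
      · rintro (⟨s, ⟨-, hs⟩, ha⟩ | ha)
        · exact ⟨s, hs, ha⟩
        · exact ⟨r, hr, ha⟩
    have hcover : Ψ.image (fun φ => (restr U' φ, restr (fib cl r) φ)) ⊆
        (Ψ.image (restr U')).biUnion fun g =>
          ((Ψ.filter fun φ => restr U' φ = g).image (restr (fib cl r))).image fun f => (g, f) := by
      intro z hz
      obtain ⟨φ, hφ, rfl⟩ := mem_image.1 hz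
      exact mem_biUnion.2 ⟨restr U' φ, mem_image_of_mem _ hφ,
        mem_image_of_mem _ (mem_image_of_mem _ (mem_filter.2 ⟨hφ, rfl⟩))⟩
    have hpair : (Ψ.image (restr U)).card ≤
        (Ψ.image (fun φ => (restr U' φ, restr (fib cl r) φ))).card := by
      refine card_le_card_of_surjOn
        (fun z a => if a ∈ U' then z.1 a else z.2 a) ?_
      intro f hf
      obtain ⟨φ, hφ, rfl⟩ := mem_image.1 hf
      refine ⟨(restr U' φ, restr (fib cl r) φ), mem_coe.2 (mem_image.2 ⟨φ, hφ, rfl⟩), ?_⟩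
      funext a
      simp only [restr, hU a]
      by_cases ha : a ∈ U' <;> simp [ha]
    have h1 : ((Ψ.image (restr U)).card : ℝ) ≤
        ∑ g ∈ Ψ.image (restr U'),
          (((Ψ.filter fun φ => restr U' φ = g).image (restr (fib cl r))).card : ℝ) := by
      have h := hpair.trans ((card_le_card hcover).trans card_biUnion_le)
      calc ((Ψ.image (restr U)).card : ℝ) ≤ ((∑ g ∈ Ψ.image (restr U'),
            (((Ψ.filter fun φ => restr U' φ = g).image (restr (fib cl r))).image
              fun f => (g, f)).card : ℕ) : ℝ) := by exact_mod_cast h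
        _ ≤ _ := by
            push_cast
            exact sum_le_sum fun g _ => by exact_mod_cast card_image_le
    refine h1.trans ?_
    rw [← mul_prod_erase R _ hr]
    refine le_trans (sum_le_sum (g := fun _ => clusterBound N l K1 K2 o M rt cl r) fun g _ =>
      cluster_card hN hJ hD hΨ (hR hr) (filter_subset _ _) fun φ hφ ψ hψ h hh => ?_) ?_
    · exact restr_eq_iff.1 ((mem_filter.1 hφ).2.trans (mem_filter.1 hψ).2.symm) h (hheads hh)
    · rw [sum_const, nsmul_eq_mul, mul_comm]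
      refine mul_le_mul_of_nonneg_left hih ?_
      have hev : 0 ≤ evFac N l o (fib cl r) := by unfold evFac; split_ifs <;> linarith
      unfold clusterBound
      exact mul_nonneg (mul_nonneg (by positivity) (mul_nonneg (by positivity) hev))
        (prod_nonneg fun d _ => Nat.cast_nonneg _)

/-- The arithmetic facts about a certificate class: `k` vertices, `e` edges, `K` link edges,
`T` targets in total and the sparse clusters. -/
lemma class_stats (hD : D.Bounded K1 K2) (hN : 0 ≤ N)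
    (hnoiso : ∀ a, ∃ b, F.Adj a b) {φ0 : α ↪ β} (h0 : CertClass F H D N l o M rt cl φ0) :
    ∃ (K ev : ℕ), M.card = K ∧ (univ \ rt).card = K ∧ rt.card ≤ 2 * F.edgeFinset.card ∧
      K ≤ F.edgeFinset.card ∧ Fintype.card α ≤ 2 * F.edgeFinset.card ∧
      K + ev ≤ F.edgeFinset.card ∧ ev ≤ F.edgeFinset.card ∧
      (∑ r ∈ rt, (heads o (fib cl r)).card) ≤ F.edgeFinset.card ∧
      (∑ r ∈ rt, (fib cl r).card) = Fintype.card α ∧
      (∑ r ∈ rt, (dartsFrom o (fib cl r)).card) = F.edgeFinset.card ∧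
      (∏ r ∈ rt, evFac N l o (fib cl r)) = (N + 2) ^ ev ∧
      (K : ℝ) * N ≤ F.edgeFinset.card * l ∧
      ((K + ev : ℕ) : ℝ) * N ≤ F.edgeFinset.card * l + ev * Real.log (N + 1) := by
  classical
  set e := F.edgeFinset.card with he
  set k := Fintype.card α with hk
  have hg := h0.good
  have hod := h0.od
  -- edge count
  have ho : o.card = e := by
    refine card_bij (fun d _ => s(d.1, d.2)) (fun d hd => ?_) ?_ ?_
    · rw [← hod] at hd
      exact SimpleGraph.mem_edgeFinset.2 (mem_filter.1 hd).2.1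
    · intro d hd d' hd' h
      rcases Sym2.eq_iff.1 h with ⟨h1, h2⟩ | ⟨h1, h2⟩
      · exact Prod.ext h1 h2
      · rw [← hod] at hd hd'
        have r1 := hD.out_rank _ _ (mem_filter.1 hd).2.2
        have r2 := hD.out_rank _ _ (mem_filter.1 hd').2.2
        rw [← h1, ← h2] at r2
        omega
    · intro z hz
      induction z using Sym2.ind with
      | _ a b =>
        have hab : F.Adj a b := SimpleGraph.mem_edgeFinset.1 hz
        rcases hg.orient a b hab with h | h
        · exact ⟨(a, b), hod ▸ mem_filter.2 ⟨mem_univ _, hab, h⟩, rfl⟩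
        · exact ⟨(b, a), hod ▸ mem_filter.2 ⟨mem_univ _, hab.symm, h⟩, Sym2.eq_swap⟩
  have hk2e : k ≤ 2 * e := by
    have h1 := F.sum_degrees_eq_twice_card_edges
    have h2 : (∑ _a : α, 1) ≤ ∑ a, F.degree a := sum_le_sum fun a _ => by
      obtain ⟨b, hb⟩ := hnoiso a
      exact (F.degree_pos_iff_exists_adj a).2 ⟨b, hb⟩
    simp at h2
    omega
  -- fibres
  set c : α → ℕ := fun r => (fib cl r).card with hc
  set pd : α → ℕ := fun r => (dartsFrom o (fib cl r)).card with hpd
  set t : α → ℕ := fun r => (heads o (fib cl r)).card with ht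
  set Mr : α → Finset (α × α) := fun r => M.filter fun d => cl d.1 = r with hMr
  set K := (univ \ rt).card with hK
  have hsumc : ∑ r ∈ rt, c r = k := by
    rw [hk, ← card_univ, card_eq_sum_card_fiberwise (f := cl) (t := rt) fun a _ => hg.cl_rt a]
    rfl
  have hsump : ∑ r ∈ rt, pd r = e := by
    rw [← ho, card_eq_sum_card_fiberwise (f := fun d : α × α => cl d.1) (t := rt)
      fun d _ => hg.cl_rt _]
    simp [hpd, dartsFrom, fib]
  have hsumM : ∑ r ∈ rt, (Mr r).card = M.card := by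
    rw [card_eq_sum_card_fiberwise (f := fun d : α × α => cl d.1) (t := rt) fun d _ => hg.cl_rt _]
  have hKk : K + rt.card = k := by
    rw [hK, card_sdiff_of_subset (subset_univ _), card_univ, ← hk]
    have : rt.card ≤ k := card_le_univ rt
    omega
  have hMK : M.card = K := by
    have : M.card + rt.card = k := hg.M_card
    omega
  have hMo : ∀ d ∈ M, d ∈ o ∧ cl d.1 = cl d.2 := fun d hd => hod ▸ hg.M_sub d hd
  have hMt : ∀ r ∈ rt, (Mr r).card + t r ≤ pd r := by
    intro r _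
    have hsub : Mr r ⊆ dartsFrom o (fib cl r) := fun d hd => by
      obtain ⟨h1, h2⟩ := mem_filter.1 hd
      exact mem_filter.2 ⟨(hMo d h1).1, by simp [fib, h2]⟩
    have h2 : heads o (fib cl r) ⊆ (dartsFrom o (fib cl r) \ Mr r).image Prod.snd := by
      intro h hh
      obtain ⟨hh1, hh2⟩ := mem_sdiff.1 hh
      obtain ⟨d, hd, rfl⟩ := mem_image.1 hh1
      refine mem_image_of_mem _ (mem_sdiff.2 ⟨hd, fun hM => hh2 ?_⟩)
      obtain ⟨h3, h4⟩ := mem_filter.1 hM
      simp [fib, ← (hMo d h3).2, h4]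
    have h3 := (card_le_card h2).trans card_image_le
    rw [card_sdiff_of_subset hsub] at h3
    have h4 := card_le_card hsub
    simp only [ht, hpd]
    omega
  have hKt : K + ∑ r ∈ rt, t r ≤ e := by
    rw [← hMK, ← hsumM, ← sum_add_distrib, ← hsump]
    exact sum_le_sum hMt
  set evs := rt.filter fun r => 1 ≤ t r ∧ Real.exp (c r * N - pd r * l) < N + 1 with hevs
  have hev_t : evs.card ≤ ∑ r ∈ rt, t r := by
    calc evs.card = ∑ _r ∈ evs, 1 := card_eq_sum_ones _
      _ ≤ ∑ r ∈ evs, t r := sum_le_sum fun r hr => (mem_filter.1 hr).2.1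
      _ ≤ _ := sum_le_sum_of_subset (filter_subset _ _)
  set X := K + evs.card with hX
  have hXe : X ≤ e := by omega
  have hKsum : (K : ℝ) = ∑ r ∈ rt, ((c r : ℝ) - 1) := by
    rw [sum_sub_distrib, ← Nat.cast_sum, hsumc, sum_const, nsmul_one, ← hKk]
    push_cast
    ring
  have hKN : (K : ℝ) * N ≤ e * l := by
    rw [hKsum, sum_mul, ← hsump, Nat.cast_sum, sum_mul]
    refine sum_le_sum fun r hr => ?_
    have := hg.rt_nonroot r hr
    rw [hod] at this
    exact this
  have hXN : (X : ℝ) * N ≤ e * l + evs.card * Real.log (N + 1) := by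
    have hsplit : (evs.card : ℝ) = ∑ r ∈ rt, if r ∈ evs then (1 : ℝ) else 0 := by
      rw [sum_ite, sum_const_zero, add_zero, sum_const, nsmul_one]
      congr 2
      ext r
      simp [hevs]
    rw [hX, Nat.cast_add, hKsum, hsplit, ← sum_add_distrib, sum_mul, sum_mul, ← hsump,
      Nat.cast_sum, sum_mul, ← sum_add_distrib]
    refine sum_le_sum fun r hr => ?_
    have h1 := hg.rt_nonroot r hr
    rw [hod] at h1
    change ((c r : ℝ) - 1) * N ≤ pd r * l at h1
    split_ifs with hev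
    · have h2 := (mem_filter.1 hev).2.2
      rw [← Real.lt_log_iff_exp_lt (show (0 : ℝ) < N + 1 by linarith)] at h2
      linarith
    · linarith
  have hev_e : evs.card ≤ e := by omega
  have hevprod : ∏ r ∈ rt, evFac N l o (fib cl r) = (N + 2) ^ evs.card := by
    simp only [evFac]
    rw [prod_ite, prod_const_one, mul_one, prod_const]
  exact ⟨K, evs.card, hMK, rfl, by omega, by omega, hk2e, hXe, by omega,
    le_trans (Nat.le_add_left _ K) hKt, hsumc, hsump,
    hevprod, hKN, by rw [← hX]; exact hXN⟩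

/-- The product of the costs and of the choices along the link edges. -/
lemma cost_fac_le (hclrt : ∀ u, cl u ∈ rt) {K : ℕ} (hMK : M.card = K)
    (hK : (univ \ rt).card = K) :
    costOn K1 K2 M (univ \ rt) *
        ∏ r ∈ rt, ∏ d ∈ M.filter (fun d => cl d.1 = r), (fac K1 K2 M rt d : ℝ) ≤
      (12 * 4 ^ K1 * ((K2 : ℝ) + 1)) ^ K := by
  classical
  set Mr : α → Finset (α × α) := fun r => M.filter fun d => cl d.1 = r with hMr
  -- the factors along link edges
  set h : α → ℝ := fun u => if u ∈ rt then (K2 : ℝ) + 1 else max 1 ((inEdges M u).card : ℝ)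
    with hh
  have hinj : ∀ u, (inEdges M u).card = (M.filter fun d => d.2 = u).card := fun u => by
    rw [inEdges, card_image_of_injOn]
    intro d hd d' hd' he'
    exact Prod.ext he' ((mem_filter.1 hd).2.trans (mem_filter.1 hd').2.symm)
  have hfac : ∏ r ∈ rt, ∏ d ∈ Mr r, (fac K1 K2 M rt d : ℝ) =
      ((K1 : ℝ) + 1) ^ K * ∏ u : α, h u ^ (inEdges M u).card := by
    rw [prod_fiberwise_of_maps_to (fun d _ => hclrt _)]
    have : ∀ d, (fac K1 K2 M rt d : ℝ) = ((K1 : ℝ) + 1) * h d.2 := by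
      intro d
      simp only [fac, hh]
      split_ifs <;> push_cast <;> ring
    simp only [this, prod_mul_distrib, prod_const, hMK]
    congr 1
    rw [← prod_fiberwise_of_maps_to (g := fun d : α × α => d.2) (fun d _ => mem_univ _)]
    refine prod_congr rfl fun u _ => ?_
    rw [prod_congr rfl fun d hd => by rw [(mem_filter.1 hd).2], prod_const, hinj]
  have hjsum : ∑ u : α, (inEdges M u).card = K := by
    simp only [hinj, ← hMK]
    exact (card_eq_sum_card_fiberwise fun d _ => mem_univ _).symm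
  have hcost : costOn K1 K2 M (univ \ rt) * ∏ u : α, h u ^ (inEdges M u).card ≤
      (2 : ℝ) ^ ((K1 + 1) * K) * (6 * ((K2 : ℝ) + 1)) ^ K := by
    have hsp : ∏ u : α, h u ^ (inEdges M u).card =
        (∏ u ∈ univ \ rt, h u ^ (inEdges M u).card) * ∏ u ∈ rt, h u ^ (inEdges M u).card :=
      (prod_sdiff (subset_univ rt)).symm
    rw [hsp, ← mul_assoc, costOn, ← prod_mul_distrib]
    have hA : ∀ u ∈ univ \ rt,
        (2 : ℝ) ^ K1 * 2 ^ ((inEdges M u).card + 1) * (K2.choose (inEdges M u).card : ℝ) *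
          h u ^ (inEdges M u).card ≤
        2 ^ (K1 + 1) * (6 * ((K2 : ℝ) + 1)) ^ (inEdges M u).card := by
      intro u hu
      rw [hh]
      simp only [if_neg (mem_sdiff.1 hu).2]
      set j := (inEdges M u).card
      have h1 : (max 1 (j : ℝ)) ^ j ≤ 3 ^ j * (j.factorial : ℝ) := by
        rcases Nat.eq_zero_or_pos j with hj | hj
        · simp [hj]
        · rw [max_eq_right (by exact_mod_cast hj)]
          have h2 := Real.pow_div_factorial_le_exp (j : ℝ) (Nat.cast_nonneg _) j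
          rw [div_le_iff₀ (by positivity)] at h2
          refine h2.trans (mul_le_mul_of_nonneg_right ?_ (Nat.cast_nonneg _))
          rw [show (j : ℝ) = (j : ℝ) * 1 by ring, Real.exp_nat_mul]
          exact pow_le_pow_left₀ (Real.exp_pos _).le
            (by linarith [Real.exp_one_lt_d9]) _
      have h3 : (K2.choose j : ℝ) * (j.factorial : ℝ) ≤ ((K2 : ℝ) + 1) ^ j := by
        have : K2.choose j * j.factorial ≤ (K2 + 1) ^ j := by
          rw [mul_comm, ← Nat.descFactorial_eq_factorial_mul_choose]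
          exact (Nat.descFactorial_le_pow K2 j).trans (Nat.pow_le_pow_left (Nat.le_succ _) j)
        exact_mod_cast this
      calc (2 : ℝ) ^ K1 * 2 ^ (j + 1) * (K2.choose j : ℝ) * max 1 (j : ℝ) ^ j
          ≤ (2 : ℝ) ^ K1 * 2 ^ (j + 1) * (K2.choose j : ℝ) * (3 ^ j * (j.factorial : ℝ)) :=
            mul_le_mul_of_nonneg_left h1 (by positivity)
        _ = 2 ^ (K1 + 1) * 6 ^ j * ((K2.choose j : ℝ) * (j.factorial : ℝ)) := by
            rw [show (6 : ℝ) = 2 * 3 by norm_num, mul_pow]; ring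
        _ ≤ 2 ^ (K1 + 1) * 6 ^ j * ((K2 : ℝ) + 1) ^ j :=
            mul_le_mul_of_nonneg_left h3 (by positivity)
        _ = _ := by rw [mul_pow]; ring
    have hB : ∀ u ∈ rt, h u ^ (inEdges M u).card ≤
        (6 * ((K2 : ℝ) + 1)) ^ (inEdges M u).card := by
      intro u hu
      rw [hh]
      simp only [if_pos hu]
      refine pow_le_pow_left₀ (by positivity) ?_ _
      linarith [show (0 : ℝ) ≤ (K2 : ℝ) from Nat.cast_nonneg _]
    have hnn : ∀ u, 0 ≤ h u := fun u => by rw [hh]; simp only; split_ifs <;> positivity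
    refine (mul_le_mul (Finset.prod_le_prod (fun u _ => ?_) hA) (Finset.prod_le_prod (fun u _ => ?_) hB)
      (prod_nonneg fun u _ => pow_nonneg (hnn u) _)
      (prod_nonneg fun u _ => by positivity)).trans (le_of_eq ?_)
    · exact mul_nonneg (by positivity) (pow_nonneg (hnn u) _)
    · exact pow_nonneg (hnn u) _
    · rw [prod_mul_distrib, prod_const, hK, ← pow_mul, mul_assoc, prod_pow_eq_pow_sum,
        prod_pow_eq_pow_sum, ← pow_add, sum_sdiff (subset_univ rt), hjsum]
  rw [show (∏ r ∈ rt, ∏ d ∈ M.filter (fun d => cl d.1 = r), (fac K1 K2 M rt d : ℝ)) =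
    ∏ r ∈ rt, ∏ d ∈ Mr r, (fac K1 K2 M rt d : ℝ) from rfl, hfac, mul_left_comm]
  have h1 : ((K1 : ℝ) + 1) ≤ (2 : ℝ) ^ K1 := by exact_mod_cast Nat.lt_two_pow_self
  refine (mul_le_mul (pow_le_pow_left₀ (by positivity) h1 K) hcost ?_ (by positivity)).trans
    (le_of_eq ?_)
  · refine mul_nonneg (prod_nonneg fun u _ => by positivity) (prod_nonneg fun u _ => ?_)
    refine pow_nonneg ?_ _
    rw [hh]
    simp only
    split_ifs <;> positivity
  · rw [pow_mul, ← mul_pow, ← mul_pow, show (4 : ℝ) ^ K1 = 2 ^ K1 * 2 ^ K1 by rw [← mul_pow]; norm_num,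
      pow_succ]
    ring_nf

/-- The counting bound for a certificate class. -/
theorem count_class (hN : 2 / 3 ≤ N) (hl : 0 < l) (hJ : HypExp H N l)
    (hD : D.Bounded ⌊2 * (N + 1) / l⌋₊ ⌊N + 1⌋₊) (hnoiso : ∀ a, ∃ b, F.Adj a b)
    (hΨ : ∀ φ ∈ Ψ, CertClass F H D N l o M rt cl φ) :
    (Ψ.card : ℝ) * costOn ⌊2 * (N + 1) / l⌋₊ ⌊N + 1⌋₊ M (univ \ rt) ≤
      Real.exp (Fintype.card α * N - F.edgeFinset.card * l) *
        (10 ^ 12 * (Real.exp 20 * N ^ min 1 (l / N))) ^ F.edgeFinset.card := by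
  classical
  set K1 := ⌊2 * (N + 1) / l⌋₊ with hK1
  set K2 := ⌊N + 1⌋₊ with hK2
  set e := F.edgeFinset.card with he
  set k := Fintype.card α with hk
  have hN0 : 0 ≤ N := by linarith
  rcases Ψ.eq_empty_or_nonempty with rfl | hne
  · simp only [card_empty, Nat.cast_zero, zero_mul]
    positivity
  obtain ⟨φ0, hφ0⟩ := id hne
  obtain ⟨K, ev, hMK, hK, hrt, hKe, hk2e, hXe, hev_e, hTe, hsumc, hsump, hevprod, hKN, hXN⟩ :=
    class_stats hD hN0 hnoiso (hΨ φ0 hφ0)
  rw [← he] at hrt hKe hk2e hXe hev_e hTe hsump hKN hXN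
  rw [← hk] at hk2e hsumc
  have hpow := pow_events_le hN hl.le hXe hev_e hXN
  have hcard := class_card hN0 hJ hD hΨ hne
  have hcf := cost_fac_le (K1 := K1) (K2 := K2) (hΨ φ0 hφ0).good.cl_rt hMK hK
  have hK2N : (K2 : ℝ) + 1 ≤ N + 2 := by
    have := Nat.floor_le (show (0 : ℝ) ≤ N + 1 by linarith)
    linarith
  have hK1K : (4 : ℝ) ^ (K1 * K) ≤ 1024 ^ e := by
    rw [show (1024 : ℝ) = 4 ^ 5 by norm_num, ← pow_mul]
    refine pow_le_pow_right₀ (by norm_num) ?_
    have h1 : (K1 : ℝ) * l ≤ 2 * (N + 1) := by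
      have := Nat.floor_le (show (0 : ℝ) ≤ 2 * (N + 1) / l by positivity)
      rwa [le_div_iff₀ hl] at this
    have h2 : (K1 : ℝ) * K * (N * l) ≤ 2 * (N + 1) * (e * l) := by
      have := mul_le_mul h1 hKN (by positivity) (by positivity)
      linarith
    have h3 : (K1 : ℝ) * K * (N * l) ≤ (5 * e : ℝ) * (N * l) := by
      have : 2 * (N + 1) ≤ 5 * N := by linarith
      nlinarith [mul_nonneg (show (0 : ℝ) ≤ e from Nat.cast_nonneg _) hl.le]
    have h4 := le_of_mul_le_mul_right h3 (mul_pos (by linarith) hl)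
    exact_mod_cast h4
  set P1 := ∏ r ∈ rt, (2 * ((fib cl r).card : ℝ) + 1) with hP1def
  set P2 := ∏ r ∈ rt, Real.exp (2 * ((heads o (fib cl r)).card : ℝ)) with hP2def
  set E' := Real.exp ((k : ℝ) * N - (e : ℝ) * l) with hE'
  have hμprod : ∏ r ∈ rt, Real.exp (((fib cl r).card : ℝ) * N -
      ((dartsFrom o (fib cl r)).card : ℝ) * l) = E' := by
    rw [hE', ← Real.exp_sum, sum_sub_distrib, ← sum_mul, ← sum_mul, ← Nat.cast_sum,
      ← Nat.cast_sum, hsumc, hsump]
  have hP2 : P2 ≤ (9 : ℝ) ^ e := by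
    rw [hP2def, ← Real.exp_sum, ← mul_sum, ← Nat.cast_sum]
    have h1 : ((∑ r ∈ rt, (heads o (fib cl r)).card : ℕ) : ℝ) ≤ e := by exact_mod_cast hTe
    refine (Real.exp_le_exp.2 (show (2 : ℝ) * _ ≤ (e : ℝ) * 2 by linarith)).trans ?_
    rw [Real.exp_nat_mul]
    refine pow_le_pow_left₀ (Real.exp_pos _).le ?_ _
    have : Real.exp 2 = Real.exp 1 * Real.exp 1 := by rw [← Real.exp_add]; norm_num
    rw [this]
    nlinarith [Real.exp_pos 1, Real.exp_one_lt_d9]
  have hP1 : P1 ≤ (9 : ℝ) ^ e := by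
    calc P1 ≤ ∏ r ∈ rt, (3 : ℝ) ^ (fib cl r).card := by
          refine Finset.prod_le_prod (fun r _ => by positivity) fun r _ => ?_
          have h1 : ∀ j : ℕ, 2 * j + 1 ≤ 3 ^ j := fun j => by
            induction j with
            | zero => simp
            | succ j ih => rw [pow_succ]; omega
          exact_mod_cast h1 _
      _ = (3 : ℝ) ^ k := by rw [prod_pow_eq_pow_sum, hsumc]
      _ ≤ (3 : ℝ) ^ (2 * e) := pow_le_pow_right₀ (by norm_num) hk2e
      _ = _ := by rw [pow_mul]; norm_num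
  have h9 : (9 : ℝ) ^ rt.card ≤ 81 ^ e := by
    refine (pow_le_pow_right₀ (by norm_num) hrt).trans (le_of_eq ?_)
    rw [pow_mul]; norm_num
  have h12 : (12 * 4 ^ K1 * ((K2 : ℝ) + 1)) ^ K ≤ 12 ^ e * 1024 ^ e * (N + 2) ^ K := by
    rw [mul_pow, mul_pow, ← pow_mul]
    refine mul_le_mul (mul_le_mul (pow_le_pow_right₀ (by norm_num) hKe) hK1K (by positivity)
      (by positivity)) (pow_le_pow_left₀ (by positivity) hK2N _) (by positivity) (by positivity)
  have hP1nn : 0 ≤ P1 := prod_nonneg fun r _ => by positivity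
  have hP2nn : 0 ≤ P2 := prod_nonneg fun r _ => (Real.exp_pos _).le
  have hevnn : (0 : ℝ) ≤ (N + 2) ^ ev := pow_nonneg (by linarith) _
  have hcnn : 0 ≤ costOn K1 K2 M (univ \ rt) := prod_nonneg fun u _ => by positivity
  have hsplit : (∏ r ∈ rt, clusterBound N l K1 K2 o M rt cl r) =
      P1 * (9 ^ rt.card * P2 * E' * (N + 2) ^ ev) *
        ∏ r ∈ rt, ∏ d ∈ M.filter (fun d => cl d.1 = r), (fac K1 K2 M rt d : ℝ) := by
    simp only [clusterBound, prod_mul_distrib, prod_const, hμprod, hevprod, hP1def, hP2def]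
  calc (Ψ.card : ℝ) * costOn K1 K2 M (univ \ rt)
      ≤ (∏ r ∈ rt, clusterBound N l K1 K2 o M rt cl r) * costOn K1 K2 M (univ \ rt) :=
        mul_le_mul_of_nonneg_right hcard hcnn
    _ = P1 * (9 ^ rt.card * P2 * E' * (N + 2) ^ ev) * (costOn K1 K2 M (univ \ rt) *
        ∏ r ∈ rt, ∏ d ∈ M.filter (fun d => cl d.1 = r), (fac K1 K2 M rt d : ℝ)) := by
        rw [hsplit, mul_assoc, mul_comm (∏ r ∈ rt, ∏ d ∈ M.filter _, _)]
    _ ≤ 9 ^ e * (81 ^ e * 9 ^ e * E' * (N + 2) ^ ev) *
        (12 ^ e * 1024 ^ e * (N + 2) ^ K) := by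
        have hpos : (0 : ℝ) ≤ E' := (Real.exp_pos _).le
        refine mul_le_mul ?_ (hcf.trans h12) ?_ (by positivity)
        · gcongr
        · exact mul_nonneg hcnn (prod_nonneg fun r _ => prod_nonneg fun d _ => Nat.cast_nonneg _)
    _ = E' * ((9 * 81 * 9 * 12 * 1024 : ℝ) ^ e * (N + 2) ^ (K + ev)) := by
        rw [pow_add, mul_pow, mul_pow, mul_pow, mul_pow]
        ring
    _ ≤ E' * ((10 ^ 12 : ℝ) ^ e * (Real.exp 20 * N ^ min 1 (l / N)) ^ e) := by
        refine mul_le_mul_of_nonneg_left (mul_le_mul ?_ hpow (pow_nonneg (by linarith) _)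
          (by positivity)) (Real.exp_pos _).le
        exact pow_le_pow_left₀ (by norm_num) (by norm_num) _
    _ = _ := by rw [mul_pow (10 ^ 12 : ℝ)]

end Vale.Agent.P064
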