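import Mathlib

/-!
Spread families give thresholds (Frankston–Kahn–Narayanan–Park), via minimum fragments.

If a uniform member of a finite family of sets of size at most `l` is `R`-spread and
`16 (log₂ l + 1) / R ≤ p ≤ 1`, then the `p`-random subset contains a member with probability at
least `1 / 2`.
-/

open Finset

namespace Vale.Agent.P064

namespace FKNP

variable {α ι : Type*} [DecidableEq α]

/-- The weight of `W ⊆ s` under the `p`-biased measure on subsets of `s`. -/
noncomputable def wt (p : ℝ) (s W : Finset α) : ℝ := p ^ W.card * (1 - p) ^ (s.card - W.card)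

/-- Expectation of `f` under the `p`-biased measure on subsets of `s`. -/
noncomputable def Ex (p : ℝ) (s : Finset α) (f : Finset α → ℝ) : ℝ :=
  ∑ W ∈ s.powerset, wt p s W * f W

omit [DecidableEq α] in
lemma wt_nonneg {p : ℝ} (h0 : 0 ≤ p) (h1 : p ≤ 1) (s W : Finset α) : 0 ≤ wt p s W :=
  mul_nonneg (pow_nonneg h0 _) (pow_nonneg (sub_nonneg.2 h1) _)

omit [DecidableEq α] in
lemma Ex_mono {p : ℝ} (h0 : 0 ≤ p) (h1 : p ≤ 1) {s : Finset α} {f g : Finset α → ℝ}
    (h : ∀ W ⊆ s, f W ≤ g W) : Ex p s f ≤ Ex p s g :=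
  sum_le_sum fun W hW => mul_le_mul_of_nonneg_left (h W (mem_powerset.1 hW)) (wt_nonneg h0 h1 s W)

omit [DecidableEq α] in
lemma Ex_congr {p : ℝ} {s : Finset α} {f g : Finset α → ℝ} (h : ∀ W ⊆ s, f W = g W) :
    Ex p s f = Ex p s g :=
  sum_congr rfl fun W hW => by rw [h W (mem_powerset.1 hW)]

omit [DecidableEq α] in
lemma Ex_add (p : ℝ) (s : Finset α) (f g : Finset α → ℝ) :
    Ex p s (fun W => f W + g W) = Ex p s f + Ex p s g := by
  simp [Ex, mul_add, sum_add_distrib]

omit [DecidableEq α] in
lemma Ex_const_mul (p c : ℝ) (s : Finset α) (f : Finset α → ℝ) :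
    Ex p s (fun W => c * f W) = c * Ex p s f := by
  simp [Ex, mul_sum, mul_left_comm]

lemma Ex_insert (p : ℝ) {s : Finset α} {a : α} (ha : a ∉ s) (f : Finset α → ℝ) :
    Ex p (insert a s) f = p * Ex p s (fun W => f (insert a W)) + (1 - p) * Ex p s f := by
  rw [Ex, sum_powerset_insert ha, Ex, Ex, mul_sum, mul_sum, add_comm]
  congr 1 <;> refine sum_congr rfl fun W hW => ?_ <;> rw [mem_powerset] at hW
  · rw [wt, wt, card_insert_of_notMem ha, card_insert_of_notMem fun h => ha (hW h), pow_succ,
      Nat.add_sub_add_right]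
    ring
  · rw [wt, wt, card_insert_of_notMem ha, Nat.sub_add_comm (card_le_card hW), pow_succ]
    ring

omit [DecidableEq α] in
lemma Ex_one (p : ℝ) (s : Finset α) : Ex p s (fun _ => 1) = 1 := by
  simp only [Ex, wt, mul_one]
  rw [Finset.sum_pow_mul_eq_add_pow, add_sub_cancel, one_pow]

omit [DecidableEq α] in
lemma Ex_const (p c : ℝ) (s : Finset α) : Ex p s (fun _ => c) = c := by
  simpa [Ex_one] using Ex_const_mul p c s (fun _ => 1)

/-- The union of independent `p`- and `q`-random sets is `(1 - (1 - p)(1 - q))`-random. -/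
lemma Ex_union (p q : ℝ) (s : Finset α) : ∀ f : Finset α → ℝ,
    Ex p s (fun A => Ex q s fun B => f (A ∪ B)) = Ex (1 - (1 - p) * (1 - q)) s f := by
  induction s using Finset.induction_on with
  | empty => intro f; simp [Ex, wt]
  | @insert a s ha ih =>
    intro f
    simp only [Ex_insert _ ha, Finset.union_insert, Finset.insert_union, Finset.insert_idem]
    simp only [Ex_add, Ex_const_mul]
    rw [ih (fun W => f (insert a W)), ih f]
    ring

/-- Expectations of monotone functions are monotone in the bias. -/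
lemma Ex_le_of_le {p r : ℝ} (h0 : 0 ≤ p) (hpr : p ≤ r) (hr : r ≤ 1) {s : Finset α}
    {f : Finset α → ℝ} (hf : Monotone f) : Ex p s f ≤ Ex r s f := by
  rcases eq_or_lt_of_le (hpr.trans hr) with h | h
  · rw [show r = p by linarith]
  set q := (r - p) / (1 - p)
  have hd : 0 < 1 - p := by linarith
  have hq0 : 0 ≤ q := div_nonneg (by linarith) hd.le
  have hq1 : q ≤ 1 := (div_le_one hd).2 (by linarith)
  have e : 1 - (1 - p) * (1 - q) = r := by
    rw [mul_one_sub, mul_div_cancel₀ _ hd.ne']; ring
  rw [← e, ← Ex_union]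
  refine Ex_mono h0 (hpr.trans hr) fun A _ => ?_
  calc f A = Ex q s (fun _ => f A) := (Ex_const _ _ _).symm
    _ ≤ _ := Ex_mono hq0 hq1 fun B _ => hf subset_union_left

open Classical in
/-- Indicator that `W` contains no member of the family. -/
noncomputable def fail (I : Finset ι) (S : ι → Finset α) (W : Finset α) : ℝ :=
  if ∃ i ∈ I, S i ⊆ W then 0 else 1

lemma fail_nonneg (I : Finset ι) (S : ι → Finset α) (W : Finset α) : 0 ≤ fail I S W := by
  unfold fail; split_ifs <;> norm_num

lemma fail_le_one (I : Finset ι) (S : ι → Finset α) (W : Finset α) : fail I S W ≤ 1 := by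
  unfold fail; split_ifs <;> norm_num

/-- A minimum fragment of `i` with respect to `W`. -/
lemma exists_frag (I : Finset ι) (S : ι → Finset α) (W : Finset α) {i : ι} (hi : i ∈ I) :
    ∃ j ∈ I, S j ⊆ W ∪ S i ∧ ∀ h ∈ I, S h ⊆ W ∪ S i → (S j \ W).card ≤ (S h \ W).card := by
  classical
  obtain ⟨j, hj, hmin⟩ := exists_min_image (I.filter fun h => S h ⊆ W ∪ S i)
    (fun h => (S h \ W).card) ⟨i, mem_filter.2 ⟨hi, subset_union_right⟩⟩
  exact ⟨j, (mem_filter.1 hj).1, (mem_filter.1 hj).2,
    fun h hh hh' => hmin h (mem_filter.2 ⟨hh, hh'⟩)⟩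

open Classical in
/-- The chosen minimum fragment. -/
noncomputable def frag (I : Finset ι) (S : ι → Finset α) (W : Finset α) (i : ι) : Finset α :=
  if hi : i ∈ I then S (exists_frag I S W hi).choose \ W else ∅

lemma frag_spec (I : Finset ι) (S : ι → Finset α) (W : Finset α) {i : ι} (hi : i ∈ I) :
    frag I S W i ⊆ S i ∧ Disjoint W (frag I S W i) ∧
      (∃ j ∈ I, S j ⊆ W ∪ frag I S W i) ∧
      ∀ h ∈ I, S h ⊆ W ∪ S i → (frag I S W i).card ≤ (S h \ W).card := by
  obtain ⟨hj, hsub, hmin⟩ := (exists_frag I S W hi).choose_spec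
  simp only [frag, dif_pos hi]
  refine ⟨?_, disjoint_sdiff, ⟨_, hj, ?_⟩, hmin⟩
  · intro x hx
    rw [mem_sdiff] at hx
    exact (mem_union.1 (hsub hx.1)).resolve_left hx.2
  · rw [union_sdiff_self_eq_union]
    exact subset_union_right

/-- The main counting step: few members have fragments of size `t`. -/
lemma count_frag {s : Finset α} {p R : ℝ} (hp0 : 0 < p) (hp1 : p ≤ 1) (hR : 0 < R) {M : ℝ}
    (hM : 0 ≤ M) {I : Finset ι} {S : ι → Finset α} (hS : ∀ i ∈ I, S i ⊆ s) {l : ℕ}
    (hl : ∀ i ∈ I, (S i).card ≤ l)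
    (hspread : ∀ U : Finset α, U.Nonempty →
      ((I.filter fun i => U ⊆ S i).card : ℝ) * R ^ U.card ≤ M) {t : ℕ} (ht : 0 < t) :
    (p * R) ^ t *
      Ex p s (fun W => ((I.filter fun i => (frag I S W i).card = t).card : ℝ)) ≤
        (l.choose t : ℝ) * M := by
  classical
  set P := (s.powerset ×ˢ I).filter fun x => (frag I S x.1 x.2).card = t
  have e1 : Ex p s (fun W => ((I.filter fun i => (frag I S W i).card = t).card : ℝ)) =
      ∑ x ∈ P, wt p s x.1 := by
    simp only [Ex, P, sum_filter, sum_product]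
    refine sum_congr rfl fun W _ => ?_
    rw [← sum_filter, sum_const, nsmul_eq_mul, mul_comm]
  -- candidates for the fragment, given the union
  set cand : Finset α → Finset (Finset α) := fun Z =>
    if h : ∃ j ∈ I, S j ⊆ Z then (S h.choose).powersetCard t else ∅
  set tgt : Finset α → Finset (Finset α × ι) := fun Z =>
    (cand Z ×ˢ I).filter fun y => y.1 ⊆ S y.2
  set g : Finset α × ι → (_ : Finset α) × (Finset α × ι) := fun x =>
    ⟨x.1 ∪ frag I S x.1 x.2, (frag I S x.1 x.2, x.2)⟩
  have hmem : ∀ x ∈ P, g x ∈ s.powerset.sigma tgt := by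
    rintro ⟨W, i⟩ hx
    simp only [P, mem_filter, mem_product, mem_powerset] at hx
    obtain ⟨⟨hW, hi⟩, hc⟩ := hx
    obtain ⟨hsub, hdis, hex, hmin⟩ := frag_spec I S W hi
    refine mem_sigma.2 ⟨mem_powerset.2 (union_subset hW (hsub.trans (hS i hi))), ?_⟩
    simp only [g, tgt, mem_filter, mem_product]
    refine ⟨⟨?_, hi⟩, hsub⟩
    simp only [cand, dif_pos hex]
    obtain ⟨hhI, hh⟩ := hex.choose_spec
    refine mem_powersetCard.2 ⟨?_, hc⟩
    have h1 := hmin _ hhI (hh.trans (union_subset_union_right hsub))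
    have h2 : S hex.choose \ W ⊆ frag I S W i := by
      intro x hx
      rw [mem_sdiff] at hx
      exact (mem_union.1 (hh hx.1)).resolve_left hx.2
    exact (eq_of_subset_of_card_le h2 h1).symm.subset.trans sdiff_subset
  have hinj : Set.InjOn g P := by
    rintro ⟨W, i⟩ hx ⟨W', i'⟩ hx' he
    simp only [P, coe_filter, mem_product, Set.mem_ofPred_eq] at hx hx'
    simp only [g, Sigma.mk.injEq, heq_eq_eq, Prod.mk.injEq] at he
    obtain ⟨hu, hT, rfl⟩ := he
    have h1 := (frag_spec I S W hx.1.2).2.1
    have h2 := (frag_spec I S W' hx'.1.2).2.1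
    have h3 : (W ∪ frag I S W i) \ frag I S W i = (W' ∪ frag I S W' i) \ frag I S W i := by
      rw [hu]
    rw [union_sdiff_cancel_right h1, hT, union_sdiff_cancel_right h2] at h3
    rw [h3]
  have hwt : ∀ x ∈ P, p ^ t * wt p s x.1 ≤ wt p s (g x).1 := by
    rintro ⟨W, i⟩ hx
    simp only [P, mem_filter, mem_product, mem_powerset] at hx
    obtain ⟨⟨hW, hi⟩, hc⟩ := hx
    obtain ⟨hsub, hdis, -, -⟩ := frag_spec I S W hi
    have hcard : (W ∪ frag I S W i).card = W.card + t := by
      rw [card_union_of_disjoint hdis, hc]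
    have hle : W.card + t ≤ s.card := hcard ▸ card_le_card (union_subset hW (hsub.trans (hS i hi)))
    simp only [g, wt, hcard]
    rw [show s.card - W.card = (s.card - (W.card + t)) + t by omega, pow_add, pow_add]
    calc p ^ t * (p ^ W.card * ((1 - p) ^ (s.card - (W.card + t)) * (1 - p) ^ t))
        = (p ^ W.card * p ^ t * (1 - p) ^ (s.card - (W.card + t))) * (1 - p) ^ t := by ring
      _ ≤ (p ^ W.card * p ^ t * (1 - p) ^ (s.card - (W.card + t))) * 1 := by
          have : 0 ≤ 1 - p := by linarith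
          exact mul_le_mul_of_nonneg_left (pow_le_one₀ this (by linarith)) (by positivity)
      _ = _ := mul_one _
  have htgt : ∀ Z, ((tgt Z).card : ℝ) * R ^ t ≤ (l.choose t : ℝ) * M := by
    intro Z
    have e2 : (tgt Z).card = ∑ T ∈ cand Z, (I.filter fun i => T ⊆ S i).card := by
      simp only [tgt, card_filter, sum_product]
    have hcandc : (cand Z).card ≤ l.choose t := by
      simp only [cand]
      split_ifs with h
      · rw [card_powersetCard]
        exact Nat.choose_le_choose t (hl _ h.choose_spec.1)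
      · simp
    have hcandm : ∀ T ∈ cand Z, T.card = t := by
      simp only [cand]
      split_ifs with h
      · exact fun T hT => (mem_powersetCard.1 hT).2
      · simp
    rw [e2, Nat.cast_sum, sum_mul]
    calc ∑ T ∈ cand Z, ((I.filter fun i => T ⊆ S i).card : ℝ) * R ^ t
        ≤ ∑ _T ∈ cand Z, M := sum_le_sum fun T hT => by
          have hc := hcandm T hT
          rw [← hc]
          exact hspread T (card_pos.1 (hc ▸ ht))
      _ ≤ (l.choose t : ℝ) * M := by
          rw [sum_const, nsmul_eq_mul]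
          exact mul_le_mul_of_nonneg_right (by exact_mod_cast hcandc) hM
  calc (p * R) ^ t * Ex p s (fun W => ((I.filter fun i => (frag I S W i).card = t).card : ℝ))
      = R ^ t * ∑ x ∈ P, p ^ t * wt p s x.1 := by rw [e1, ← mul_sum, mul_pow]; ring
    _ ≤ R ^ t * ∑ x ∈ P, wt p s (g x).1 :=
        mul_le_mul_of_nonneg_left (sum_le_sum hwt) (by positivity)
    _ = R ^ t * ∑ y ∈ P.image g, wt p s y.1 := by rw [sum_image hinj]
    _ ≤ R ^ t * ∑ y ∈ s.powerset.sigma tgt, wt p s y.1 :=
        mul_le_mul_of_nonneg_left (sum_le_sum_of_subset_of_nonneg (image_subset_iff.2 hmem)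
          (fun y _ _ => wt_nonneg hp0.le hp1 s _)) (by positivity)
    _ = Ex p s (fun Z => ((tgt Z).card : ℝ) * R ^ t) := by
        rw [sum_sigma, mul_sum, Ex]
        refine sum_congr rfl fun Z _ => ?_
        simp only [sum_const, nsmul_eq_mul]
        ring
    _ ≤ Ex p s (fun _ => (l.choose t : ℝ) * M) := Ex_mono hp0.le hp1 fun Z _ => htgt Z
    _ = _ := Ex_const _ _ _

/-- The bias after `k` rounds of bias `p`. -/
noncomputable def bias (p : ℝ) (k : ℕ) : ℝ := 1 - (1 - p) ^ k

/-- The accumulated loss after `k` rounds. -/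
noncomputable def loss (L : ℝ) (k : ℕ) : ℝ := ∑ j ∈ range k, (4 / L) ^ (2 ^ j)

lemma rounds {s : Finset α} {p R : ℝ} (hp0 : 0 < p) (hp1 : p ≤ 1) (hR : 0 < R)
    (hL : 1 ≤ p * R) {M : ℝ} (hM : 0 ≤ M) : ∀ (k : ℕ) (I : Finset ι) (S : ι → Finset α),
      (∀ i ∈ I, S i ⊆ s) → (∀ i ∈ I, (S i).card < 2 ^ k) →
      (∀ U : Finset α, U.Nonempty → ((I.filter fun i => U ⊆ S i).card : ℝ) * R ^ U.card ≤ M) →
        (I.card : ℝ) * Ex (bias p k) s (fail I S) ≤ loss (p * R) k * M := by
  classical
  intro k
  induction k with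
  | zero =>
    intro I S _ hk _
    rcases I.eq_empty_or_nonempty with rfl | ⟨i, hi⟩
    · simp [loss]
    · have hz : ∀ W, fail I S W = 0 := fun W => by
        have hsub : S i ⊆ W := by simp [show S i = ∅ by simpa using hk i hi]
        rw [fail, if_pos ⟨i, hi, hsub⟩]
      simp [Ex, hz, loss]
  | succ k ih =>
    intro I S hS hk hspread
    set J : Finset α → Finset ι := fun A => I.filter fun i => (frag I S A i).card < 2 ^ k
    set drop : Finset α → ℝ := fun A => ((I.filter fun i => 2 ^ k ≤ (frag I S A i).card).card : ℝ)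
    have hb0 : 0 ≤ bias p k := by
      simp only [bias, sub_nonneg]; exact pow_le_one₀ (by linarith) (by linarith)
    have hb1 : bias p k ≤ 1 := by
      simp only [bias, sub_le_self_iff]; exact pow_nonneg (by linarith) _
    have hstep : ∀ A ⊆ s, (I.card : ℝ) * Ex (bias p k) s (fun B => fail I S (A ∪ B)) ≤
        drop A + loss (p * R) k * M := by
      intro A _
      have hfail : ∀ B, fail I S (A ∪ B) ≤ fail (J A) (fun i => frag I S A i) B := by
        intro B
        by_cases h : ∃ i ∈ J A, frag I S A i ⊆ B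
        · obtain ⟨i, hi, hsub⟩ := h
          obtain ⟨-, -, ⟨j, hj, hj'⟩, -⟩ := frag_spec I S A (mem_filter.1 hi).1
          rw [fail, if_pos ⟨j, hj, hj'.trans (union_subset_union_right hsub)⟩]
          exact fail_nonneg _ _ _
        · rw [show fail (J A) (fun i => frag I S A i) B = 1 by rw [fail, if_neg h]]
          exact fail_le_one _ _ _
      set E := Ex (bias p k) s (fun B => fail I S (A ∪ B))
      have hE1 : E ≤ 1 :=
        (Ex_mono hb0 hb1 fun B _ => fail_le_one _ _ _).trans_eq (Ex_one _ _)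
      have hE2 : E ≤ Ex (bias p k) s (fail (J A) fun i => frag I S A i) :=
        Ex_mono hb0 hb1 fun B _ => hfail B
      have hsplit : (I.card : ℝ) = drop A + (J A).card := by
        simp only [drop, J]
        rw [← Nat.cast_add, Nat.cast_inj, add_comm]
        conv_lhs => rw [← card_filter_add_card_filter_not (s := I)
          (fun i => (frag I S A i).card < 2 ^ k)]
        simp [not_lt]
      have hJ := ih (J A) (fun i => frag I S A i)
        (fun i hi => (frag_spec I S A (mem_filter.1 hi).1).1.trans (hS i (mem_filter.1 hi).1))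
        (fun i hi => (mem_filter.1 hi).2)
        (fun U hU => by
          refine le_trans (mul_le_mul_of_nonneg_right (Nat.cast_le.2 (card_le_card ?_))
            (by positivity)) (hspread U hU)
          intro i hi
          obtain ⟨hiJ, hUi⟩ := mem_filter.1 hi
          exact mem_filter.2 ⟨(mem_filter.1 hiJ).1,
            hUi.trans (frag_spec I S A (mem_filter.1 hiJ).1).1⟩)
      have hd0 : (0 : ℝ) ≤ drop A := Nat.cast_nonneg _
      calc (I.card : ℝ) * E = drop A * E + (J A).card * E := by rw [hsplit]; ring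
        _ ≤ drop A * 1 + (J A).card * Ex (bias p k) s (fail (J A) fun i => frag I S A i) := by
            gcongr
        _ ≤ _ := by rw [mul_one]; linarith
    have hdrop : Ex p s drop ≤ (4 / (p * R)) ^ (2 ^ k) * M := by
      have hdec : ∀ A, drop A = ∑ t ∈ Ico (2 ^ k) (2 ^ (k + 1)),
          ((I.filter fun i => (frag I S A i).card = t).card : ℝ) := by
        intro A
        simp only [drop]
        rw [← Nat.cast_sum, Nat.cast_inj, card_eq_sum_card_fiberwise
          (f := fun i => (frag I S A i).card) (t := Ico (2 ^ k) (2 ^ (k + 1)))]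
        · refine sum_congr rfl fun t ht => ?_
          rw [filter_filter]
          refine congrArg Finset.card (filter_congr fun i _ => ?_)
          have := (mem_Ico.1 ht).1
          constructor
          · exact fun h => h.2
          · exact fun h => ⟨by omega, h⟩
        · intro i hi
          rw [mem_coe, mem_filter] at hi
          exact mem_Ico.2 ⟨hi.2,
            (card_le_card (frag_spec I S A hi.1).1).trans_lt (hk i hi.1)⟩
      have hL0 : 0 < p * R := by positivity
      calc Ex p s drop = ∑ t ∈ Ico (2 ^ k) (2 ^ (k + 1)),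
            Ex p s (fun A => ((I.filter fun i => (frag I S A i).card = t).card : ℝ)) := by
            simp only [Ex, hdec, mul_sum]
            exact sum_comm
        _ ≤ ∑ t ∈ Ico (2 ^ k) (2 ^ (k + 1)),
              ((2 ^ (k + 1)).choose t : ℝ) * ((1 / (p * R)) ^ (2 ^ k) * M) := by
            refine sum_le_sum fun t ht => ?_
            have h := count_frag hp0 hp1 hR hM hS (fun i hi => (hk i hi).le) hspread (t := t)
              (lt_of_lt_of_le (Nat.two_pow_pos k) (mem_Ico.1 ht).1)
            rw [← le_div_iff₀' (pow_pos hL0 t)] at h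
            refine h.trans ?_
            rw [mul_div_assoc]
            refine mul_le_mul_of_nonneg_left ?_ (Nat.cast_nonneg _)
            rw [one_div_pow, one_div_mul_eq_div]
            exact div_le_div_of_nonneg_left hM (by positivity)
              (pow_le_pow_right₀ hL (mem_Ico.1 ht).1)
        _ ≤ ((2 : ℝ) ^ (2 ^ (k + 1))) * ((1 / (p * R)) ^ (2 ^ k) * M) := by
            rw [← sum_mul]
            refine mul_le_mul_of_nonneg_right ?_ (by positivity)
            have h1 : ∑ t ∈ Ico (2 ^ k) (2 ^ (k + 1)), (2 ^ (k + 1)).choose t ≤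
                2 ^ (2 ^ (k + 1)) := by
              refine (sum_le_sum_of_subset (t := range (2 ^ (k + 1) + 1)) fun t ht =>
                mem_range.2 ((mem_Ico.1 ht).2.trans (Nat.lt_succ_self _))).trans_eq ?_
              exact Nat.sum_range_choose _
            exact_mod_cast h1
        _ = _ := by
            rw [← mul_assoc, pow_succ, mul_comm (2 ^ k) 2, pow_mul, ← mul_pow]
            ring_nf
    have hbias : 1 - (1 - p) * (1 - bias p k) = bias p (k + 1) := by
      simp only [bias]; rw [pow_succ]; ring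
    rw [← hbias, ← Ex_union, ← Ex_const_mul]
    calc Ex p s (fun A => (I.card : ℝ) * Ex (bias p k) s fun B => fail I S (A ∪ B))
        ≤ Ex p s (fun A => drop A + loss (p * R) k * M) := Ex_mono hp0.le hp1 hstep
      _ ≤ (4 / (p * R)) ^ (2 ^ k) * M + loss (p * R) k * M := by
          rw [Ex_add, Ex_const]
          linarith
      _ = loss (p * R) (k + 1) * M := by
          rw [loss, loss, sum_range_succ]
          ring

lemma loss_le_half (k : ℕ) : loss 16 k ≤ 1 / 2 := by
  have h : ∀ j : ℕ, ((4 : ℝ) / 16) ^ (2 ^ j) ≤ (1 / 4) * (1 / 2) ^ j := by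
    intro j
    rw [show (4 : ℝ) / 16 = 1 / 4 by norm_num]
    calc ((1 : ℝ) / 4) ^ (2 ^ j) ≤ (1 / 4) ^ (j + 1) :=
          pow_le_pow_of_le_one (by norm_num) (by norm_num) j.lt_two_pow_self
      _ = 1 / 4 * (1 / 4) ^ j := by rw [pow_succ']
      _ ≤ 1 / 4 * (1 / 2) ^ j := by gcongr; norm_num
  calc loss 16 k ≤ ∑ j ∈ range k, (1 / 4 : ℝ) * (1 / 2) ^ j := sum_le_sum fun j _ => h j
    _ ≤ _ := by
      rw [← mul_sum, geom_sum_eq (by norm_num)]
      have : (0 : ℝ) ≤ (1 / 2) ^ k := by positivity
      rw [show ((1 / 2 : ℝ) - 1) = -(1 / 2) by norm_num, div_neg]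
      linarith

end FKNP

open FKNP in
/-- Spread lemma: an `R`-spread family of sets of size at most `l` is contained in the `p`-random
subset with probability at least `1 / 2` when `16 (log₂ l + 1) / R ≤ p ≤ 1`. -/
theorem spread_threshold {α ι : Type*} [Fintype α] [DecidableEq α] [Fintype ι] [Nonempty ι]
    (S : ι → Finset α) {l : ℕ} (hl : ∀ i, (S i).card ≤ l) {R : ℝ} (hR : 0 < R)
    (hspread : ∀ U : Finset α, U.Nonempty →
      ((Finset.univ.filter fun i => U ⊆ S i).card : ℝ) * R ^ U.card ≤ Fintype.card ι)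
    {p : ℝ} (hp : 16 * ((Nat.log 2 l : ℝ) + 1) / R ≤ p) (hp1 : p ≤ 1) :
    1 / 2 ≤ ∑ W ∈ (Finset.univ : Finset (Finset α)).filter (fun W => ∃ i, S i ⊆ W),
      p ^ W.card * (1 - p) ^ (Fintype.card α - W.card) := by
  classical
  have hlog : (0 : ℝ) ≤ Nat.log 2 l := Nat.cast_nonneg _
  have hp0 : 0 < 16 / R := by positivity
  set k := Nat.log 2 l + 1
  have hk : (k : ℝ) * (16 / R) ≤ p := by
    refine le_trans (le_of_eq ?_) hp
    push_cast [k]
    ring
  have hp16 : 16 / R ≤ p := le_trans (le_mul_of_one_le_left hp0.le (by simp [k])) hk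
  have hpR : 16 / R * R = 16 := div_mul_cancel₀ _ hR.ne'
  have h := rounds (s := univ) (R := R) hp0 (hp16.trans hp1) hR (by rw [hpR]; norm_num)
    (M := (Fintype.card ι : ℝ)) (by positivity) k univ S (fun i _ => subset_univ _)
    (fun i _ => (hl i).trans_lt (Nat.lt_pow_succ_log_self (by norm_num) l)) hspread
  rw [hpR, card_univ] at h
  have hcard : (0 : ℝ) < Fintype.card ι := by exact_mod_cast Fintype.card_pos
  have hloss := loss_le_half k
  have hfail : Ex (bias (16 / R) k) univ (fail univ S) ≤ 1 / 2 := by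
    nlinarith
  have hbias : bias (16 / R) k ≤ p := by
    refine le_trans ?_ hk
    have := one_add_mul_le_pow (a := -(16 / R)) (by linarith [hp16.trans hp1]) k
    simp only [bias, sub_eq_add_neg] at this ⊢
    linarith
  have hb0 : 0 ≤ bias (16 / R) k := by
    simp only [bias, sub_nonneg]; exact pow_le_one₀ (by linarith [hp16.trans hp1]) (by linarith)
  have hsucc : 1 / 2 ≤ Ex p univ (fun W => 1 - fail univ S W) := by
    refine le_trans ?_ (Ex_le_of_le hb0 hbias hp1 ?_)
    · have e : Ex (bias (16 / R) k) univ (fun W => 1 - fail univ S W) +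
          Ex (bias (16 / R) k) univ (fail univ S) = 1 := by
        rw [← Ex_add]; simp [Ex_one]
      linarith
    · intro A B hAB
      show 1 - fail univ S A ≤ 1 - fail univ S B
      unfold fail
      split_ifs with h1 h2 h2
      · exact le_rfl
      · obtain ⟨i, hi, hiA⟩ := h1
        exact absurd ⟨i, hi, hiA.trans hAB⟩ h2
      · norm_num
      · exact le_rfl
  refine hsucc.trans_eq ?_
  simp only [Ex, wt, powerset_univ, card_univ, sum_filter, fail, mem_univ, true_and]
  refine sum_congr rfl fun W _ => ?_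
  split_ifs <;> simp

end Vale.Agent.P064
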