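import Mathlib
import Vale.Agent.P064.Defs
import Vale.Agent.P064.FKNP

/-!
From the labelled counting bound to the thresholds: if labelled copies of graphs without isolated
vertices are few, then `p̃_E ≤ C (log n)^θ p_E` and `p_c ≤ C (log n)^(1+θ) p_E`.
-/

open MeasureTheory unitInterval SimpleGraph Finset
open scoped BigOperators

namespace Vale.Agent.P064

namespace Glue

/-! ### Counting embeddings -/

lemma card_extend_le {A B : Type*} [Fintype A] [Fintype B] (T : Finset A) (g : T → B) :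
    Nat.card {φ : A ↪ B // ∀ a : T, φ a = g a} ≤
      (Fintype.card B - T.card).descFactorial (Fintype.card A - T.card) := by
  classical
  rcases isEmpty_or_nonempty {φ : A ↪ B // ∀ a : T, φ a = g a} with h | ⟨⟨φ₀, hφ₀⟩⟩
  · rw [Nat.card_of_isEmpty]; exact Nat.zero_le _
  set T' := T.map φ₀
  let Φ : {φ : A ↪ B // ∀ a : T, φ a = g a} → ({a // a ∉ T} ↪ {b // b ∉ T'}) := fun φ =>
    ⟨fun a => ⟨φ.1 a.1, fun hb => by
        obtain ⟨t, ht, he⟩ := Finset.mem_map.1 hb
        refine a.2 ?_
        have h2 : φ.1 t = φ.1 a.1 := by rw [← he]; exact (φ.2 ⟨t, ht⟩).trans (hφ₀ ⟨t, ht⟩).symm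
        rwa [← φ.1.injective h2]⟩,
      fun a b hab => Subtype.ext (φ.1.injective (congrArg Subtype.val hab))⟩
  have hΦ : Function.Injective Φ := by
    intro φ ψ h
    refine Subtype.ext (Function.Embedding.ext fun a => ?_)
    by_cases ha : a ∈ T
    · exact (φ.2 ⟨a, ha⟩).trans (ψ.2 ⟨a, ha⟩).symm
    · exact congrArg Subtype.val (DFunLike.congr_fun h ⟨a, ha⟩)
  refine (Nat.card_le_card_of_injective Φ hΦ).trans_eq ?_
  rw [Nat.card_eq_fintype_card, Fintype.card_embedding_eq, Fintype.card_subtype_compl,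
    Fintype.card_subtype_compl, Fintype.card_coe, Fintype.card_coe, Finset.card_map]

lemma card_le_mul_of_fibres {X Y : Type*} [Finite X] [Finite Y] (f : X → Y) (m : ℕ)
    (h : ∀ y, Nat.card {x // f x = y} ≤ m) : Nat.card X ≤ Nat.card Y * m := by
  have := Fintype.ofFinite Y
  rw [← Nat.card_congr (Equiv.sigmaFiberEquiv f), Nat.card_sigma, Nat.card_eq_fintype_card]
  calc ∑ y, Nat.card {x // f x = y} ≤ ∑ _y : Y, m := Finset.sum_le_sum fun y _ => h y
    _ = Fintype.card Y * m := by simp

lemma pow_le_exp_mul_descFactorial {n k : ℕ} (h : k ≤ n) :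
    (n : ℝ) ^ k ≤ Real.exp k * (n.descFactorial k : ℝ) := by
  have h1 : n ^ k * k.factorial ≤ n.descFactorial k * k ^ k := by
    rw [← Nat.descFactorial_self k, Nat.descFactorial_eq_prod_range,
      Nat.descFactorial_eq_prod_range, Finset.pow_eq_prod_const n k, Finset.pow_eq_prod_const k k,
      ← Finset.prod_mul_distrib, ← Finset.prod_mul_distrib]
    refine Finset.prod_le_prod' fun i _ => ?_
    rw [Nat.mul_sub, Nat.sub_mul]
    exact Nat.sub_le_sub_left (by rw [mul_comm n i]; exact Nat.mul_le_mul_left i h) _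
  have h2 : (k : ℝ) ^ k / k.factorial ≤ Real.exp k :=
    Real.pow_div_factorial_le_exp _ (Nat.cast_nonneg k) k
  rw [div_le_iff₀ (by positivity)] at h2
  have h3 : (n : ℝ) ^ k * k.factorial ≤ (n.descFactorial k : ℝ) * (k : ℝ) ^ k := by
    exact_mod_cast h1
  have h4 : (n : ℝ) ^ k * k.factorial ≤ (Real.exp k * n.descFactorial k) * k.factorial :=
    h3.trans ((mul_le_mul_of_nonneg_left h2 (Nat.cast_nonneg _)).trans_eq (by ring))
  exact le_of_mul_le_mul_right h4 (by positivity)

/-! ### Copies -/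

lemma lcc_eq {V W : Type*} [Fintype V] [Fintype W] (G : SimpleGraph V) (F : SimpleGraph W) :
    G.labelledCopyCount F = Nat.card (Copy F G) := by
  classical
  rw [labelledCopyCount, Nat.card_eq_fintype_card]

/-- Edge count. -/
noncomputable def ecard {W : Type*} (F : SimpleGraph W) : ℕ := F.edgeSet.ncard

lemma card_copy_eq_copyCount_mul {V W : Type*} [Fintype V] [Fintype W] (G : SimpleGraph V)
    (F : SimpleGraph W) :
    Nat.card (Copy F G) = G.copyCount F * Nat.card (F ≃g F) := by
  classical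
  rw [copyCount_eq_card_image_copyToSubgraph, Nat.card_eq_fintype_card, ← Finset.card_univ,
    Finset.card_eq_sum_card_image (Copy.toSubgraph (A := F) (B := G)) Finset.univ, ← smul_eq_mul,
    ← Finset.sum_const]
  refine Finset.sum_congr rfl fun G' hG' => ?_
  obtain ⟨f₀, -, rfl⟩ := Finset.mem_image.1 hG'
  have := Fintype.ofInjective (fun g : F ≃g F => (g : W → W)) DFunLike.coe_injective
  rw [Nat.card_eq_fintype_card, ← Finset.card_univ]
  symm
  refine Finset.card_bij (fun g _ => f₀.comp g.toCopy) (fun g _ => ?_) (fun g _ g' _ h => ?_)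
    (fun f hf => ?_)
  · rw [Finset.mem_filter]
    refine ⟨Finset.mem_univ _, ?_⟩
    refine Subgraph.ext ?_ ?_
    · ext x
      simp only [Copy.toSubgraph, Subgraph.map_verts, Subgraph.verts_top, Set.image_univ,
        Set.mem_range]
      exact ⟨fun ⟨a, ha⟩ => ⟨g a, ha⟩,
        fun ⟨a, ha⟩ => ⟨g.symm a, (congrArg f₀ (g.apply_symm_apply a)).trans ha⟩⟩
    · ext x y
      simp only [Copy.toSubgraph, Subgraph.map_adj, Relation.map_apply, Subgraph.top_adj]
      constructor
      · rintro ⟨a, b, hab, rfl, rfl⟩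
        exact ⟨g a, g b, g.map_rel_iff.2 hab, rfl, rfl⟩
      · rintro ⟨a, b, hab, rfl, rfl⟩
        exact ⟨g.symm a, g.symm b, g.symm.map_rel_iff.2 hab,
          congrArg f₀ (g.apply_symm_apply a), congrArg f₀ (g.apply_symm_apply b)⟩
  · refine DFunLike.ext _ _ fun a => f₀.injective ?_
    exact DFunLike.congr_fun h a
  · rw [Finset.mem_filter] at hf
    have hverts := congrArg Subgraph.verts hf.2
    simp only [Copy.toSubgraph, Subgraph.map_verts, Subgraph.verts_top, Set.image_univ] at hverts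
    have hex : ∀ a, ∃ b, f₀ b = f a := fun a => by
      have : f a ∈ Set.range f := ⟨a, rfl⟩
      exact (Set.ext_iff.1 hverts (f a)).1 this
    choose s hs using hex
    have hsinj : Function.Injective s := fun a b h => f.injective (show f a = f b by rw [← hs, ← hs, h])
    have hadj : ∀ a b, F.Adj (s a) (s b) ↔ F.Adj a b := by
      intro a b
      have h1 := congrArg (fun S : G.Subgraph => S.Adj (f a) (f b)) hf.2
      simp only [Copy.toSubgraph, Subgraph.map_adj, Relation.map_apply, Subgraph.top_adj,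
        eq_iff_iff] at h1
      constructor
      · intro h
        obtain ⟨a', b', hab, ha, hb⟩ := h1.2 ⟨s a, s b, h, hs a, hs b⟩
        rwa [f.injective ha, f.injective hb] at hab
      · intro h
        obtain ⟨a', b', hab, ha, hb⟩ := h1.1 ⟨a, b, h, rfl, rfl⟩
        rw [← hs a] at ha
        rw [← hs b] at hb
        rwa [f₀.injective ha, f₀.injective hb] at hab
    refine ⟨⟨Equiv.ofBijective s (Finite.injective_iff_bijective.1 hsinj), fun {a b} => hadj a b⟩,
      Finset.mem_univ _, ?_⟩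
    exact DFunLike.ext _ _ fun a => hs a

lemma card_aut_pos {W : Type*} [Fintype W] (F : SimpleGraph W) : 0 < Nat.card (F ≃g F) :=
  haveI : Finite (F ≃g F) := Finite.of_injective _ DFunLike.coe_injective
  haveI : Nonempty (F ≃g F) := ⟨RelIso.refl _⟩
  Nat.card_pos

lemma card_copy_le {V W : Type*} [Fintype V] [Fintype W] (G : SimpleGraph V) (F : SimpleGraph W) :
    Nat.card (Copy F G) ≤ (Fintype.card V).descFactorial (Fintype.card W) := by
  classical
  rw [← Fintype.card_embedding_eq, ← Nat.card_eq_fintype_card]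
  refine Nat.card_le_card_of_injective Copy.toEmbedding fun f g h => DFunLike.ext _ _ fun a => ?_
  exact DFunLike.congr_fun h a

/-- The factor by which `p_E` is multiplied to dominate every labelled count. -/
noncomputable def Mfac (C : ℝ) (n : ℕ) (q : ℝ) : ℝ :=
  Real.exp 2 * (C * Real.log n ^ expo n q * q)

lemma card_supp_le {W : Type*} [Fintype W] (F : SimpleGraph W) [DecidableRel F.Adj]
    (h : ∀ a, ∃ b, F.Adj a b) : Fintype.card W ≤ 2 * F.edgeFinset.card := by
  rw [← F.sum_degrees_eq_twice_card_edges, ← Finset.card_univ, Finset.card_eq_sum_ones]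
  refine Finset.sum_le_sum fun a _ => ?_
  obtain ⟨b, hb⟩ := h a
  exact (F.degree_pos_iff_exists_adj a).2 ⟨b, hb⟩

/-- The labelled bound for a graph on any finite type. -/
lemma copies_le_no_isolated {C : ℝ} (hC : 1 ≤ C)
    (hLB : ∀ (n : ℕ) (q : ℝ), 2 ≤ n → 0 < q → q ≤ 1 → ∀ (v : ℕ) (H : SimpleGraph (Fin v)), v ≤ n →
      Hyp n q H → ∀ (k : ℕ) (F : SimpleGraph (Fin k)) [DecidableRel F.Adj],
        (∀ a, ∃ b, F.Adj a b) → (H.labelledCopyCount F : ℝ) ≤
          (n : ℝ) ^ k * (C * Real.log n ^ expo n q * q) ^ F.edgeFinset.card)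
    {n : ℕ} {q : ℝ} (hn : 2 ≤ n) (hq : 0 < q) (hq1 : q ≤ 1) {v : ℕ} {H : SimpleGraph (Fin v)}
    (hv : v ≤ n) (hH : Hyp n q H) {W : Type*} [Fintype W] (F : SimpleGraph W)
    (hF : ∀ a, ∃ b, F.Adj a b) :
    (Nat.card (Copy F H) : ℝ) ≤ (n.descFactorial (Fintype.card W) : ℝ) * Mfac C n q ^ ecard F := by
  classical
  have hlog : 0 < Real.log n := Real.log_pos (by exact_mod_cast hn)
  have hM0 : 0 ≤ C * Real.log n ^ expo n q * q := by positivity
  rcases le_or_gt (Fintype.card W) v with hk | hk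
  swap
  · have : Nat.card (Copy F H) = 0 := by
      have := card_copy_le H F
      rw [Fintype.card_fin, Nat.descFactorial_of_lt hk] at this
      omega
    rw [this]
    simp only [Mfac, Nat.cast_zero]
    positivity
  set e := Fintype.equivFin W
  set F' : SimpleGraph (Fin (Fintype.card W)) := F.map e.toEmbedding with hF'def
  have hiso : F ≃g F' := SimpleGraph.Iso.map e F
  have hF' : ∀ a, ∃ b, F'.Adj a b := fun a => by
    obtain ⟨b, hb⟩ := hF (hiso.symm a)
    exact ⟨hiso b, by simpa using hiso.map_rel_iff.2 hb⟩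
  have h := hLB n q hn hq hq1 v H hv hH _ F' hF'
  have hcard : F'.edgeFinset.card = ecard F := by
    rw [ecard, ← Nat.card_coe_set_eq, Nat.card_congr hiso.mapEdgeSet, Nat.card_eq_fintype_card,
      SimpleGraph.edgeFinset_card]
  have hcopy : Nat.card (Copy F H) = H.labelledCopyCount F' := by
    rw [lcc_eq]
    refine Nat.card_congr ⟨fun f => f.comp hiso.symm.toCopy, fun f => f.comp hiso.toCopy,
      fun f => ?_, fun f => ?_⟩
    · exact DFunLike.ext _ _ fun a => congrArg f (hiso.symm_apply_apply a)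
    · exact DFunLike.ext _ _ fun a => congrArg f (hiso.apply_symm_apply a)
  have hk2 : Fintype.card W ≤ 2 * ecard F := by
    rw [← hcard]
    simpa using card_supp_le F' hF'
  rw [hcard] at h
  rw [hcopy, Mfac, mul_pow]
  refine h.trans ?_
  calc (n : ℝ) ^ Fintype.card W * (C * Real.log n ^ expo n q * q) ^ ecard F
      ≤ (Real.exp (Fintype.card W : ℝ) * n.descFactorial (Fintype.card W)) *
          (C * Real.log n ^ expo n q * q) ^ ecard F :=
        mul_le_mul_of_nonneg_right (pow_le_exp_mul_descFactorial (hk.trans hv)) (by positivity)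
    _ ≤ (Real.exp 2 ^ ecard F * n.descFactorial (Fintype.card W)) *
          (C * Real.log n ^ expo n q * q) ^ ecard F := by
        gcongr
        rw [← Real.exp_nat_mul, Real.exp_le_exp]
        calc (Fintype.card W : ℝ) ≤ ((2 * ecard F : ℕ) : ℝ) := Nat.cast_le.2 hk2
          _ = (ecard F : ℝ) * 2 := by push_cast; ring
    _ = _ := by ring

/-- The labelled bound for an arbitrary graph (isolated vertices allowed). -/
lemma copies_le {C : ℝ} (hC : 1 ≤ C)
    (hLB : ∀ (n : ℕ) (q : ℝ), 2 ≤ n → 0 < q → q ≤ 1 → ∀ (v : ℕ) (H : SimpleGraph (Fin v)), v ≤ n →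
      Hyp n q H → ∀ (k : ℕ) (F : SimpleGraph (Fin k)) [DecidableRel F.Adj],
        (∀ a, ∃ b, F.Adj a b) → (H.labelledCopyCount F : ℝ) ≤
          (n : ℝ) ^ k * (C * Real.log n ^ expo n q * q) ^ F.edgeFinset.card)
    {n : ℕ} {q : ℝ} (hn : 2 ≤ n) (hq : 0 < q) (hq1 : q ≤ 1) {v : ℕ} {H : SimpleGraph (Fin v)}
    (hv : v ≤ n) (hH : Hyp n q H) {W : Type*} [Fintype W] (F : SimpleGraph W) :
    (Nat.card (Copy F H) : ℝ) ≤ (n.descFactorial (Fintype.card W) : ℝ) * Mfac C n q ^ ecard F := by
  classical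
  have hlog : 0 < Real.log n := Real.log_pos (by exact_mod_cast hn)
  have hM0 : 0 ≤ Mfac C n q := by unfold Mfac; positivity
  set T : Finset W := Finset.univ.filter fun a => ∃ b, F.Adj a b with hT
  set F' : SimpleGraph T := F.comap Subtype.val with hF'def
  have hF' : ∀ a, ∃ b, F'.Adj a b := by
    rintro ⟨a, ha⟩
    obtain ⟨b, hb⟩ := (Finset.mem_filter.1 ha).2
    exact ⟨⟨b, Finset.mem_filter.2 ⟨Finset.mem_univ _, a, hb.symm⟩⟩, hb⟩
  have hcard : ecard F' = ecard F := by
    have hinj : Function.Injective (Subtype.val : T → W) := Subtype.val_injective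
    rw [ecard, ecard, ← Set.ncard_image_of_injective F'.edgeSet (Sym2.map.injective hinj)]
    congr 1
    ext z
    induction z using Sym2.ind with
    | _ a b =>
      constructor
      · rintro ⟨z', hz', he⟩
        induction z' using Sym2.ind with
        | _ a' b' =>
          rw [← he]
          exact hz'
      · intro h
        exact ⟨s(⟨a, Finset.mem_filter.2 ⟨Finset.mem_univ _, b, h⟩⟩,
          ⟨b, Finset.mem_filter.2 ⟨Finset.mem_univ _, a, (h : F.Adj a b).symm⟩⟩), h, rfl⟩
  let res : Copy F H → Copy F' H := fun f =>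
    ⟨⟨fun a => f a.1, fun h => f.toHom.map_adj h⟩, fun a b h => Subtype.ext (f.injective h)⟩
  have h1 := card_le_mul_of_fibres res
    ((n - T.card).descFactorial (Fintype.card W - T.card)) fun g => by
      refine le_trans ?_ ((card_extend_le T (fun a => g a)).trans ?_)
      · refine Nat.card_le_card_of_injective
          (fun f => ⟨f.1.toEmbedding, fun a => DFunLike.congr_fun f.2 a⟩) fun f f' h => ?_
        refine Subtype.ext (DFunLike.ext _ _ fun a => ?_)
        exact DFunLike.congr_fun (congrArg Subtype.val h) a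
      · rw [Fintype.card_fin]
        exact Nat.descFactorial_le _ (Nat.sub_le_sub_right hv _)
  have h2 := copies_le_no_isolated hC hLB hn hq hq1 hv hH F' hF'
  rw [Fintype.card_coe, hcard] at h2
  have h3 : T.card ≤ Fintype.card W := Finset.card_le_univ T
  calc (Nat.card (Copy F H) : ℝ)
      ≤ (Nat.card (Copy F' H) : ℝ) *
          ((n - T.card).descFactorial (Fintype.card W - T.card) : ℝ) := by
        exact_mod_cast h1
    _ ≤ ((n.descFactorial T.card : ℝ) * Mfac C n q ^ ecard F) *
          ((n - T.card).descFactorial (Fintype.card W - T.card) : ℝ) :=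
        mul_le_mul_of_nonneg_right h2 (Nat.cast_nonneg _)
    _ = _ := by
        rw [← Nat.descFactorial_mul_descFactorial h3]
        push_cast
        ring

/-! ### The binomial random graph as a random set of edges -/

/-- Possible edges. -/
abbrev Slot (n : ℕ) : Type := {e : Sym2 (Fin n) // ¬ e.IsDiag}

/-- The graph with a given set of edges. -/
def graphOf {n : ℕ} (S : Finset (Slot n)) : SimpleGraph (Fin n) :=
  SimpleGraph.fromEdgeSet (Subtype.val '' (S : Set (Slot n)))

lemma edgeSet_graphOf {n : ℕ} (S : Finset (Slot n)) :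
    (graphOf S).edgeSet = Subtype.val '' (S : Set (Slot n)) := by
  rw [graphOf, edgeSet_fromEdgeSet, sdiff_eq_left]
  rw [Set.disjoint_left]
  rintro e ⟨x, -, rfl⟩ hx
  exact x.2 hx

lemma graphOf_injective {n : ℕ} : Function.Injective (graphOf (n := n)) := by
  intro S T h
  have := congrArg SimpleGraph.edgeSet h
  rw [edgeSet_graphOf, edgeSet_graphOf] at this
  exact Finset.coe_injective (Subtype.val_injective.image_injective this)

lemma graphOf_surjective {n : ℕ} : Function.Surjective (graphOf (n := n)) := by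
  classical
  intro G
  refine ⟨Finset.univ.filter fun e : Slot n => e.1 ∈ G.edgeSet, edgeSet_inj.1 ?_⟩
  rw [edgeSet_graphOf]
  ext e
  constructor
  · rintro ⟨x, hx, rfl⟩
    exact (Finset.mem_filter.1 hx).2
  · intro he
    exact ⟨⟨e, G.not_isDiag_of_mem_edgeSet he⟩, Finset.mem_filter.2 ⟨Finset.mem_univ _, he⟩, rfl⟩

instance instMeasurableSingletonClassGraph {n : ℕ} :
    MeasurableSingletonClass (SimpleGraph (Fin n)) :=
  ⟨fun G => by
    rw [← edgeSet_injective.preimage_image {G}, Set.image_singleton]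
    exact measurable_edgeSet (Set.toFinite {G.edgeSet}).measurableSet⟩

lemma real_singleton {n : ℕ} (p : I) (S : Finset (Slot n)) :
    (binomialRandom (Fin n) p).real {graphOf S} = FKNP.wt (p : ℝ) Finset.univ S := by
  classical
  rw [Measure.real, binomialRandom_singleton, edgeSet_graphOf,
    Set.ncard_image_of_injective _ Subtype.val_injective, Set.ncard_coe_finset, FKNP.wt,
    Finset.card_univ, Sym2.card_subtype_not_diag, Nat.card_eq_fintype_card]
  simp

lemma integral_eq_Ex {n : ℕ} (p : I) (f : SimpleGraph (Fin n) → ℝ) :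
    ∫ G, f G ∂(binomialRandom (Fin n) p) = FKNP.Ex (p : ℝ) Finset.univ (fun S => f (graphOf S)) := by
  classical
  rw [integral_fintype (f := f) Integrable.of_finite, FKNP.Ex, Finset.powerset_univ,
    ← Fintype.sum_equiv (Equiv.ofBijective graphOf
        (show Function.Bijective (graphOf (n := n)) from ⟨graphOf_injective, graphOf_surjective⟩))
      (fun S => FKNP.wt (p : ℝ) Finset.univ S * f (graphOf S))
      (fun G => (binomialRandom (Fin n) p).real {G} • f G)]
  intro S
  show FKNP.wt (p : ℝ) Finset.univ S * f (graphOf S) =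
    (binomialRandom (Fin n) p).real {graphOf S} • f (graphOf S)
  rw [real_singleton, smul_eq_mul]

open Classical in
lemma Ex_subset {α : Type*} (p : ℝ) : ∀ (s A : Finset α), A ⊆ s →
    FKNP.Ex p s (fun S => if A ⊆ S then 1 else 0) = p ^ A.card := by
  intro s
  induction s using Finset.induction_on with
  | empty =>
    intro A hA
    rw [Finset.subset_empty.1 hA]
    simp [FKNP.Ex, FKNP.wt]
  | @insert a s ha ih =>
    intro A hA
    rw [FKNP.Ex_insert p ha]
    by_cases haA : a ∈ A
    · have h1 : ∀ S, (A ⊆ insert a S ↔ A.erase a ⊆ S) := fun S => Finset.subset_insert_iff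
      have h2 : FKNP.Ex p s (fun S => if A ⊆ S then (1 : ℝ) else 0) = 0 := by
        rw [FKNP.Ex_congr (g := fun _ => 0) (fun S hS => if_neg fun h => ha (hS (h haA))),
          FKNP.Ex_const]
      simp only [h1, h2, mul_zero, add_zero]
      rw [ih _ (Finset.subset_insert_iff.1 hA),
        ← Finset.card_erase_add_one haA, pow_succ, mul_comm]
    · have h1 : ∀ S, (A ⊆ insert a S ↔ A ⊆ S) := fun S => Finset.subset_insert_iff_of_notMem haA
      simp only [h1]
      rw [ih _ ((Finset.subset_insert_iff_of_notMem haA).1 hA)]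
      ring

open Classical in
/-- The edge slots used by an embedding of `F`. -/
noncomputable def slotImage {W : Type*} {n : ℕ} (F : SimpleGraph W) (φ : W ↪ Fin n) :
    Finset (Slot n) :=
  Finset.univ.filter fun e => e.1 ∈ Sym2.map φ '' F.edgeSet

lemma card_slotImage {W : Type*} {n : ℕ} (F : SimpleGraph W) (φ : W ↪ Fin n) :
    (slotImage F φ).card = ecard F := by
  classical
  rw [ecard, ← Set.ncard_image_of_injective F.edgeSet (Sym2.map.injective φ.injective),
    ← Set.ncard_coe_finset, ← Set.ncard_image_of_injective _ Subtype.val_injective]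
  congr 1
  ext z
  simp only [slotImage, Finset.coe_filter, Finset.mem_univ, true_and, Set.mem_image]
  constructor
  · rintro ⟨x, hx, rfl⟩
    exact hx
  · rintro ⟨w, hw, rfl⟩
    refine ⟨⟨Sym2.map φ w, ?_⟩, ⟨w, hw, rfl⟩, rfl⟩
    rw [Sym2.isDiag_map φ.injective]
    exact F.not_isDiag_of_mem_edgeSet hw

lemma slotImage_subset_iff {W : Type*} {n : ℕ} (F : SimpleGraph W) (φ : W ↪ Fin n)
    (S : Finset (Slot n)) :
    slotImage F φ ⊆ S ↔ ∀ a b, F.Adj a b → (graphOf S).Adj (φ a) (φ b) := by
  classical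
  constructor
  · intro h a b hab
    rw [← mem_edgeSet, edgeSet_graphOf]
    have hd : ¬ (s(φ a, φ b) : Sym2 (Fin n)).IsDiag :=
      fun h' => hab.ne (φ.injective (Sym2.mk_isDiag_iff.1 h'))
    exact ⟨⟨_, hd⟩, h (Finset.mem_filter.2 ⟨Finset.mem_univ _, s(a, b), hab, rfl⟩), rfl⟩
  · intro h e he
    obtain ⟨z, hz, hze⟩ := (Finset.mem_filter.1 he).2
    induction z using Sym2.ind with
    | _ a b =>
      have := h a b hz
      rw [← mem_edgeSet, edgeSet_graphOf] at this
      obtain ⟨x, hx, hxe⟩ := this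
      rwa [← Subtype.ext (hxe.trans hze) (a1 := x) (a2 := e)]

lemma card_copy_graphOf {W : Type*} [Fintype W] {n : ℕ} (F : SimpleGraph W) (S : Finset (Slot n)) :
    Nat.card (Copy F (graphOf S)) = Nat.card {φ : W ↪ Fin n // slotImage F φ ⊆ S} :=
  Nat.card_congr
    { toFun := fun f => ⟨f.toEmbedding,
        (slotImage_subset_iff F _ S).2 fun _ _ h => f.toHom.map_adj h⟩
      invFun := fun φ => ⟨⟨φ.1, fun {a b} h => (slotImage_subset_iff F _ S).1 φ.2 a b h⟩,
        φ.1.injective⟩
      left_inv := fun _ => rfl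
      right_inv := fun _ => rfl }

lemma aut_mul_expCopies {W : Type*} [Fintype W] (n : ℕ) (F : SimpleGraph W) (p : I) :
    (Nat.card (F ≃g F) : ℝ) * expCopies n F p =
      (n.descFactorial (Fintype.card W) : ℝ) * (p : ℝ) ^ ecard F := by
  classical
  rw [expCopies, ← integral_const_mul, integral_eq_Ex]
  have h : ∀ S : Finset (Slot n), (Nat.card (F ≃g F) : ℝ) * ((graphOf S).copyCount F : ℝ) =
      ∑ φ : W ↪ Fin n, if slotImage F φ ⊆ S then (1 : ℝ) else 0 := by
    intro S
    rw [mul_comm, ← Nat.cast_mul, ← card_copy_eq_copyCount_mul, card_copy_graphOf,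
      Finset.sum_boole, Nat.card_eq_fintype_card, Fintype.card_subtype]
  simp only [h, FKNP.Ex, Finset.mul_sum]
  rw [Finset.sum_comm]
  have h2 : ∀ φ : W ↪ Fin n, (∑ S ∈ (Finset.univ : Finset (Slot n)).powerset,
      FKNP.wt (p : ℝ) Finset.univ S * if slotImage F φ ⊆ S then (1 : ℝ) else 0) =
        (p : ℝ) ^ ecard F := by
    intro φ
    rw [← card_slotImage F φ]
    have := Ex_subset (p : ℝ) Finset.univ (slotImage F φ) (Finset.subset_univ _)
    convert this using 4
    rw [FKNP.Ex]
    congr!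
  simp only [h2, Finset.sum_const, Finset.card_univ, Fintype.card_embedding_eq, Fintype.card_fin,
    nsmul_eq_mul]

/-! ### The hypothesis from the expectation threshold -/

lemma ecard_coe {V : Type*} {G : SimpleGraph V} (J : G.Subgraph) : ecard J.coe = J.edgeSet.ncard := by
  rw [ecard, ← J.image_coe_edgeSet_coe,
    Set.ncard_image_of_injective _ (Sym2.map.injective Subtype.val_injective)]

lemma hyp_of_expCopies {v n : ℕ} {H : SimpleGraph (Fin v)} {q : I}
    (hq : ∀ F : H.Subgraph, 1 / 2 ≤ expCopies n F.coe q) : Hyp n (q : ℝ) H := by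
  classical
  intro S E hE
  let J : H.Subgraph :=
    { verts := (S : Set (Fin v))
      Adj := fun a b => s(a, b) ∈ E
      adj_sub := fun h => (hE _ h).1
      edge_vert := fun {a b} h => (hE _ h).2 a (Sym2.mem_mk_left a b)
      symm := ⟨fun a b h => by rw [Sym2.eq_swap]; exact h⟩ }
  have hJE : J.edgeSet = (E : Set (Sym2 (Fin v))) := by
    ext z
    induction z using Sym2.ind with
    | _ a b => rfl
  have haut : autCount S E ≤ Nat.card (J.coe ≃g J.coe) := by
    have hmaps : ∀ g : {g : Equiv.Perm (Fin v) //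
        (∀ x ∉ S, g x = x) ∧ E.image (Sym2.map g) = E}, ∀ x, x ∈ S ↔ g.1 x ∈ S := by
      intro g x
      constructor
      · intro hx
        by_contra h
        exact h (by rw [g.1.injective (g.2.1 _ h)]; exact hx)
      · intro hx
        by_contra h
        rw [g.2.1 _ h] at hx
        exact h hx
    let Φ : {g : Equiv.Perm (Fin v) // (∀ x ∉ S, g x = x) ∧ E.image (Sym2.map g) = E} →
        (J.coe ≃g J.coe) := fun g =>
      { toEquiv := g.1.subtypeEquiv (hmaps g)
        map_rel_iff' := by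
          rintro ⟨a, ha⟩ ⟨b, hb⟩
          show s(g.1 a, g.1 b) ∈ E ↔ s(a, b) ∈ E
          constructor
          · intro h
            obtain ⟨z, hz, he⟩ := Finset.mem_image.1 ((Finset.ext_iff.1 g.2.2 _).2 h)
            rwa [← Sym2.map.injective g.1.injective (he.trans (Sym2.map_mk _ _ _).symm)]
          · intro h
            exact (Finset.ext_iff.1 g.2.2 _).1 (Finset.mem_image.2 ⟨_, h, Sym2.map_mk _ _ _⟩) }
    have : Finite (J.coe ≃g J.coe) := Finite.of_injective _ DFunLike.coe_injective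
    refine Nat.card_le_card_of_injective Φ fun g g' h => Subtype.ext (Equiv.ext fun x => ?_)
    by_cases hx : x ∈ S
    · exact congrArg Subtype.val (DFunLike.congr_fun h ⟨x, hx⟩)
    · rw [g.2.1 x hx, g'.2.1 x hx]
  have h1 := aut_mul_expCopies n J.coe q
  have hcard : Fintype.card J.verts = S.card := by
    show Fintype.card (S : Set (Fin v)) = S.card
    simp
  rw [hcard, ecard_coe, hJE, Set.ncard_coe_finset] at h1
  have h2 := hq J
  have h3 : (n.descFactorial S.card : ℝ) * (q : ℝ) ^ E.card ≤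
      (n : ℝ) ^ S.card * (q : ℝ) ^ E.card :=
    mul_le_mul_of_nonneg_right (by exact_mod_cast Nat.descFactorial_le_pow n S.card)
      (pow_nonneg q.2.1 _)
  have h4 : (autCount S E : ℝ) * (1 / 2) ≤ (Nat.card (J.coe ≃g J.coe) : ℝ) * expCopies n J.coe q :=
    mul_le_mul (by exact_mod_cast haut) h2 (by norm_num) (Nat.cast_nonneg _)
  linarith

/-! ### The two thresholds -/

lemma log_rpow_le {n : ℕ} (hn : 2 ≤ n) {a b : ℝ} (ha : 0 ≤ a) (hab : a ≤ b) (hb : b ≤ 1) :
    Real.log n ^ a ≤ 2 * Real.log n ^ b := by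
  have hl2 : (1 : ℝ) / 2 ≤ Real.log n := by
    have h2 : Real.log 2 ≤ Real.log n := Real.log_le_log (by norm_num) (by exact_mod_cast hn)
    linarith [Real.log_two_gt_d9]
  have hpos : 0 < Real.log n := by linarith
  rcases le_or_gt 1 (Real.log n) with h | h
  · linarith [Real.rpow_le_rpow_of_exponent_le h hab, Real.rpow_nonneg hpos.le b]
  · have h1 : Real.log n ^ a ≤ 1 := Real.rpow_le_one hpos.le h.le ha
    have h2 : Real.log n ^ (1 : ℝ) ≤ Real.log n ^ b :=
      Real.rpow_le_rpow_of_exponent_ge hpos h.le hb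
    rw [Real.rpow_one] at h2
    linarith

lemma expo_mem {n : ℕ} (hn : 2 ≤ n) {p : ℝ} (hp : 0 < p) (hp1 : p ≤ 1) :
    0 ≤ expo n p ∧ expo n p ≤ 1 :=
  ⟨le_min zero_le_one (div_nonneg (Real.log_nonneg (one_le_one_div hp hp1))
    (Real.log_nonneg (by exact_mod_cast le_trans (by norm_num) hn))), min_le_left _ _⟩

lemma expo_antitone {n : ℕ} (hn : 2 ≤ n) {p q : ℝ} (hp : 0 < p) (hpq : p ≤ q) :
    expo n q ≤ expo n p := by
  refine min_le_min le_rfl (div_le_div_of_nonneg_right ?_ ?_)
  · exact Real.log_le_log (by have := hp.trans_le hpq; positivity) (one_div_le_one_div_of_le hp hpq)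
  · exact Real.log_nonneg (by exact_mod_cast le_trans (by norm_num) hn)

/-- The spread property of the family of embeddings. -/
lemma spread {C : ℝ} (hC : 1 ≤ C)
    (hLB : ∀ (n : ℕ) (q : ℝ), 2 ≤ n → 0 < q → q ≤ 1 → ∀ (v : ℕ) (H : SimpleGraph (Fin v)), v ≤ n →
      Hyp n q H → ∀ (k : ℕ) (F : SimpleGraph (Fin k)) [DecidableRel F.Adj],
        (∀ a, ∃ b, F.Adj a b) → (H.labelledCopyCount F : ℝ) ≤
          (n : ℝ) ^ k * (C * Real.log n ^ expo n q * q) ^ F.edgeFinset.card)
    {n : ℕ} {q : ℝ} (hn : 2 ≤ n) (hq : 0 < q) (hq1 : q ≤ 1) {v : ℕ} {H : SimpleGraph (Fin v)}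
    (hv : v ≤ n) (hH : Hyp n q H) (U : Finset (Slot n)) :
    ((Finset.univ.filter fun φ : Fin v ↪ Fin n => U ⊆ slotImage H φ).card : ℝ) *
        (1 / Mfac C n q) ^ U.card ≤ (Fintype.card (Fin v ↪ Fin n) : ℝ) := by
  classical
  have hlog : 0 < Real.log n := Real.log_pos (by exact_mod_cast hn)
  have hM : 0 < Mfac C n q := by unfold Mfac; positivity
  set T : Finset (Fin n) := Finset.univ.filter fun x => ∃ e ∈ U, x ∈ e.1 with hT
  set FU : SimpleGraph T := (graphOf U).comap Subtype.val with hFU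
  set X := {φ : Fin v ↪ Fin n // U ⊆ slotImage H φ}
  have hpre : ∀ φ : X, ∀ x : T, ∃ a, φ.1 a = x.1 := by
    intro φ x
    obtain ⟨e, he, hxe⟩ := (Finset.mem_filter.1 x.2).2
    obtain ⟨z, hz, hze⟩ := (Finset.mem_filter.1 (φ.2 he)).2
    rw [← hze, Sym2.mem_map] at hxe
    obtain ⟨a, -, ha⟩ := hxe
    exact ⟨a, ha⟩
  choose ψ hψ using hpre
  have hψadj : ∀ φ : X, ∀ x y : T, FU.Adj x y → H.Adj (ψ φ x) (ψ φ y) := by
    intro φ x y h
    have h' : s(x.1, y.1) ∈ (graphOf U).edgeSet := h
    rw [edgeSet_graphOf] at h'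
    obtain ⟨e, he, hee⟩ := h'
    obtain ⟨z, hz, hze⟩ := (Finset.mem_filter.1 (φ.2 he)).2
    rw [hee, ← hψ φ x, ← hψ φ y, ← Sym2.map_mk] at hze
    rwa [Sym2.map.injective φ.1.injective hze] at hz
  let toCopy : X → Copy FU H := fun φ =>
    ⟨⟨ψ φ, fun {x y} h => hψadj φ x y h⟩, fun x y h => Subtype.ext (by
      rw [← hψ φ x, ← hψ φ y]
      exact congrArg _ h)⟩
  have h1 := card_le_mul_of_fibres toCopy ((n - T.card).descFactorial (v - T.card)) fun g => by
    set R : Finset (Fin v) := Finset.univ.map g.toEmbedding with hR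
    have hRc : R.card = T.card := by simp [hR]
    have hinv : ∀ a : R, ∃ x : T, g x = a.1 := fun a => by
      obtain ⟨x, -, hx⟩ := Finset.mem_map.1 a.2
      exact ⟨x, hx⟩
    choose inv hinv' using hinv
    refine le_trans ?_ ((card_extend_le R (fun a => (inv a).1)).trans_eq ?_)
    · refine Nat.card_le_card_of_injective (fun φ => ⟨φ.1.1, fun a => ?_⟩) fun φ φ' h => ?_
      · rw [← hinv' a, ← hψ φ.1 (inv a)]
        exact congrArg φ.1.1 (DFunLike.congr_fun φ.2 (inv a)).symm
      · exact Subtype.ext (Subtype.ext (congrArg (fun z => z.1) h :))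
    · rw [Fintype.card_fin, Fintype.card_fin, hRc]
  have hcard : Nat.card X = (Finset.univ.filter fun φ : Fin v ↪ Fin n =>
      U ⊆ slotImage H φ).card := by
    rw [Nat.card_eq_fintype_card, Fintype.card_subtype]
  have hFUi : ∀ x : T, ∃ y, FU.Adj x y := by
    rintro ⟨x, hx⟩
    obtain ⟨e, he, hxe⟩ := (Finset.mem_filter.1 hx).2
    obtain ⟨y, hy⟩ := Sym2.mem_iff_exists.1 hxe
    refine ⟨⟨y, Finset.mem_filter.2 ⟨Finset.mem_univ _, e, he, ?_⟩⟩, ?_⟩
    · rw [hy]; exact Sym2.mem_mk_right _ _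
    · show s(x, y) ∈ (graphOf U).edgeSet
      rw [edgeSet_graphOf]
      exact ⟨e, he, hy⟩
  have hUe : ecard FU = U.card := by
    rw [ecard, ← Set.ncard_image_of_injective FU.edgeSet (Sym2.map.injective Subtype.val_injective),
      ← Set.ncard_coe_finset, ← Set.ncard_image_of_injective (U : Set (Slot n)) Subtype.val_injective,
      ← edgeSet_graphOf]
    congr 1
    ext z
    induction z using Sym2.ind with
    | _ a b =>
      constructor
      · rintro ⟨z', hz', he⟩
        induction z' using Sym2.ind with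
        | _ a' b' =>
          rw [← he]
          exact hz'
      · intro h
        have h' := h
        rw [edgeSet_graphOf] at h'
        obtain ⟨e, he, hee⟩ := h'
        exact ⟨s(⟨a, Finset.mem_filter.2 ⟨Finset.mem_univ _, e, he, by rw [hee]; exact Sym2.mem_mk_left a b⟩⟩,
          ⟨b, Finset.mem_filter.2 ⟨Finset.mem_univ _, e, he, by rw [hee]; exact Sym2.mem_mk_right a b⟩⟩), h, rfl⟩
  have h2 := copies_le_no_isolated hC hLB hn hq hq1 hv hH FU hFUi
  rw [Fintype.card_coe, hUe] at h2
  rw [← hcard, Fintype.card_embedding_eq, Fintype.card_fin, Fintype.card_fin, one_div_pow,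
    ← div_eq_mul_one_div, div_le_iff₀ (pow_pos hM _)]
  rcases le_or_gt T.card v with hk | hk
  · rw [← Nat.descFactorial_mul_descFactorial hk]
    calc (Nat.card X : ℝ) ≤ (Nat.card (Copy FU H) : ℝ) *
          ((n - T.card).descFactorial (v - T.card) : ℝ) := by exact_mod_cast h1
      _ ≤ ((n.descFactorial T.card : ℝ) * Mfac C n q ^ U.card) *
          ((n - T.card).descFactorial (v - T.card) : ℝ) :=
          mul_le_mul_of_nonneg_right h2 (Nat.cast_nonneg _)
      _ = _ := by push_cast; ring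
  · have h0 : Nat.card (Copy FU H) = 0 := by
      have := card_copy_le H FU
      rw [Fintype.card_fin, Fintype.card_coe, Nat.descFactorial_of_lt hk] at this
      omega
    rw [h0, zero_mul] at h1
    rw [Nat.le_zero.1 h1, Nat.cast_zero]
    positivity

lemma probContains_eq {v n : ℕ} (H : SimpleGraph (Fin v)) (p : I)
    [DecidablePred fun S : Finset (Slot n) => ∃ φ : Fin v ↪ Fin n, slotImage H φ ⊆ S] :
    probContains n H p =
      ∑ S ∈ (Finset.univ : Finset (Finset (Slot n))).filter
        (fun S => ∃ φ : Fin v ↪ Fin n, slotImage H φ ⊆ S),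
        (p : ℝ) ^ S.card * (1 - (p : ℝ)) ^ (Fintype.card (Slot n) - S.card) := by
  classical
  have hm : MeasurableSet {G : SimpleGraph (Fin n) | H ⊑ G} := (Set.toFinite _).measurableSet
  rw [probContains, ← integral_indicator_one hm, integral_eq_Ex, FKNP.Ex, Finset.powerset_univ,
    Finset.sum_filter]
  refine Finset.sum_congr rfl fun S _ => ?_
  have hiff : (graphOf S ∈ {G : SimpleGraph (Fin n) | H ⊑ G}) ↔
      ∃ φ : Fin v ↪ Fin n, slotImage H φ ⊆ S := by
    constructor
    · rintro ⟨f⟩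
      exact ⟨f.toEmbedding, (slotImage_subset_iff H _ S).2 fun a b h => f.toHom.map_adj h⟩
    · rintro ⟨φ, hφ⟩
      exact ⟨⟨⟨φ, fun {a b} h => (slotImage_subset_iff H φ S).1 hφ a b h⟩, φ.injective⟩⟩
  by_cases h : graphOf S ∈ {G : SimpleGraph (Fin n) | H ⊑ G}
  · rw [Set.indicator_of_mem h, if_pos (hiff.1 h)]
    simp [FKNP.wt]
  · rw [Set.indicator_of_notMem h, if_neg (fun h' => h (hiff.2 h'))]
    simp

lemma natLog_bound {n v : ℕ} (hn : 2 ≤ n) (hv : v ≤ n) (H : SimpleGraph (Fin v)) :
    (Nat.log 2 (ecard H) : ℝ) + 1 ≤ 5 * Real.log n := by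
  classical
  have hlog : Real.log 2 ≤ Real.log n := Real.log_le_log (by norm_num) (by exact_mod_cast hn)
  have he : ecard H ≤ n * n := by
    rw [ecard, ← Nat.card_coe_set_eq, Nat.card_eq_fintype_card, ← SimpleGraph.edgeFinset_card]
    refine (SimpleGraph.card_edgeFinset_le_card_choose_two).trans ?_
    rw [Fintype.card_fin]
    exact (Nat.choose_le_pow v 2).trans (by rw [pow_two]; exact Nat.mul_le_mul hv hv)
  have h1 : (Nat.log 2 (ecard H) : ℝ) ≤ Real.logb 2 ((n * n : ℕ) : ℝ) :=
    (Nat.cast_le.2 (Nat.log_mono_right he)).trans (by simpa using Real.natLog_le_logb (n * n) 2)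
  have hn0 : (0 : ℝ) < n := by exact_mod_cast lt_of_lt_of_le two_pos hn
  rw [Real.logb, Nat.cast_mul, Real.log_mul hn0.ne' hn0.ne', le_div_iff₀ (Real.log_pos one_lt_two)]
    at h1
  have h2 := Real.log_two_gt_d9
  have h3 : (0 : ℝ) ≤ Nat.log 2 (ecard H) := Nat.cast_nonneg _
  nlinarith

lemma one_le_expCopies_one {W : Type*} [Fintype W] {n : ℕ} (F : SimpleGraph W)
    (hW : Fintype.card W ≤ n) : (1 : ℝ) ≤ expCopies n F (1 : I) := by
  obtain ⟨φ⟩ : Nonempty (W ↪ Fin n) :=
    Function.Embedding.nonempty_of_card_le (by simpa using hW)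
  have h : F ⊑ (⊤ : SimpleGraph (Fin n)) :=
    ⟨⟨⟨φ, fun {a b} hab => φ.injective.ne hab.ne⟩, φ.injective⟩⟩
  rw [expCopies, binomialRandom_one, integral_dirac]
  exact_mod_cast copyCount_pos.2 h

lemma card_verts_le {v : ℕ} {H : SimpleGraph (Fin v)} (F : H.Subgraph) [Fintype F.verts] :
    Fintype.card F.verts ≤ v := by
  simpa using Fintype.card_subtype_le (fun x => x ∈ F.verts)

lemma pE_set_nonempty {n v : ℕ} (hv : v ≤ n) (H : SimpleGraph (Fin v)) :
    (1 : ℝ) ∈ {p : ℝ | ∃ hp : p ∈ I, ∀ F : H.Subgraph, 1 / 2 ≤ expCopies n F.coe ⟨p, hp⟩} := by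
  classical
  refine ⟨⟨zero_le_one, le_rfl⟩, fun F => ?_⟩
  exact le_trans (by norm_num : (1 : ℝ) / 2 ≤ 1)
    (one_le_expCopies_one F.coe ((card_verts_le F).trans hv))

lemma pE_lower {n v : ℕ} (hv : v ≤ n) {H : SimpleGraph (Fin v)} (hH : H ≠ ⊥) :
    ∃ δ : ℝ, 0 < δ ∧ ∀ p ∈ {p : ℝ | ∃ hp : p ∈ I,
      ∀ F : H.Subgraph, 1 / 2 ≤ expCopies n F.coe ⟨p, hp⟩}, δ ≤ p := by
  classical
  set k := Fintype.card (⊤ : H.Subgraph).verts
  have hkn : k ≤ n := (card_verts_le _).trans hv
  have hd : (0 : ℝ) < n.descFactorial k := by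
    exact_mod_cast Nat.pos_of_ne_zero (by rw [Ne, Nat.descFactorial_eq_zero_iff_lt]; omega)
  refine ⟨1 / (2 * n.descFactorial k), by positivity, ?_⟩
  rintro p ⟨hp, hF⟩
  have h := aut_mul_expCopies n (⊤ : H.Subgraph).coe ⟨p, hp⟩
  have he : ecard (⊤ : H.Subgraph).coe ≠ 0 := by
    rw [ecard_coe, Subgraph.edgeSet_top, Ne, Set.ncard_eq_zero (Set.toFinite _)]
    exact (edgeSet_nonempty.2 hH).ne_empty
  have h1 : (1 : ℝ) ≤ Nat.card ((⊤ : H.Subgraph).coe ≃g (⊤ : H.Subgraph).coe) := by
    exact_mod_cast card_aut_pos _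
  have h2 : (1 : ℝ) / 2 ≤ n.descFactorial k * p ^ ecard (⊤ : H.Subgraph).coe := by
    calc (1 : ℝ) / 2 = 1 * (1 / 2) := (one_mul _).symm
      _ ≤ _ := mul_le_mul h1 (hF ⊤) (by norm_num) (Nat.cast_nonneg _)
      _ = _ := h
  have h3 : p ^ ecard (⊤ : H.Subgraph).coe ≤ p := pow_le_of_le_one hp.1 hp.2 he
  rw [div_le_iff₀ (by positivity)]
  nlinarith [mul_le_mul_of_nonneg_left h3 hd.le]

end Glue

open Glue in
/-- The labelled counting bound gives the threshold bounds. -/
theorem final_of_labelledBound (h : LabelledBound) :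
    ∃ C : ℝ, ∀ (n v : ℕ) (H : SimpleGraph (Fin v)), 2 ≤ n → v ≤ n → H ≠ ⊥ →
      pTildeE n H ≤ C * Real.log n ^ expo n (pE n H) * pE n H ∧
      pC n H ≤ C * Real.log n ^ (1 + expo n (pE n H)) * pE n H ∧
      pC n H ≤ C * Real.log n ^ 2 * pE n H := by
  classical
  obtain ⟨C, hC, hLB⟩ := h
  refine ⟨320 * Real.exp 2 * C, fun n v H hn hv hH => ?_⟩
  have hlog : 0 < Real.log n := Real.log_pos (by exact_mod_cast hn)
  set A : Set ℝ := {p : ℝ | ∃ hp : p ∈ I, ∀ F : H.Subgraph, 1 / 2 ≤ expCopies n F.coe ⟨p, hp⟩}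
  obtain ⟨δ, hδ, hδA⟩ := pE_lower hv hH
  have hAne : A.Nonempty := ⟨1, pE_set_nonempty hv H⟩
  have hpE0 : 0 < pE n H := hδ.trans_le (le_csInf hAne hδA)
  have hpE1 : pE n H ≤ 1 := csInf_le ⟨δ, hδA⟩ (pE_set_nonempty hv H)
  set θ := expo n (pE n H)
  obtain ⟨hθ0, hθ1⟩ := expo_mem hn hpE0 hpE1
  have hL0 : 0 < Real.log n ^ θ := Real.rpow_pos_of_pos hlog _
  -- the bounds for each admissible `q`
  have key : ∀ q ∈ A,
      pTildeE n H ≤ (2 * Real.exp 2 * C * Real.log n ^ θ) * q ∧
      pC n H ≤ (160 * Real.exp 2 * C * Real.log n ^ (1 + θ)) * q := by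
    rintro q hqA
    have hq : 0 < q := hδ.trans_le (hδA q hqA)
    have hge : pE n H ≤ q := csInf_le ⟨δ, hδA⟩ hqA
    obtain ⟨hqI, hqF⟩ := hqA
    have hq1 : q ≤ 1 := hqI.2
    have hhyp : Hyp n q H := hyp_of_expCopies (q := ⟨q, hqI⟩) hqF
    have hθq : expo n q ≤ θ := expo_antitone hn hpE0 hge
    have hM : Mfac C n q ≤ 2 * Real.exp 2 * C * Real.log n ^ θ * q := by
      have := log_rpow_le hn (expo_mem hn hq hq1).1 hθq hθ1
      calc Mfac C n q = (Real.exp 2 * C * q) * Real.log n ^ expo n q := by rw [Mfac]; ring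
        _ ≤ (Real.exp 2 * C * q) * (2 * Real.log n ^ θ) :=
            mul_le_mul_of_nonneg_left this (by positivity)
        _ = _ := by ring
    have hM0 : 0 < Mfac C n q := by unfold Mfac; positivity
    constructor
    · set p := min 1 (Mfac C n q) with hp
      have hpI : p ∈ I := ⟨le_min zero_le_one hM0.le, min_le_left _ _⟩
      have hmem : p ∈ {p : ℝ | ∃ hp : p ∈ I,
          ∀ F : H.Subgraph, (H.copyCount F.coe : ℝ) / 2 ≤ expCopies n F.coe ⟨p, hp⟩} := by
        refine ⟨hpI, fun F => ?_⟩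
        set a : ℝ := (Nat.card (F.coe ≃g F.coe) : ℝ) with ha'
        have ha : 0 < a := Nat.cast_pos.2 (card_aut_pos F.coe)
        have h1 : (Nat.card (Copy F.coe H) : ℝ) ≤
            (n.descFactorial (Fintype.card F.verts) : ℝ) * p ^ ecard F.coe := by
          rcases le_total 1 (Mfac C n q) with h1 | h1
          · rw [hp, min_eq_left h1, one_pow, mul_one]
            exact Nat.cast_le.2 ((card_copy_le H F.coe).trans
              (by rw [Fintype.card_fin]; exact Nat.descFactorial_le _ hv))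
          · rw [hp, min_eq_right h1]
            exact copies_le hC hLB hn hq hq1 hv hhyp F.coe
        have h2 : a * (H.copyCount F.coe : ℝ) ≤ a * expCopies n F.coe ⟨p, hpI⟩ := by
          calc a * (H.copyCount F.coe : ℝ) = (Nat.card (Copy F.coe H) : ℝ) := by
                rw [card_copy_eq_copyCount_mul, ha']; push_cast; ring
            _ ≤ _ := h1
            _ = _ := (aut_mul_expCopies n F.coe ⟨p, hpI⟩).symm
        have h3 : (0 : ℝ) ≤ (H.copyCount F.coe : ℝ) := Nat.cast_nonneg _
        linarith [le_of_mul_le_mul_left h2 ha]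
      exact (csInf_le ⟨0, fun x hx => hx.1.1⟩ hmem).trans ((min_le_right _ _).trans hM)
    · set B := 80 * Real.log n * Mfac C n q with hB
      set p := min 1 B with hp
      have hB0 : 0 ≤ B := by positivity
      have hpI : p ∈ I := ⟨le_min zero_le_one hB0, min_le_left _ _⟩
      have hmem : p ∈ {p : ℝ | ∃ hp : p ∈ I, 1 / 2 ≤ probContains n H ⟨p, hp⟩} := by
        refine ⟨hpI, ?_⟩
        rcases le_total 1 B with h1 | h1
        · have he : (⟨p, hpI⟩ : I) = 1 := Subtype.ext (by show p = (1 : ℝ); exact min_eq_left h1)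
          rw [he, probContains, binomialRandom_one]
          have hmem : (⊤ : SimpleGraph (Fin n)) ∈ {G : SimpleGraph (Fin n) | H ⊑ G} := by
            obtain ⟨φ⟩ : Nonempty (Fin v ↪ Fin n) :=
              Function.Embedding.nonempty_of_card_le (by simpa using hv)
            exact ⟨⟨⟨φ, fun {a b} hab => φ.injective.ne hab.ne⟩, φ.injective⟩⟩
          rw [Measure.real, Measure.dirac_apply_of_mem hmem]
          norm_num
        · have : Nonempty (Fin v ↪ Fin n) :=
            Function.Embedding.nonempty_of_card_le (by simpa using hv)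
          have hs := spread_threshold (α := Slot n) (ι := Fin v ↪ Fin n) (fun φ => slotImage H φ)
            (l := ecard H) (fun φ => (card_slotImage H φ).le)
            (R := 1 / Mfac C n q) (by positivity)
            (fun U _ => spread hC hLB hn hq hq1 hv hhyp U) (p := p) ?_ hpI.2
          · rw [probContains_eq]
            convert hs using 3
          · rw [hp, min_eq_right h1, div_div_eq_mul_div, div_one, hB]
            have := natLog_bound hn hv H
            calc 16 * ((Nat.log 2 (ecard H) : ℝ) + 1) * Mfac C n q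
                ≤ 16 * (5 * Real.log n) * Mfac C n q := by gcongr
              _ = _ := by ring
      refine (csInf_le ⟨0, fun x hx => hx.1.1⟩ hmem).trans ((min_le_right _ _).trans ?_)
      rw [hB, Real.rpow_add hlog, Real.rpow_one]
      calc 80 * Real.log n * Mfac C n q
          ≤ 80 * Real.log n * (2 * Real.exp 2 * C * Real.log n ^ θ * q) := by gcongr
        _ = _ := by ring
  have conclude : ∀ {x c : ℝ}, 0 < c → (∀ q ∈ A, x ≤ c * q) → x ≤ c * pE n H := by
    intro x c hc hx
    rw [← div_le_iff₀' hc]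
    exact le_csInf hAne fun q hq => by rw [div_le_iff₀' hc]; exact hx q hq
  have hl1 : 0 < Real.log n ^ (1 + θ) := Real.rpow_pos_of_pos hlog _
  have h1 := conclude (by positivity) fun q hq => (key q hq).1
  have h2 := conclude (by positivity) fun q hq => (key q hq).2
  have hC0 : (0 : ℝ) < C := by linarith
  refine ⟨h1.trans ?_, h2.trans ?_, h2.trans ?_⟩
  · gcongr
    norm_num
  · gcongr
    norm_num
  · rw [Real.rpow_add hlog, Real.rpow_one]
    have hθle : Real.log n ^ θ ≤ 2 * Real.log n := by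
      simpa using log_rpow_le hn hθ0 hθ1 le_rfl
    calc 160 * Real.exp 2 * C * (Real.log n * Real.log n ^ θ) * pE n H
        ≤ 160 * Real.exp 2 * C * (Real.log n * (2 * Real.log n)) * pE n H := by gcongr
      _ = _ := by ring

end Vale.Agent.P064
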