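import Vale.Agent.P064.Process
import Vale.Agent.P064.CountClass

/-!
The labelled counting bound (P064): in a graph `H` all whose subgraphs have expected count at
least `1/2` at density `q`, a graph `F` without isolated vertices has at most
`n^v (C (log n)^θ q)^e` labelled copies, `θ = min 1 (log (1/q) / log n)`.
-/

open Finset

namespace Vale.Agent.P064

variable {α β : Type*} [Fintype α] [DecidableEq α] [Fintype β] [DecidableEq β]

omit [Fintype β] in
/-- The cluster map is determined by the link edges and the roots. -/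
lemma cl_unique {F : SimpleGraph α} [DecidableRel F.Adj] {D : Deco β} {N l : ℝ} {φ ψ : α ↪ β}
    {p p' : PS α} (hg : Good F D N l φ p) (hg' : Good F D N l ψ p') (hM : p.M = p'.M)
    (hrt : p.rt = p'.rt) : p.cl = p'.cl := by
  funext u
  set r := p.cl u with hr
  have hr1 : r ∈ p.rt := hg.cl_rt u
  set S := (fib p.cl r).filter fun w => p'.cl w = r with hS
  by_contra hne
  have hrS : r ∈ S := mem_filter.2
    ⟨mem_filter.2 ⟨mem_univ _, hg.rt_cl r hr1⟩, hg'.rt_cl r (hrt ▸ hr1)⟩
  have hSne : S ≠ fib p.cl r := by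
    intro h
    have : u ∈ S := h ▸ mem_filter.2 ⟨mem_univ _, hr.symm⟩
    exact hne (mem_filter.1 this).2.symm
  obtain ⟨d, hd, hd1, hcross⟩ := hg.conn r hr1 S (filter_subset _ _) ⟨r, hrS⟩ hSne
  have h12 : p.cl d.2 = r := (hg.M_sub d hd).2.symm.trans hd1
  have h12' : p'.cl d.1 = p'.cl d.2 := (hg'.M_sub d (hM ▸ hd)).2
  exact hcross (by simp [hS, fib, hd1, h12, h12'])

/-- The labelled bound, in exponential form. -/
theorem labelled_exp {H : SimpleGraph β} [DecidableRel H.Adj] {N l : ℝ} (hN : 2 / 3 ≤ N)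
    (hl : 0 < l) (hJ : HypExp H N l)
    (hw : ∀ (S : Finset β) (E : Finset (Sym2 β)),
      (∀ e ∈ E, e ∈ H.edgeSet ∧ ∀ y ∈ e, y ∈ S) → (E.card : ℝ) * l ≤ S.card * N + 1)
    {F : SimpleGraph α} [DecidableRel F.Adj] (hnoiso : ∀ a, ∃ b, F.Adj a b)
    (Φ : Finset (α ↪ β)) (hΦ : ∀ φ ∈ Φ, ∀ a b, F.Adj a b → H.Adj (φ a) (φ b)) :
    (Φ.card : ℝ) ≤ Real.exp (Fintype.card α * N - F.edgeFinset.card * l) *
      (64 * (10 ^ 12 * (Real.exp 20 * N ^ min 1 (l / N)))) ^ F.edgeFinset.card := by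
  classical
  set e := F.edgeFinset.card with he
  set K1 := ⌊2 * (N + 1) / l⌋₊
  set K2 := ⌊N + 1⌋₊
  obtain ⟨D, Φ', ps, hD, hΦ', hle⟩ := exists_deco (by linarith) hl hw Φ hΦ
  set key : (α ↪ β) → Finset (α × α) × Finset (α × α) × Finset α := fun φ =>
    (odarts F D φ, (ps φ).M, (ps φ).rt) with hkey
  set A := (univ : Finset (α × α)).filter fun d => F.Adj d.1 d.2 with hA
  set keys := A.powerset ×ˢ (A.powerset ×ˢ (univ : Finset α).powerset) with hkeys
  have hmaps : ∀ φ ∈ Φ', key φ ∈ keys := by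
    intro φ hφ
    have hsub : odarts F D φ ⊆ A := fun d hd => mem_filter.2 ⟨mem_univ _, (mem_filter.1 hd).2.1⟩
    simp only [hkeys, hkey, mem_product, mem_powerset]
    exact ⟨hsub, fun d hd => hsub (((hΦ' φ hφ).2.M_sub d hd).1), subset_univ _⟩
  have hAcard : A.card = 2 * e := by
    rw [he, ← F.sum_degrees_eq_twice_card_edges, hA, ← univ_product_univ, card_filter,
      sum_product]
    refine sum_congr rfl fun a _ => ?_
    rw [← SimpleGraph.card_neighborFinset_eq_degree, ← card_filter]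
    congr 1
    ext b
    simp
  have hk2e : Fintype.card α ≤ 2 * e := by
    rw [he, ← F.sum_degrees_eq_twice_card_edges]
    calc Fintype.card α = ∑ _a : α, 1 := by simp
      _ ≤ _ := sum_le_sum fun a _ => (F.degree_pos_iff_exists_adj a).2 (hnoiso a)
  have hkeycard : (keys.card : ℝ) ≤ (64 : ℝ) ^ e := by
    have h : keys.card ≤ 64 ^ e := by
      rw [hkeys, card_product, card_product, card_powerset, card_powerset, card_univ, hAcard]
      calc 2 ^ (2 * e) * (2 ^ (2 * e) * 2 ^ Fintype.card α)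
          ≤ 2 ^ (2 * e) * (2 ^ (2 * e) * 2 ^ (2 * e)) := by gcongr; norm_num
        _ = 64 ^ e := by rw [← pow_add, ← pow_add, show (64 : ℕ) = 2 ^ 6 by norm_num, ← pow_mul]; ring_nf
    exact_mod_cast h
  set B := Real.exp (Fintype.card α * N - e * l) *
    (10 ^ 12 * (Real.exp 20 * N ^ min 1 (l / N))) ^ e with hB
  have hclass : ∀ x ∈ keys, ∑ φ ∈ Φ'.filter (fun φ => key φ = x),
      costOn K1 K2 (ps φ).M (univ \ (ps φ).rt) ≤ B := by
    rintro ⟨o, M, rt⟩ -
    set Ψ := Φ'.filter (fun φ => key φ = (o, M, rt)) with hΨdef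
    rcases Ψ.eq_empty_or_nonempty with hΨ | ⟨φ0, hφ0⟩
    · rw [hΨ, sum_empty, hB]
      have : 0 < N := by linarith
      positivity
    have hmem : ∀ φ ∈ Ψ, φ ∈ Φ' ∧ odarts F D φ = o ∧ (ps φ).M = M ∧ (ps φ).rt = rt := by
      intro φ hφ
      obtain ⟨h1, h2⟩ := mem_filter.1 hφ
      simp only [hkey, Prod.mk.injEq] at h2
      exact ⟨h1, h2⟩
    set cl := (ps φ0).cl
    have hΨc : ∀ φ ∈ Ψ, CertClass F H D N l o M rt cl φ := by
      intro φ hφ
      obtain ⟨h1, h2, h3, h4⟩ := hmem φ hφ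
      obtain ⟨h1', -, h3', h4'⟩ := hmem φ0 hφ0
      refine ⟨(hΦ' φ h1).1, h2, ?_⟩
      have hc : cl = (ps φ).cl :=
        cl_unique (hΦ' φ0 h1').2 (hΦ' φ h1).2 (h3'.trans h3.symm) (h4'.trans h4.symm)
      have hp : ps φ = ⟨rt, M, cl⟩ := by
        rw [hc, ← h3, ← h4]
      exact hp ▸ (hΦ' φ h1).2
    rw [sum_congr rfl fun φ hφ => by rw [(hmem φ hφ).2.2.1, (hmem φ hφ).2.2.2], sum_const,
      nsmul_eq_mul]
    exact count_class hN hl hJ hD hnoiso hΨc
  refine hle.trans ?_
  rw [← sum_fiberwise_of_maps_to hmaps]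
  refine (sum_le_sum hclass).trans ?_
  rw [sum_const, nsmul_eq_mul, hB, mul_pow (64 : ℝ), mul_left_comm]
  refine mul_le_mul_of_nonneg_left ?_ (Real.exp_pos _).le
  refine mul_le_mul_of_nonneg_right hkeycard ?_
  have : 0 < N := by linarith
  positivity

/-- The main counting lemma. -/
theorem labelled_bound : LabelledBound := by
  refine ⟨64 * (10 ^ 12 * Real.exp 20), ?_, ?_⟩
  · nlinarith [Real.one_le_exp (show (0 : ℝ) ≤ 20 by norm_num)]
  intro n q hn hq hq1 v H hv hH k F _ hnoiso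
  classical
  set C := 64 * (10 ^ 12 * Real.exp 20) with hC
  set N := Real.log n with hNdef
  set l := Real.log (1 / q) with hldef
  set e := F.edgeFinset.card
  have hn0 : (0 : ℝ) < n := by exact_mod_cast (show 0 < n by omega)
  have hN : 2 / 3 ≤ N := by
    have h1 : Real.log 2 ≤ N := Real.log_le_log (by norm_num) (by exact_mod_cast hn)
    linarith [Real.log_two_gt_d9]
  have hl0 : 0 ≤ l := Real.log_nonneg ((one_le_div hq).2 hq1)
  set Φ := (univ : Finset (Fin k ↪ Fin v)).filter fun φ => ∀ a b, F.Adj a b → H.Adj (φ a) (φ b)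
    with hΦ
  have hcount : H.labelledCopyCount F = Φ.card := by
    rw [SimpleGraph.labelledCopyCount, Fintype.card_eq_nat_card, ← Nat.card_eq_finsetCard Φ]
    refine Nat.card_congr
      { toFun := fun f => ⟨⟨f, f.injective⟩, mem_filter.2 ⟨mem_univ _, fun a b h => f.toHom.map_adj h⟩⟩
        invFun := fun φ => ⟨⟨φ.1, fun h => (mem_filter.1 φ.2).2 _ _ h⟩, φ.1.injective⟩
        left_inv := fun f => rfl
        right_inv := fun φ => rfl }
  rw [hcount]
  have hθ0 : 0 ≤ expo n q := le_min zero_le_one (div_nonneg hl0 (by linarith))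
  have hθ1 : expo n q ≤ 1 := min_le_left _ _
  by_cases hq2 : q ≤ 1 / 2
  · have hl : 0 < l := Real.log_pos (by rw [lt_div_iff₀ hq]; linarith)
    have hexp : ∀ a b : ℕ, Real.exp (a * N - b * l) = (n : ℝ) ^ a * q ^ b := by
      intro a b
      have h1 : Real.exp N = n := Real.exp_log hn0
      have h2 : Real.exp (-l) = q := by
        rw [hldef, one_div, Real.log_inv, neg_neg, Real.exp_log hq]
      rw [sub_eq_add_neg, Real.exp_add, ← mul_neg, Real.exp_nat_mul, Real.exp_nat_mul, h1, h2]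
    have hJ : HypExp H N l := fun S E hE => by
      rw [hexp, ← mul_assoc]
      exact hH S E hE
    have hw : ∀ (S : Finset (Fin v)) (E : Finset (Sym2 (Fin v))),
        (∀ z ∈ E, z ∈ H.edgeSet ∧ ∀ y ∈ z, y ∈ S) → (E.card : ℝ) * l ≤ S.card * N + 1 := by
      intro S E hE
      have h1 : (1 : ℝ) ≤ autCount S E := by
        have : Nonempty {g : Equiv.Perm (Fin v) //
            (∀ x ∉ S, g x = x) ∧ E.image (Sym2.map g) = E} :=
          ⟨⟨1, fun _ _ => rfl, by simp⟩⟩
        exact_mod_cast (Nat.card_pos : 0 < autCount S E)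
      have h2 := h1.trans (hJ S E hE)
      have h3 : 2 * Real.exp ((S.card : ℝ) * N - E.card * l) ≤
          Real.exp (1 + ((S.card : ℝ) * N - E.card * l)) := by
        rw [Real.exp_add]
        exact mul_le_mul_of_nonneg_right (by linarith [Real.exp_one_gt_d9]) (Real.exp_pos _).le
      have h4 := Real.one_le_exp_iff.1 (h2.trans h3)
      linarith
    have h := labelled_exp hN hl hJ hw hnoiso Φ fun φ hφ => (mem_filter.1 hφ).2
    refine h.trans (le_of_eq ?_)
    rw [hexp, Fintype.card_fin, mul_assoc, ← mul_pow]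
    congr 2
    rw [hC, expo, ← hldef, ← hNdef]
    ring
  · have h1 : (Φ.card : ℝ) ≤ (n : ℝ) ^ k := by
      have : Φ.card ≤ v ^ k := by
        refine (card_le_univ Φ).trans ?_
        rw [Fintype.card_embedding_eq, Fintype.card_fin, Fintype.card_fin]
        exact Nat.descFactorial_le_pow v k
      calc (Φ.card : ℝ) ≤ ((v ^ k : ℕ) : ℝ) := by exact_mod_cast this
        _ ≤ (n : ℝ) ^ k := by
            push_cast
            exact pow_le_pow_left₀ (Nat.cast_nonneg _) (by exact_mod_cast hv) _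
    refine h1.trans (le_mul_of_one_le_right (by positivity) (one_le_pow₀ ?_))
    have h2 : 2 / 3 ≤ N ^ expo n q := by
      rcases le_total 1 N with h | h
      · linarith [Real.one_le_rpow h hθ0]
      · calc (2 / 3 : ℝ) ≤ N ^ (1 : ℝ) := by rw [Real.rpow_one]; exact hN
          _ ≤ _ := Real.rpow_le_rpow_of_exponent_ge (by linarith) h hθ1
    have h20 : (1 : ℝ) ≤ Real.exp 20 := Real.one_le_exp (by norm_num)
    push Not at hq2
    have hC4 : (4 : ℝ) ≤ C := by rw [hC]; nlinarith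
    nlinarith [mul_le_mul h2 hq2.le (by norm_num) (by linarith : (0 : ℝ) ≤ N ^ expo n q)]

end Vale.Agent.P064
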