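import Vale.Agent.P064.Defs
import Vale.Agent.P064.Cert
import Vale.Agent.P064.Lemmas

/-!
The elimination process (P064): it produces a decomposition of the host graph for which many
embeddings (counted with the cost of the choices) have a certificate.

Items are clusters of removed vertices with positive excess weight.  At every step some vertex
has few later neighbours and lies in few items, by the subgraph hypothesis applied to the union
of the current vertex set and all items.
-/

open Finset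

namespace Vale.Agent.P064

variable {α β : Type*} [Fintype α] [DecidableEq α] [Fintype β] [DecidableEq β]

/-- A derived item: removed vertices, their edges, and the current targets. -/
structure Item (β : Type*) where
  top : β
  Z : Finset β
  P : Finset (Sym2 β)
  T : Finset β
deriving DecidableEq

/-- The validity conditions of an item with respect to the current vertex set `U`. -/
structure ItemOK (H : SimpleGraph β) (N l : ℝ) (U : Finset β) (I : Item β) : Prop where
  top_mem : I.top ∈ I.Z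
  disj : ∀ z ∈ I.Z, z ∉ U
  sub : I.T ⊆ U
  edge : ∀ e ∈ I.P, e ∈ H.edgeSet ∧ (∃ z ∈ I.Z, z ∈ e) ∧ ∀ y ∈ e, y ∈ I.Z ∪ I.T
  tgt : ∀ y ∈ I.T, ∃ z ∈ I.Z, s(z, y) ∈ I.P
  pos : (I.T.card : ℝ) < I.P.card * l - I.Z.card * N
  ne : I.T.Nonempty

/-- The invariant of the host side. -/
structure HInv (H : SimpleGraph β) (N l : ℝ) (K1 K2 : ℕ) (U : Finset β)
    (items : Finset (Item β)) (D : Deco β) : Prop where
  ok : ∀ I ∈ items, ItemOK H N l U I
  disj : ∀ I ∈ items, ∀ J ∈ items, I ≠ J → Disjoint I.Z J.Z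
  out_card : ∀ x, (D.out x).card ≤ K1
  lin_card : ∀ x, (D.lin x).card ≤ K2
  out_rank : ∀ x, ∀ y ∈ D.out x, y ∈ U ∨ D.rank x < D.rank y
  out_U : ∀ x ∈ U, D.out x = ∅
  rank_lt : ∀ x ∉ U, D.rank x < Fintype.card β - U.card

/-- The vertices of `F` whose images have been removed. -/
def doneSet (U : Finset β) (φ : α ↪ β) : Finset α := univ.filter fun a => φ a ∉ U

/-- The representatives of the current clusters. -/
def repSet (U : Finset β) (φ : α ↪ β) (p : PS α) : Finset α :=
  (doneSet U φ).filter fun r => p.cl r = r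

/-- The invariant of one embedding. -/
structure PInv (F : SimpleGraph α) [DecidableRel F.Adj] (N l : ℝ) (U : Finset β)
    (items : Finset (Item β)) (D : Deco β) (φ : α ↪ β) (p : PS α) : Prop where
  cl_undone : ∀ a, φ a ∈ U → p.cl a = a
  cl_done : ∀ a, φ a ∉ U → φ (p.cl a) ∉ U ∧ p.cl (p.cl a) = p.cl a
  rt_sub : ∀ r ∈ p.rt, φ r ∉ U ∧ p.cl r = r
  orient : ∀ a b, F.Adj a b → φ a ∉ U →
    (φ b ∈ D.out (φ a)) ∨ (φ b ∉ U ∧ φ a ∈ D.out (φ b))
  M_sub : ∀ d ∈ p.M, d ∈ odarts F D φ ∧ φ d.2 ∉ U ∧ p.cl d.1 = p.cl d.2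
  M_card : p.M.card + (repSet U φ p).card = (doneSet U φ).card
  live : ∀ r, φ r ∉ U → p.cl r = r → r ∉ p.rt → ∃ I ∈ items, I.top = φ r ∧
    I.Z = (fib p.cl r).image φ ∧
    I.P = (dartsFrom (odarts F D φ) (fib p.cl r)).image (fun d => s(φ d.1, φ d.2)) ∧
    I.T = (heads (odarts F D φ) (fib p.cl r)).image φ
  conn : ∀ r, φ r ∉ U → p.cl r = r → ∀ S ⊆ fib p.cl r, S.Nonempty → S ≠ fib p.cl r →
    ∃ d ∈ p.M, p.cl d.1 = r ∧ ¬ (d.1 ∈ S ↔ d.2 ∈ S)
  lin : ∀ u ∈ p.rt, (inEdges p.M u).image φ ⊆ D.lin (φ u)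
  kept : ∀ u, φ u ∉ U → u ∉ p.rt → (inEdges p.M u).image φ = D.childs (φ u)
  parent : ∀ u, φ u ∉ U → p.cl u ≠ u → (∀ I ∈ items, I.top ≠ φ u) ∧
    ∃ w, φ w ∉ U ∧ p.cl w = p.cl u ∧ φ w = D.owner (φ u) ∧ D.rank (φ u) < D.rank (φ w)
  rank_cl : ∀ u, φ u ∉ U → D.rank (φ u) ≤ D.rank (φ (p.cl u))
  rt_weight : ∀ r ∈ p.rt, (heads (odarts F D φ) (fib p.cl r)).Nonempty →
    weight N l (odarts F D φ) (fib p.cl r) ≤ (heads (odarts F D φ) (fib p.cl r)).card
  rt_nonroot : ∀ r ∈ p.rt, (((fib p.cl r).card : ℝ) - 1) * N ≤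
    (dartsFrom (odarts F D φ) (fib p.cl r)).card * l
  rt_heads : ∀ r ∈ p.rt, ∀ h ∈ heads (odarts F D φ) (fib p.cl r),
    φ h ∈ U ∨ D.rank (φ r) < D.rank (φ h)

section Pick

variable {H : SimpleGraph β} [DecidableRel H.Adj] {N l : ℝ}

/-- Some current vertex has few neighbours and few items. -/
lemma exists_pick (hN : 0 ≤ N) (hl : 0 < l)
    (hw : ∀ (S : Finset β) (E : Finset (Sym2 β)),
      (∀ e ∈ E, e ∈ H.edgeSet ∧ ∀ y ∈ e, y ∈ S) → (E.card : ℝ) * l ≤ S.card * N + 1)
    {U : Finset β} (hU : U.Nonempty) {items : Finset (Item β)}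
    (hok : ∀ I ∈ items, ItemOK H N l U I)
    (hdisj : ∀ I ∈ items, ∀ J ∈ items, I ≠ J → Disjoint I.Z J.Z) :
    ∃ x ∈ U, (U.filter (H.Adj x)).card ≤ ⌊2 * (N + 1) / l⌋₊ ∧
      (items.filter fun I => x ∈ I.T).card ≤ ⌊N + 1⌋₊ := by
  set EU := H.edgeFinset.filter fun e => ∀ y ∈ e, y ∈ U with hEU
  set S := U ∪ items.biUnion (·.Z) with hS
  set E := EU ∪ items.biUnion (·.P) with hE
  have hEok : ∀ e ∈ E, e ∈ H.edgeSet ∧ ∀ y ∈ e, y ∈ S := by
    intro e he
    rcases mem_union.1 he with he | he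
    · obtain ⟨h1, h2⟩ := mem_filter.1 he
      exact ⟨SimpleGraph.mem_edgeFinset.1 h1, fun y hy => mem_union_left _ (h2 y hy)⟩
    · obtain ⟨I, hI, heI⟩ := mem_biUnion.1 he
      obtain ⟨h1, -, h3⟩ := (hok I hI).edge e heI
      refine ⟨h1, fun y hy => ?_⟩
      rcases mem_union.1 (h3 y hy) with h | h
      · exact mem_union_right _ (mem_biUnion.2 ⟨I, hI, h⟩)
      · exact mem_union_left _ ((hok I hI).sub h)
  have hPdisj : ∀ I ∈ items, ∀ J ∈ items, I ≠ J → Disjoint I.P J.P := by
    intro I hI J hJ hne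
    refine Finset.disjoint_left.2 fun e heI heJ => ?_
    obtain ⟨-, ⟨z, hz, hze⟩, -⟩ := (hok I hI).edge e heI
    obtain ⟨-, -, h3⟩ := (hok J hJ).edge e heJ
    rcases mem_union.1 (h3 z hze) with h | h
    · exact Finset.disjoint_left.1 (hdisj I hI J hJ hne) hz h
    · exact (hok I hI).disj z hz ((hok J hJ).sub h)
  have hScard : S.card = U.card + ∑ I ∈ items, I.Z.card := by
    rw [hS, card_union_of_disjoint, card_biUnion hdisj]
    refine Finset.disjoint_left.2 fun y hy hy' => ?_
    obtain ⟨I, hI, hyI⟩ := mem_biUnion.1 hy'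
    exact (hok I hI).disj y hyI hy
  have hEcard : E.card = EU.card + ∑ I ∈ items, I.P.card := by
    rw [hE, card_union_of_disjoint, card_biUnion hPdisj]
    refine Finset.disjoint_left.2 fun e he he' => ?_
    obtain ⟨I, hI, heI⟩ := mem_biUnion.1 he'
    obtain ⟨-, ⟨z, hz, hze⟩, -⟩ := (hok I hI).edge e heI
    exact (hok I hI).disj z hz ((mem_filter.1 he).2 z hze)
  have hmain := hw S E hEok
  rw [hScard, hEcard] at hmain
  push_cast at hmain
  have hdeg : ∑ x ∈ U, (U.filter (H.Adj x)).card ≤ 2 * EU.card := by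
    have h1 : ∀ x ∈ U, (U.filter (H.Adj x)).card ≤ (EU.filter fun e => x ∈ e).card := by
      intro x hx
      refine card_le_card_of_injOn (fun y => s(x, y)) (fun y hy => ?_)
        (fun y _ z _ h => Sym2.congr_right.1 h)
      simp only [coe_filter, Set.mem_ofPred_eq] at hy
      simp [hEU, hy.2, hx, hy.1]
    refine (sum_le_sum h1).trans ?_
    calc ∑ x ∈ U, (EU.filter fun e => x ∈ e).card
        = ∑ e ∈ EU, (U.filter fun x => x ∈ e).card := by
          simp only [card_filter]; exact sum_comm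
      _ ≤ ∑ _e ∈ EU, 2 := by
          refine sum_le_sum fun e _ => ?_
          refine (card_le_card (t := e.toFinset) fun y hy => ?_).trans ?_
          · exact Sym2.mem_toFinset.2 (mem_filter.1 hy).2
          · exact (Sym2.card_toFinset e).trans_le (by split_ifs <;> omega)
      _ = 2 * EU.card := by simp [mul_comm]
  have hinc : ∑ x ∈ U, ((items.filter fun I => x ∈ I.T).card : ℝ) ≤
      ∑ I ∈ items, ((I.P.card : ℝ) * l - I.Z.card * N) := by
    calc ∑ x ∈ U, ((items.filter fun I => x ∈ I.T).card : ℝ)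
        = ∑ I ∈ items, ((U.filter fun x => x ∈ I.T).card : ℝ) := by
          simp only [card_filter]; push_cast; exact sum_comm
      _ ≤ ∑ I ∈ items, ((I.P.card : ℝ) * l - I.Z.card * N) := by
          refine sum_le_sum fun I hI => le_trans ?_ (hok I hI).pos.le
          exact_mod_cast card_le_card fun y hy => (mem_filter.1 hy).2
  have hsum : ∑ x ∈ U, (((U.filter (H.Adj x)).card : ℝ) * (l / 2) +
      (items.filter fun I => x ∈ I.T).card) ≤ U.card * N + 1 := by
    rw [sum_add_distrib, ← sum_mul]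
    have h2 : (∑ x ∈ U, ((U.filter (H.Adj x)).card : ℝ)) ≤ 2 * EU.card := by
      exact_mod_cast hdeg
    rw [sum_sub_distrib, ← sum_mul, ← sum_mul] at hinc
    nlinarith
  obtain ⟨x, hx, hxle⟩ := exists_le_of_sum_le hU
    (g := fun _ => N + 1) (hsum.trans (by
      rw [sum_const, nsmul_eq_mul]
      have : (1 : ℝ) ≤ U.card := by exact_mod_cast hU.card_pos
      nlinarith))
  have h0 : (0 : ℝ) ≤ ((U.filter (H.Adj x)).card : ℝ) * (l / 2) := by positivity
  have h0' : (0 : ℝ) ≤ ((items.filter fun I => x ∈ I.T).card : ℝ) := Nat.cast_nonneg _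
  refine ⟨x, hx, Nat.le_floor ?_, Nat.le_floor (by linarith)⟩
  rw [le_div_iff₀ hl]
  linarith

end Pick

section Step

/-- The link vertex of an item at `x`. -/
noncomputable def linkV (x : β) (I : Item β) : β :=
  if h : ∃ z ∈ I.Z, s(z, x) ∈ I.P then h.choose else x

/-- The item created at `x` from the neighbours `S` and the absorbed items `A`. -/
def mkItem (x : β) (S : Finset β) (A : Finset (Item β)) : Item β where
  top := x
  Z := insert x (A.biUnion (·.Z))
  P := S.image (fun y => s(x, y)) ∪ A.biUnion (·.P)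
  T := (S ∪ A.biUnion (·.T)).erase x

/-- Whether the created item is kept. -/
def IsKept (N l : ℝ) (I : Item β) : Prop :=
  I.T.Nonempty ∧ (I.T.card : ℝ) < I.P.card * l - I.Z.card * N

omit [Fintype β] in
lemma linkV_spec {H : SimpleGraph β} {N l : ℝ} {U : Finset β} {I : Item β}
    (h : ItemOK H N l U I) {x : β} (hx : x ∈ I.T) :
    linkV x I ∈ I.Z ∧ s(linkV x I, x) ∈ I.P := by
  have he : ∃ z ∈ I.Z, s(z, x) ∈ I.P := h.tgt x hx
  simp only [linkV, dif_pos he]
  exact he.choose_spec

omit [Fintype β] in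
lemma top_inj {items : Finset (Item β)}
    (hdisj : ∀ I ∈ items, ∀ J ∈ items, I ≠ J → Disjoint I.Z J.Z) {I J : Item β}
    (hI : I ∈ items) (hJ : J ∈ items) {z : β} (h1 : z ∈ I.Z) (h2 : z ∈ J.Z) : I = J := by
  by_contra hne
  exact Finset.disjoint_left.1 (hdisj I hI J hJ hne) h1 h2

variable {H : SimpleGraph β} [DecidableRel H.Adj] {N l : ℝ} {K1 K2 : ℕ} {U : Finset β}
  {items : Finset (Item β)} {D : Deco β}

open Classical in
/-- The new decomposition data after removing `x` with choice `A`. -/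
noncomputable def stepD (H : SimpleGraph β) [DecidableRel H.Adj] (U : Finset β)
    (items : Finset (Item β)) (D : Deco β) (x : β) (A : Finset (Item β)) : Deco β where
  rank := Function.update D.rank x (Fintype.card β - U.card)
  out := Function.update D.out x (U.filter (H.Adj x))
  lin := Function.update D.lin x ((items.filter fun I => x ∈ I.T).image (linkV x))
  childs := Function.update D.childs x (A.image (linkV x))
  owner := fun y => if ∃ I ∈ items, x ∈ I.T ∧ I.top = y then x else D.owner y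

open Classical in
/-- The new items after removing `x`. -/
noncomputable def stepItems (N l : ℝ) (items : Finset (Item β)) (x : β) (S : Finset β)
    (A : Finset (Item β)) : Finset (Item β) :=
  if IsKept N l (mkItem x S A) then insert (mkItem x S A) (items.filter fun I => x ∉ I.T)
  else items.filter fun I => x ∉ I.T

lemma hinv_step (hH : HInv H N l K1 K2 U items D) {x : β} (hx : x ∈ U)
    (h1 : (U.filter (H.Adj x)).card ≤ K1) (h2 : (items.filter fun I => x ∈ I.T).card ≤ K2)
    {S : Finset β} (hS : S ⊆ U.filter (H.Adj x)) {A : Finset (Item β)}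
    (hA : A ⊆ items.filter fun I => x ∈ I.T) :
    HInv H N l K1 K2 (U.erase x) (stepItems N l items x S A) (stepD H U items D x A) := by
  classical
  have hrest : ∀ I ∈ items.filter (fun I => x ∉ I.T), ItemOK H N l (U.erase x) I := by
    intro I hI
    obtain ⟨hI, hxI⟩ := mem_filter.1 hI
    have h := hH.ok I hI
    exact ⟨h.top_mem, fun z hz hzU => h.disj z hz (mem_of_mem_erase hzU),
      fun y hy => mem_erase.2 ⟨fun e => hxI (e ▸ hy), h.sub hy⟩, h.edge, h.tgt, h.pos, h.ne⟩
  have hA' : ∀ I ∈ A, ItemOK H N l U I := fun I hI => hH.ok I (mem_filter.1 (hA hI)).1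
  have hnew : IsKept N l (mkItem x S A) → ItemOK H N l (U.erase x) (mkItem x S A) := by
    intro hk
    refine ⟨mem_insert_self _ _, ?_, ?_, ?_, ?_, hk.2, hk.1⟩
    · intro z hz hzU
      rcases mem_insert.1 hz with rfl | hz
      · exact (mem_erase.1 hzU).1 rfl
      · obtain ⟨I, hI, hzI⟩ := mem_biUnion.1 hz
        exact (hA' I hI).disj z hzI (mem_of_mem_erase hzU)
    · intro y hy
      obtain ⟨hyx, hy⟩ := mem_erase.1 hy
      refine mem_erase.2 ⟨hyx, ?_⟩
      rcases mem_union.1 hy with hy | hy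
      · exact (mem_filter.1 (hS hy)).1
      · obtain ⟨I, hI, hyI⟩ := mem_biUnion.1 hy
        exact (hA' I hI).sub hyI
    · intro e he
      rcases mem_union.1 he with he | he
      · obtain ⟨y, hy, rfl⟩ := mem_image.1 he
        have hadj : H.Adj x y := (mem_filter.1 (hS hy)).2
        refine ⟨H.mem_edgeSet.2 hadj, ⟨x, mem_insert_self _ _, Sym2.mem_mk_left _ _⟩,
          fun z hz => ?_⟩
        rcases Sym2.mem_iff.1 hz with rfl | rfl
        · exact mem_union_left _ (mem_insert_self _ _)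
        · exact mem_union_right _ (mem_erase.2 ⟨hadj.ne', mem_union_left _ hy⟩)
      · obtain ⟨I, hI, heI⟩ := mem_biUnion.1 he
        obtain ⟨h3, ⟨z, hz, hze⟩, h4⟩ := (hA' I hI).edge e heI
        refine ⟨h3, ⟨z, mem_insert_of_mem (mem_biUnion.2 ⟨I, hI, hz⟩), hze⟩, fun y hy => ?_⟩
        by_cases hyx : y = x
        · exact mem_union_left _ (hyx ▸ mem_insert_self _ _)
        rcases mem_union.1 (h4 y hy) with h | h
        · exact mem_union_left _ (mem_insert_of_mem (mem_biUnion.2 ⟨I, hI, h⟩))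
        · exact mem_union_right _ (mem_erase.2 ⟨hyx, mem_union_right _ (mem_biUnion.2 ⟨I, hI, h⟩)⟩)
    · intro y hy
      obtain ⟨hyx, hy⟩ := mem_erase.1 hy
      rcases mem_union.1 hy with hy | hy
      · exact ⟨x, mem_insert_self _ _, mem_union_left _ (mem_image.2 ⟨y, hy, rfl⟩)⟩
      · obtain ⟨I, hI, hyI⟩ := mem_biUnion.1 hy
        obtain ⟨z, hz, hzP⟩ := (hA' I hI).tgt y hyI
        exact ⟨z, mem_insert_of_mem (mem_biUnion.2 ⟨I, hI, hz⟩),
          mem_union_right _ (mem_biUnion.2 ⟨I, hI, hzP⟩)⟩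
  have hmem : ∀ I ∈ stepItems N l items x S A,
      (IsKept N l (mkItem x S A) ∧ I = mkItem x S A) ∨
        I ∈ items.filter (fun I => x ∉ I.T) := by
    intro I hI
    unfold stepItems at hI
    split_ifs at hI with hk
    · rcases mem_insert.1 hI with h | h
      · exact Or.inl ⟨hk, h⟩
      · exact Or.inr h
    · exact Or.inr hI
  have hnd : ∀ J ∈ items.filter (fun I => x ∉ I.T), Disjoint (mkItem x S A).Z J.Z := by
    intro J hJ
    obtain ⟨hJ, hxJ⟩ := mem_filter.1 hJ
    refine Finset.disjoint_left.2 fun z hz hzJ => ?_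
    rcases mem_insert.1 hz with h | hz
    · exact (hH.ok J hJ).disj _ hzJ (h ▸ hx)
    · obtain ⟨I, hI, hzI⟩ := mem_biUnion.1 hz
      have := top_inj hH.disj (mem_filter.1 (hA hI)).1 hJ hzI hzJ
      exact hxJ (this ▸ (mem_filter.1 (hA hI)).2)
  refine ⟨fun I hI => ?_, fun I hI J hJ hne => ?_, fun y => ?_, fun y => ?_, fun y z hz => ?_,
    fun y hy => ?_, fun y hy => ?_⟩
  · rcases hmem I hI with ⟨hk, rfl⟩ | h
    · exact hnew hk
    · exact hrest I h
  · rcases hmem I hI with ⟨-, rfl⟩ | h <;> rcases hmem J hJ with ⟨-, rfl⟩ | h'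
    · exact absurd rfl hne
    · exact hnd J h'
    · exact (hnd I h).symm
    · exact hH.disj I (mem_filter.1 h).1 J (mem_filter.1 h').1 hne
  · by_cases hy : y = x
    · subst hy; simpa [stepD] using h1
    · simpa [stepD, hy] using hH.out_card y
  · by_cases hy : y = x
    · subst hy; simpa [stepD] using card_image_le.trans h2
    · simpa [stepD, hy] using hH.lin_card y
  · by_cases hy : y = x
    · subst hy
      simp only [stepD, Function.update_self, mem_filter] at hz
      exact Or.inl (mem_erase.2 ⟨hz.2.ne', hz.1⟩)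
    · simp only [stepD, Function.update_of_ne hy] at hz ⊢
      have hyU : y ∉ U := fun h => by simp [hH.out_U y h] at hz
      by_cases hzx : z = x
      · subst hzx
        rw [Function.update_self]
        exact Or.inr (hH.rank_lt y hyU)
      · rw [Function.update_of_ne hzx]
        rcases hH.out_rank y z hz with h | h
        · exact Or.inl (mem_erase.2 ⟨hzx, h⟩)
        · exact Or.inr h
  · obtain ⟨hyx, hyU⟩ := mem_erase.1 hy
    simp [stepD, hyx, hH.out_U y hyU]
  · have hUc : U.card ≤ Fintype.card β := card_le_univ U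
    have hpos : 0 < U.card := card_pos.2 ⟨x, hx⟩
    rw [card_erase_of_mem hx]
    by_cases hyx : y = x
    · subst hyx
      simp only [stepD, Function.update_self]
      omega
    · simp only [stepD, Function.update_of_ne hyx]
      have := hH.rank_lt y fun h => hy (mem_erase.2 ⟨hyx, h⟩)
      omega

end Step

section Embedding

variable {H : SimpleGraph β} {N l : ℝ} {K1 K2 : ℕ} {U : Finset β} {items : Finset (Item β)}
  {D : Deco β} {F : SimpleGraph α} [DecidableRel F.Adj] {φ : α ↪ β}

/-- The representatives of the live items of `φ`. -/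
def liveSet (U : Finset β) (φ : α ↪ β) (p : PS α) : Finset α :=
  (repSet U φ p).filter fun r => r ∉ p.rt

open Classical in
/-- The neighbours of `x` used by `φ`. -/
noncomputable def chS (H : SimpleGraph β) [DecidableRel H.Adj] (F : SimpleGraph α) (U : Finset β)
    (φ : α ↪ β) (x : β) : Finset β :=
  (U.filter (H.Adj x)).filter fun y => ∃ a b, F.Adj a b ∧ φ a = x ∧ φ b = y

open Classical in
/-- The items at `x` that belong to `φ`. -/
noncomputable def chA (U : Finset β) (items : Finset (Item β)) (φ : α ↪ β) (p : PS α) (x : β) :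
    Finset (Item β) :=
  (items.filter fun I => x ∈ I.T).filter fun I => ∃ r ∈ liveSet U φ p, φ r = I.top

omit [Fintype β] [DecidableEq α] [DecidableRel F.Adj] in
lemma chS_subset [DecidableRel H.Adj] (x : β) : chS H F U φ x ⊆ U.filter (H.Adj x) := by
  classical unfold chS; exact filter_subset _ _

omit [Fintype β] in
lemma chA_subset (p : PS α) (x : β) :
    chA U items φ p x ⊆ items.filter fun I => x ∈ I.T := by
  unfold chA; exact filter_subset _ _

/-- The clusters absorbed at `u`. -/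
def absorbed (F : SimpleGraph α) [DecidableRel F.Adj] (U : Finset β) (D : Deco β) (φ : α ↪ β)
    (p : PS α) (u : α) : Finset α :=
  (liveSet U φ p).filter fun r => u ∈ heads (odarts F D φ) (fib p.cl r)

open Classical in
/-- The new link edges at `u`. -/
noncomputable def linkDarts (U : Finset β) (items : Finset (Item β)) (φ : α ↪ β) (p : PS α)
    (x : β) (u : α) : Finset (α × α) :=
  univ.filter fun d => d.2 = u ∧ ∃ I ∈ chA U items φ p x, linkV x I = φ d.1

open Classical in
/-- The new certificate of `φ` after removing `x = φ u`. -/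
noncomputable def hitPS (H : SimpleGraph β) [DecidableRel H.Adj] (F : SimpleGraph α)
    [DecidableRel F.Adj] (N l : ℝ) (U : Finset β) (items : Finset (Item β)) (D : Deco β)
    (φ : α ↪ β) (p : PS α) (x : β) (u : α) : PS α where
  rt := if IsKept N l (mkItem x (chS H F U φ x) (chA U items φ p x)) then p.rt else insert u p.rt
  M := p.M ∪ linkDarts U items φ p x u
  cl := fun w => if p.cl w ∈ absorbed F U D φ p u then u else p.cl w

open Classical in
/-- The new certificate of `φ`. -/
noncomputable def stepPS (H : SimpleGraph β) [DecidableRel H.Adj] (F : SimpleGraph α)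
    [DecidableRel F.Adj] (N l : ℝ) (U : Finset β) (items : Finset (Item β)) (D : Deco β)
    (φ : α ↪ β) (p : PS α) (x : β) : PS α :=
  if h : ∃ u, φ u = x then hitPS H F N l U items D φ p x h.choose else p

omit [DecidableEq α] in
lemma tail_done (hH : HInv H N l K1 K2 U items D) {d : α × α} (hd : d ∈ odarts F D φ) :
    φ d.1 ∉ U := by
  intro h
  have := (mem_filter.1 hd).2.2
  simp [hH.out_U _ h] at this

omit [DecidableEq α] in
lemma dart_inj (hH : HInv H N l K1 K2 U items D) :
    Set.InjOn (fun d : α × α => s(φ d.1, φ d.2)) (odarts F D φ) := by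
  rintro ⟨a, b⟩ hab ⟨c, d⟩ hcd h
  rcases Sym2.eq_iff.1 h with ⟨h1, h2⟩ | ⟨h1, h2⟩
  · exact Prod.ext (φ.injective h1) (φ.injective h2)
  · obtain rfl := φ.injective h1
    obtain rfl := φ.injective h2
    have h3 := tail_done hH hab
    have h4 := tail_done hH hcd
    rcases hH.out_rank _ _ (mem_filter.1 hab).2.2 with h5 | h5
    · exact absurd h5 h4
    rcases hH.out_rank _ _ (mem_filter.1 hcd).2.2 with h6 | h6
    · exact absurd h6 h3
    simp only at h5 h6
    omega

variable [DecidableRel H.Adj] {p : PS α} {x : β}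

lemma pinv_step_free (hP : PInv F N l U items D φ p) (hfree : ∀ a, φ a ≠ x) (S : Finset β) (A : Finset (Item β)) :
    PInv F N l (U.erase x) (stepItems N l items x S A) (stepD H U items D x A) φ p := by
  classical
  set D' := stepD H U items D x A with hD'
  have hU : ∀ a, φ a ∈ U.erase x ↔ φ a ∈ U := fun a => by simp [hfree a]
  have hdone : doneSet (U.erase x) φ = doneSet U φ := by ext a; simp [doneSet, hU]
  have hrep : repSet (U.erase x) φ p = repSet U φ p := by simp [repSet, hdone]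
  have hout : ∀ a, D'.out (φ a) = D.out (φ a) := fun a => by simp [hD', stepD, hfree a]
  have hrank : ∀ a, D'.rank (φ a) = D.rank (φ a) := fun a => by simp [hD', stepD, hfree a]
  have hlin : ∀ a, D'.lin (φ a) = D.lin (φ a) := fun a => by simp [hD', stepD, hfree a]
  have hch : ∀ a, D'.childs (φ a) = D.childs (φ a) := fun a => by simp [hD', stepD, hfree a]
  have hO : odarts F D' φ = odarts F D φ := by simp [odarts, hout]
  have hitems : ∀ I ∈ items, x ∉ I.T → I ∈ stepItems N l items x S A := by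
    intro I hI hxI
    unfold stepItems
    split_ifs <;> simp [hI, hxI]
  constructor
  · intro a ha; exact hP.cl_undone a ((hU a).1 ha)
  · intro a ha; rw [hU] at ha; rw [hU]; exact hP.cl_done a ha
  · intro r hr; rw [hU]; exact hP.rt_sub r hr
  · intro a b hab ha
    rw [hU] at ha
    rw [hout, hout, hU]
    exact hP.orient a b hab ha
  · intro d hd; rw [hO, hU]; exact hP.M_sub d hd
  · rw [hrep, hdone]; exact hP.M_card
  · intro r hr hcl hrt
    rw [hU] at hr
    rw [hO]
    obtain ⟨I, hI, h1, h2, h3, h4⟩ := hP.live r hr hcl hrt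
    refine ⟨I, hitems I hI ?_, h1, h2, h3, h4⟩
    rw [h4]
    simp [hfree]
  · intro r hr; rw [hU] at hr; exact hP.conn r hr
  · intro u hu; rw [hlin]; exact hP.lin u hu
  · intro u hu hrt; rw [hU] at hu; rw [hch]; exact hP.kept u hu hrt
  · intro u hu hcl
    rw [hU] at hu
    obtain ⟨htop, w, hw1, hw2, hw3, hw4⟩ := hP.parent u hu hcl
    refine ⟨fun I hI => ?_, w, (hU w).not.2 hw1, hw2, ?_, by rw [hrank, hrank]; exact hw4⟩
    · unfold stepItems at hI
      split_ifs at hI
      · rcases mem_insert.1 hI with rfl | hI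
        · exact fun h => hfree u h.symm
        · exact htop I (mem_filter.1 hI).1
      · exact htop I (mem_filter.1 hI).1
    · rw [hw3]
      simp only [hD', stepD]
      rw [if_neg]
      rintro ⟨I, hI, -, h⟩
      exact htop I hI h
  · intro u hu; rw [hU] at hu; rw [hrank, hrank]; exact hP.rank_cl u hu
  · intro r hr; rw [hO]; exact hP.rt_weight r hr
  · intro r hr; rw [hO]; exact hP.rt_nonroot r hr
  · intro r hr h hh
    rw [hO] at hh
    rw [hU, hrank, hrank]
    exact hP.rt_heads r hr h hh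

open Classical in
lemma pinv_step_hit (hH : HInv H N l K1 K2 U items D) (hP : PInv F N l U items D φ p)
    (hhom : ∀ a b, F.Adj a b → H.Adj (φ a) (φ b)) (hx : x ∈ U) {u : α} (hux : φ u = x)
    {S : Finset β} {A : Finset (Item β)} (hS : S ⊆ U.filter (H.Adj x))
    (hA : A ⊆ items.filter fun I => x ∈ I.T)
    (hlpos : 0 ≤ l) (hc : IsKept N l (mkItem x (chS H F U φ x) (chA U items φ p x)) →
      S = chS H F U φ x ∧ A = chA U items φ p x) :
    PInv F N l (U.erase x) (stepItems N l items x S A) (stepD H U items D x A) φ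
        (hitPS H F N l U items D φ p x u) ∧
      costOn K1 K2 (hitPS H F N l U items D φ p x u).M
          (doneSet (U.erase x) φ \ (hitPS H F N l U items D φ p x u).rt) =
        costOn K1 K2 p.M (doneSet U φ \ p.rt) *
          if IsKept N l (mkItem x (chS H F U φ x) (chA U items φ p x)) then
            (2 : ℝ) ^ K1 * 2 ^ ((chA U items φ p x).card + 1) *
              K2.choose (chA U items φ p x).card
          else 1 := by
  classical
  subst hux
  set x := φ u with hxdef
  set D' := stepD H U items D x A with hD'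
  set p' := hitPS H F N l U items D φ p x u with hp'
  set O := odarts F D φ with hOdef
  set O' := odarts F D' φ with hO'def
  set B := chA U items φ p x with hBdef
  set R := absorbed F U D φ p u with hRdef
  set Mn := linkDarts U items φ p x u with hMndef
  -- basic facts
  have hclu : p.cl u = u := hP.cl_undone u hx
  have hU' : ∀ a, φ a ∈ U.erase x ↔ a ≠ u ∧ φ a ∈ U := fun a => by
    simp [hxdef]
  have hne : ∀ a, φ a ∉ U → a ≠ u := fun a ha e => ha (e ▸ hx)
  have hpos : ∀ a, φ a ∈ U → a ≠ u → φ a ∈ U.erase x := fun a h1 h2 => (hU' a).2 ⟨h2, h1⟩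
  have hnU' : ∀ a, φ a ∉ U.erase x → a = u ∨ φ a ∉ U := fun a ha => by
    rw [hU'] at ha; tauto
  have hUn : ∀ a, φ a ∉ U → φ a ∉ U.erase x := fun a ha h => ha (mem_of_mem_erase h)
  have hout : ∀ a, a ≠ u → D'.out (φ a) = D.out (φ a) := fun a ha => by
    simp [hD', stepD, hxdef, ha]
  have houtu : D'.out x = U.filter (H.Adj x) := by simp [hD', stepD]
  have hrank : ∀ a, a ≠ u → D'.rank (φ a) = D.rank (φ a) := fun a ha => by
    simp [hD', stepD, hxdef, ha]
  have hranku : D'.rank x = Fintype.card β - U.card := by simp [hD', stepD]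
  have hOtail : ∀ d ∈ O, d.1 ≠ u := fun d hd => hne _ (tail_done hH hd)
  have hO : ∀ d, d ∈ O' ↔ d ∈ O ∨ (d.1 = u ∧ F.Adj u d.2 ∧ φ d.2 ∈ U) := by
    rintro ⟨a, b⟩
    by_cases ha : a = u
    · subst ha
      have h0 : D.out (φ a) = ∅ := hH.out_U _ hx
      have h1 : D'.out (φ a) = U.filter (H.Adj (φ a)) := houtu
      simp only [hO'def, hOdef, odarts, mem_filter, mem_univ, true_and, h0, h1, notMem_empty,
        and_false, false_or]
      exact ⟨fun h => ⟨h.1, h.2.1⟩, fun h => ⟨h.1, h.2, hhom _ _ h.1⟩⟩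
    · simp [hO'def, hOdef, odarts, hout a ha, ha]
  have hdf : ∀ T : Finset α, u ∉ T → dartsFrom O' T = dartsFrom O T := by
    intro T hT
    ext d
    simp only [dartsFrom, mem_filter, hO]
    constructor
    · rintro ⟨h | h, h'⟩
      · exact ⟨h, h'⟩
      · exact absurd (h.1 ▸ h') hT
    · rintro ⟨h, h'⟩; exact ⟨Or.inl h, h'⟩
  have hhd : ∀ T : Finset α, u ∉ T → heads O' T = heads O T := fun T hT => by
    simp [heads, hdf T hT]
  have hfibdone : ∀ r, φ r ∉ U → ∀ w ∈ fib p.cl r, φ w ∉ U := by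
    intro r hr w hw hwU
    simp only [fib, mem_filter, mem_univ, true_and] at hw
    rw [hP.cl_undone w hwU] at hw
    exact hr (hw ▸ hwU)
  have hufib : ∀ r, φ r ∉ U → u ∉ fib p.cl r := fun r hr h => hfibdone r hr u h hx
  -- absorbed clusters
  have hR : ∀ r ∈ R, φ r ∉ U ∧ p.cl r = r ∧ r ∉ p.rt ∧ u ∈ heads O (fib p.cl r) := by
    intro r hr
    simp only [hRdef, absorbed, liveSet, repSet, doneSet, mem_filter, mem_univ, true_and] at hr
    exact ⟨hr.1.1.1, hr.1.1.2, hr.1.2, hr.2⟩
  have huR : u ∉ R := fun h => (hR u h).1 hx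
  have hRitem : ∀ r ∈ R, ∃ I ∈ B, I.top = φ r ∧ I.Z = (fib p.cl r).image φ ∧
      I.P = (dartsFrom O (fib p.cl r)).image (fun d => s(φ d.1, φ d.2)) ∧
      I.T = (heads O (fib p.cl r)).image φ := by
    intro r hr
    obtain ⟨h1, h2, h3, h4⟩ := hR r hr
    obtain ⟨I, hI, hI1, hI2, hI3, hI4⟩ := hP.live r h1 h2 h3
    refine ⟨I, ?_, hI1, hI2, hI3, hI4⟩
    simp only [hBdef, chA, mem_filter]
    exact ⟨⟨hI, hI4 ▸ mem_image_of_mem φ h4⟩, r,
      by simp [liveSet, repSet, doneSet, h1, h2, h3], hI1.symm⟩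
  have hBitems : ∀ I ∈ B, I ∈ items ∧ x ∈ I.T := fun I hI => by
    simp only [hBdef, chA, mem_filter] at hI
    exact hI.1
  have htop : ∀ I ∈ items, ∀ J ∈ items, I.top = J.top → I = J := fun I hI J hJ h =>
    top_inj hH.disj hI hJ (hH.ok I hI).top_mem (h ▸ (hH.ok J hJ).top_mem)
  have hBR : ∀ I ∈ B, ∃ r ∈ R, I.top = φ r ∧ I.Z = (fib p.cl r).image φ ∧
      I.P = (dartsFrom O (fib p.cl r)).image (fun d => s(φ d.1, φ d.2)) ∧
      I.T = (heads O (fib p.cl r)).image φ := by
    intro I hI
    have hI' := hI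
    simp only [hBdef, chA, mem_filter] at hI'
    obtain ⟨⟨hIi, hxI⟩, r, hr, hrI⟩ := hI'
    have hr' := hr
    simp only [liveSet, repSet, doneSet, mem_filter, mem_univ, true_and] at hr'
    obtain ⟨⟨h1, h2⟩, h3⟩ := hr'
    obtain ⟨J, hJ, hJ1, hJ2, hJ3, hJ4⟩ := hP.live r h1 h2 h3
    obtain rfl := htop I hIi J hJ (hrI.symm.trans hJ1.symm)
    refine ⟨r, ?_, hJ1, hJ2, hJ3, hJ4⟩
    simp only [hRdef, absorbed, mem_filter]
    refine ⟨hr, ?_⟩
    rw [hJ4, hxdef] at hxI
    obtain ⟨a, ha, hax⟩ := mem_image.1 hxI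
    exact φ.injective hax ▸ ha
  have hBcard : B.card = R.card := by
    have : B.image (·.top) = R.image φ := by
      ext y
      simp only [mem_image]
      constructor
      · rintro ⟨I, hI, rfl⟩
        obtain ⟨r, hr, h, -⟩ := hBR I hI
        exact ⟨r, hr, h.symm⟩
      · rintro ⟨r, hr, rfl⟩
        obtain ⟨I, hI, h, -⟩ := hRitem r hr
        exact ⟨I, hI, h⟩
    rw [← card_image_of_injective R φ.injective, ← this, card_image_of_injOn]
    exact fun I hI J hJ h => htop I (hBitems I hI).1 J (hBitems J hJ).1 h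
  -- link darts
  have hMn : ∀ d ∈ Mn, d.2 = u ∧ p.cl d.1 ∈ R ∧ d ∈ O ∧ φ d.1 ∉ U ∧
      ∃ I ∈ B, linkV x I = φ d.1 ∧ I.top = φ (p.cl d.1) := by
    intro d hd
    simp only [hMndef, linkDarts, mem_filter, mem_univ, true_and] at hd
    obtain ⟨hd2, I, hI, hId⟩ := hd
    obtain ⟨r, hr, h1, h2, h3, -⟩ := hBR I hI
    obtain ⟨hz, hzP⟩ := linkV_spec (hH.ok I (hBitems I hI).1) (hBitems I hI).2
    rw [hId, h2] at hz
    obtain ⟨a, ha, had⟩ := mem_image.1 hz
    obtain rfl := φ.injective had
    have hcl : p.cl d.1 = r := (mem_filter.1 ha).2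
    have htd : φ d.1 ∉ U := hfibdone r (hR r hr).1 _ ha
    refine ⟨hd2, hcl ▸ hr, ?_, htd, I, hI, hId, hcl ▸ h1⟩
    rw [hId, h3] at hzP
    obtain ⟨d', hd', he⟩ := mem_image.1 hzP
    have hd'O : d' ∈ O := (mem_filter.1 hd').1
    rcases Sym2.eq_iff.1 he with ⟨e1, e2⟩ | ⟨e1, -⟩
    · rw [show d = d' from Prod.ext (φ.injective e1).symm
        (hd2.trans (φ.injective e2).symm)]
      exact hd'O
    · exact absurd (φ.injective e1) (hOtail d' hd'O)
  have hMnR : ∀ r ∈ R, ∃ d ∈ Mn, p.cl d.1 = r := by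
    intro r hr
    obtain ⟨I, hI, -, h2, -, -⟩ := hRitem r hr
    obtain ⟨hz, -⟩ := linkV_spec (hH.ok I (hBitems I hI).1) (hBitems I hI).2
    rw [h2] at hz
    obtain ⟨a, ha, haI⟩ := mem_image.1 hz
    refine ⟨(a, u), ?_, (mem_filter.1 ha).2⟩
    simp only [hMndef, linkDarts, mem_filter, mem_univ, true_and]
    exact ⟨I, hI, haI.symm⟩
  have hMncard : Mn.card = R.card := by
    refine card_bij (fun d _ => p.cl d.1) (fun d hd => (hMn d hd).2.1) ?_ ?_
    · intro d hd d' hd' h
      obtain ⟨e1, -, -, -, I, hI, f1, g1⟩ := hMn d hd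
      obtain ⟨e2, -, -, -, J, hJ, f2, g2⟩ := hMn d' hd'
      obtain rfl := htop I (hBitems I hI).1 J (hBitems J hJ).1 (by rw [g1, g2, h])
      exact Prod.ext (φ.injective (f1.symm.trans f2)) (e1.trans e2.symm)
    · exact fun r hr => (hMnR r hr).elim fun d hd => ⟨d, hd.1, hd.2⟩
  have hdisjM : Disjoint p.M Mn := Finset.disjoint_left.2 fun d hd hd' =>
    (hP.M_sub d hd).2.1 ((hMn d hd').1 ▸ hx)
  have hMe : p'.M = p.M ∪ Mn := rfl
  have hinu : inEdges p'.M u = Mn.image Prod.fst := by
    ext a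
    simp only [inEdges, hMe, mem_image, mem_filter, mem_union]
    constructor
    · rintro ⟨d, ⟨hd | hd, h2⟩, rfl⟩
      · exact absurd (h2 ▸ hx) (hP.M_sub d hd).2.1
      · exact ⟨d, hd, rfl⟩
    · rintro ⟨d, hd, rfl⟩; exact ⟨d, ⟨Or.inr hd, (hMn d hd).1⟩, rfl⟩
  have hin : ∀ a, a ≠ u → inEdges p'.M a = inEdges p.M a := by
    intro a ha
    simp only [inEdges, hMe, filter_union]
    rw [filter_eq_empty_iff.2 fun d hd (e : d.2 = a) => ha (e ▸ (hMn d hd).1), union_empty]
  have hinimg : (inEdges p'.M u).image φ = B.image (linkV x) := by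
    rw [hinu]
    ext y
    simp only [mem_image]
    constructor
    · rintro ⟨a, ⟨d, hd, rfl⟩, rfl⟩
      obtain ⟨-, -, -, -, I, hI, h, -⟩ := hMn d hd
      exact ⟨I, hI, h⟩
    · rintro ⟨I, hI, rfl⟩
      obtain ⟨r, hr, -, h2, -, -⟩ := hBR I hI
      obtain ⟨hz, -⟩ := linkV_spec (hH.ok I (hBitems I hI).1) (hBitems I hI).2
      rw [h2] at hz
      obtain ⟨a, ha, haI⟩ := mem_image.1 hz
      exact ⟨a, ⟨(a, u), by
        simp only [hMndef, linkDarts, mem_filter, mem_univ, true_and]
        exact ⟨I, hI, haI.symm⟩, rfl⟩, haI⟩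
  have hjcard : (inEdges p'.M u).card = B.card := by
    rw [hinu, card_image_of_injOn, hMncard, hBcard]
    intro d hd d' hd' h
    exact Prod.ext h ((hMn d hd).1.trans (hMn d' hd').1.symm)
  -- the new cluster
  set Su := insert u (R.biUnion (fib p.cl)) with hSu
  have hcl' : ∀ w, p'.cl w = if p.cl w ∈ R then u else p.cl w := fun w => rfl
  have hclu' : p'.cl u = u := by rw [hcl', hclu, if_neg huR]
  have hfibu : fib p'.cl u = Su := by
    ext w
    simp only [fib, hSu, mem_filter, mem_univ, true_and, mem_insert, mem_biUnion, hcl']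
    constructor
    · intro h
      split_ifs at h with hh
      · exact Or.inr ⟨_, hh, rfl⟩
      · left
        by_contra hw
        by_cases hwU : φ w ∈ U
        · exact hw (hP.cl_undone w hwU ▸ h)
        · exact (hP.cl_done w hwU).1 (h ▸ hx)
    · rintro (rfl | ⟨r, hr, rfl⟩)
      · rw [hclu, if_neg huR]
      · rw [if_pos hr]
  have hfib : ∀ r, r ≠ u → r ∉ R → fib p'.cl r = fib p.cl r := by
    intro r hru hrR
    ext w
    simp only [fib, mem_filter, mem_univ, true_and, hcl']
    split_ifs with h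
    · exact ⟨fun e => absurd e.symm hru, fun e => absurd (e ▸ h) hrR⟩
    · exact Iff.rfl
  have hRfib : ∀ r ∈ R, ∀ h ∈ heads O (fib p.cl r), φ h ∈ U := by
    intro r hr h hh
    obtain ⟨I, hI, -, -, -, h4⟩ := hRitem r hr
    exact (hH.ok I (hBitems I hI).1).sub (h4 ▸ mem_image_of_mem φ hh)
  have hchS : ∀ y, y ∈ chS H F U φ x ↔ ∃ b, F.Adj u b ∧ φ b = y ∧ y ∈ U := by
    intro y
    simp only [chS, mem_filter]
    constructor
    · rintro ⟨⟨h1, -⟩, a, b, hab, ha, hb⟩
      obtain rfl := φ.injective (ha : φ a = φ u)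
      exact ⟨b, hab, hb, h1⟩
    · rintro ⟨b, hb, rfl, hy⟩
      exact ⟨⟨hy, hhom _ _ hb⟩, u, b, hb, rfl, rfl⟩
  have hdS : ∀ d, d ∈ dartsFrom O' Su ↔
      (d.1 = u ∧ F.Adj u d.2 ∧ φ d.2 ∈ U) ∨ ∃ r ∈ R, d ∈ dartsFrom O (fib p.cl r) := by
    intro d
    simp only [dartsFrom, mem_filter, hO, hSu, mem_insert, mem_biUnion]
    constructor
    · rintro ⟨h | h, h'⟩
      · rcases h' with h' | ⟨r, hr, h'⟩
        · exact absurd h' (hOtail d h)
        · exact Or.inr ⟨r, hr, h, h'⟩
      · exact Or.inl h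
    · rintro (h | ⟨r, hr, h, h'⟩)
      · exact ⟨Or.inr h, Or.inl h.1⟩
      · exact ⟨Or.inl h, Or.inr ⟨r, hr, h'⟩⟩
  have hZ : (mkItem x (chS H F U φ x) B).Z = Su.image φ := by
    ext y
    simp only [mkItem, hSu, mem_insert, mem_biUnion, image_insert, mem_image]
    constructor
    · rintro (rfl | ⟨I, hI, hy⟩)
      · exact Or.inl rfl
      · obtain ⟨r, hr, -, h2, -, -⟩ := hBR I hI
        rw [h2] at hy
        obtain ⟨a, ha, rfl⟩ := mem_image.1 hy
        exact Or.inr ⟨a, ⟨r, hr, ha⟩, rfl⟩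
    · rintro (rfl | ⟨a, ⟨r, hr, ha⟩, rfl⟩)
      · exact Or.inl rfl
      · obtain ⟨I, hI, -, h2, -, -⟩ := hRitem r hr
        exact Or.inr ⟨I, hI, h2 ▸ mem_image_of_mem φ ha⟩
  have hPe : (mkItem x (chS H F U φ x) B).P =
      (dartsFrom O' Su).image (fun d => s(φ d.1, φ d.2)) := by
    ext e
    simp only [mkItem, mem_union, mem_image, mem_biUnion]
    constructor
    · rintro (⟨y, hy, rfl⟩ | ⟨I, hI, he⟩)
      · obtain ⟨b, hb, rfl, hbU⟩ := (hchS y).1 hy
        exact ⟨(u, b), (hdS _).2 (Or.inl ⟨rfl, hb, hbU⟩), rfl⟩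
      · obtain ⟨r, hr, -, -, h3, -⟩ := hBR I hI
        rw [h3] at he
        obtain ⟨d, hd, rfl⟩ := mem_image.1 he
        exact ⟨d, (hdS d).2 (Or.inr ⟨r, hr, hd⟩), rfl⟩
    · rintro ⟨d, hd, rfl⟩
      rcases (hdS d).1 hd with ⟨h1, h2, h3⟩ | ⟨r, hr, hd'⟩
      · exact Or.inl ⟨φ d.2, (hchS _).2 ⟨d.2, h2, rfl, h3⟩, by rw [h1]⟩
      · obtain ⟨I, hI, -, -, h3, -⟩ := hRitem r hr
        exact Or.inr ⟨I, hI, h3 ▸ mem_image_of_mem _ hd'⟩
  have hheads : ∀ h, h ∈ heads O' Su ↔
      h ≠ u ∧ ((F.Adj u h ∧ φ h ∈ U) ∨ ∃ r ∈ R, h ∈ heads O (fib p.cl r)) := by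
    intro h
    have hout' : φ h ∈ U → h ≠ u → h ∉ Su := by
      intro h1 h2 h3
      rcases mem_insert.1 h3 with e | e
      · exact h2 e
      · obtain ⟨r, hr, hr'⟩ := mem_biUnion.1 e
        exact hfibdone r (hR r hr).1 h hr' h1
    simp only [heads, mem_sdiff, mem_image]
    constructor
    · rintro ⟨⟨d, hd, rfl⟩, hnS⟩
      refine ⟨fun e => hnS (e ▸ mem_insert_self _ _), ?_⟩
      rcases (hdS d).1 hd with h | ⟨r, hr, hd'⟩
      · exact Or.inl h.2
      · refine Or.inr ⟨r, hr, ⟨d, hd', rfl⟩, fun h' => hnS ?_⟩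
        exact mem_insert_of_mem (mem_biUnion.2 ⟨r, hr, h'⟩)
    · rintro ⟨hu', ⟨h1, h2⟩ | ⟨r, hr, hh⟩⟩
      · exact ⟨⟨(u, h), (hdS _).2 (Or.inl ⟨rfl, h1, h2⟩), rfl⟩, hout' h2 hu'⟩
      · have hU2 : φ h ∈ U := hRfib r hr h (mem_sdiff.2 ⟨mem_image.2 hh.1, hh.2⟩)
        obtain ⟨⟨d, hd, rfl⟩, -⟩ := hh
        exact ⟨⟨d, (hdS d).2 (Or.inr ⟨r, hr, hd⟩), rfl⟩, hout' hU2 hu'⟩
  have hT : (mkItem x (chS H F U φ x) B).T = (heads O' Su).image φ := by
    ext y
    simp only [mkItem, mem_erase, mem_union, mem_biUnion, mem_image, hheads]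
    constructor
    · rintro ⟨hy, h | ⟨I, hI, h⟩⟩
      · obtain ⟨b, hb, rfl, hbU⟩ := (hchS y).1 h
        exact ⟨b, ⟨fun e => hy (e ▸ rfl), Or.inl ⟨hb, hbU⟩⟩, rfl⟩
      · obtain ⟨r, hr, -, -, -, h4⟩ := hBR I hI
        rw [h4] at h
        obtain ⟨a, ha, rfl⟩ := mem_image.1 h
        exact ⟨a, ⟨fun e => hy (e ▸ rfl), Or.inr ⟨r, hr, ha⟩⟩, rfl⟩
    · rintro ⟨a, ⟨hau, h⟩, rfl⟩
      refine ⟨fun e => hau (φ.injective e), ?_⟩
      rcases h with ⟨h1, h2⟩ | ⟨r, hr, h⟩
      · exact Or.inl ((hchS _).2 ⟨a, h1, rfl, h2⟩)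
      · obtain ⟨I, hI, -, -, -, h4⟩ := hRitem r hr
        exact Or.inr ⟨I, hI, h4 ▸ mem_image_of_mem φ h⟩
  have hinj' : Set.InjOn (fun d : α × α => s(φ d.1, φ d.2)) (dartsFrom O' Su) := by
    rintro ⟨a, b⟩ hab ⟨c, d⟩ hcd h
    simp only [coe_filter, dartsFrom, Set.mem_ofPred_eq] at hab hcd
    rcases Sym2.eq_iff.1 h with ⟨h1, h2⟩ | ⟨h1, h2⟩
    · exact Prod.ext (φ.injective h1) (φ.injective h2)
    · obtain rfl := φ.injective h1
      obtain rfl := φ.injective h2
      rcases (hO _).1 hab.1 with h3 | ⟨h3, h3', h3''⟩ <;>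
        rcases (hO _).1 hcd.1 with h4 | ⟨h4, h4', h4''⟩
      · exact dart_inj hH h3 h4 h
      · simp only at h4 h4''
        exact absurd h4'' (tail_done hH h3)
      · simp only at h3''
        exact absurd h3'' (tail_done hH h4)
      · simp only at h3 h4
        rw [h3, h4]
  have hkept : IsKept N l (mkItem x (chS H F U φ x) B) ↔
      (heads O' Su).Nonempty ∧ ((heads O' Su).card : ℝ) < weight N l O' Su := by
    unfold IsKept weight
    rw [hT, hZ, hPe, card_image_of_injOn hinj', card_image_of_injective _ φ.injective,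
      card_image_of_injective _ φ.injective, image_nonempty]
  have hrt' : p'.rt = if IsKept N l (mkItem x (chS H F U φ x) B) then p.rt else insert u p.rt := rfl
  have hrtmem : ∀ r, r ≠ u → (r ∈ p'.rt ↔ r ∈ p.rt) := fun r hr => by
    rw [hrt']; split_ifs <;> simp [hr]
  have hrtold : ∀ r ∈ p.rt, r ≠ u ∧ r ∉ R := fun r hr =>
    ⟨hne r (hP.rt_sub r hr).1, fun h => (hR r h).2.2.1 hr⟩
  have hdone' : doneSet (U.erase x) φ = insert u (doneSet U φ) := by
    ext a
    by_cases ha : a = u <;> simp [doneSet, ha, hxdef]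
  have hudone : u ∉ doneSet U φ := by simp [doneSet, ← hxdef, hx]
  have hitems : ∀ I ∈ items, x ∉ I.T → I ∈ stepItems N l items x S A := by
    intro I hI hxI
    unfold stepItems
    split_ifs <;> simp [hI, hxI]
  have hitems' : ∀ I ∈ stepItems N l items x S A, I.top = x ∨ (I ∈ items ∧ x ∉ I.T) := by
    intro I hI
    unfold stepItems at hI
    split_ifs at hI
    · rcases mem_insert.1 hI with rfl | hI
      · exact Or.inl rfl
      · exact Or.inr (mem_filter.1 hI)
    · exact Or.inr (mem_filter.1 hI)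
  constructor
  · constructor
    · intro a ha
      obtain ⟨hau, haU⟩ := (hU' a).1 ha
      rw [hcl', hP.cl_undone a haU, if_neg fun h => (hR a h).1 haU]
    · intro a ha
      rcases hnU' a ha with rfl | haU
      · rw [hclu']; exact ⟨ha, hclu'⟩
      · obtain ⟨h1, h2⟩ := hP.cl_done a haU
        rw [hcl' a]
        split_ifs with hh
        · exact ⟨fun h => ((hU' u).1 h).1 rfl, hclu'⟩
        · refine ⟨hUn _ h1, ?_⟩
          rw [hcl', h2, if_neg hh]
    · intro r hr
      by_cases hru : r = u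
      · subst hru; exact ⟨fun h => ((hU' r).1 h).1 rfl, hclu'⟩
      · obtain ⟨h1, h2⟩ := hP.rt_sub r ((hrtmem r hru).1 hr)
        refine ⟨hUn _ h1, ?_⟩
        rw [hcl', h2, if_neg (hrtold r ((hrtmem r hru).1 hr)).2]
    · intro a b hab ha
      rcases hnU' a ha with rfl | haU
      · by_cases hbU : φ b ∈ U
        · left
          rw [← hxdef, houtu]
          exact mem_filter.2 ⟨hbU, hhom _ _ hab⟩
        · right
          refine ⟨hUn _ hbU, ?_⟩
          rw [hout b (hne b hbU)]
          exact (hP.orient b a hab.symm hbU).elim id fun h => absurd hx h.1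
      · rw [hout a (hne a haU)]
        rcases hP.orient a b hab haU with h | ⟨h, h'⟩
        · exact Or.inl h
        · exact Or.inr ⟨hUn _ h, by rw [hout b (hne b h)]; exact h'⟩
    · intro d hd
      rw [hMe] at hd
      rcases mem_union.1 hd with hd | hd
      · obtain ⟨h1, h2, h3⟩ := hP.M_sub d hd
        exact ⟨(hO d).2 (Or.inl h1), hUn _ h2, by rw [hcl', hcl', h3]⟩
      · obtain ⟨h1, h2, h3, -, -⟩ := hMn d hd
        refine ⟨(hO d).2 (Or.inl h3), by rw [h1]; exact fun h => ((hU' u).1 h).1 rfl, ?_⟩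
        rw [h1, hclu', hcl', if_pos h2]
    · have hrep : repSet (U.erase x) φ p' = insert u (repSet U φ p \ R) := by
        ext r
        simp only [repSet, hdone', mem_filter, mem_insert, mem_sdiff, hcl']
        by_cases hru : r = u
        · subst hru; simp [hclu, huR]
        · simp only [hru, false_or]
          constructor
          · rintro ⟨h1, h2⟩
            split_ifs at h2 with hh
            · exact absurd h2.symm hru
            · exact ⟨⟨h1, h2⟩, h2 ▸ hh⟩
          · rintro ⟨⟨h1, h2⟩, h3⟩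
            exact ⟨h1, by rw [h2, if_neg h3]⟩
      have hRsub : R ⊆ repSet U φ p := fun r hr => by
        simp [repSet, doneSet, (hR r hr).1, (hR r hr).2.1]
      have hun : u ∉ repSet U φ p \ R := fun h => hudone (mem_filter.1 (mem_sdiff.1 h).1).1
      rw [hMe, card_union_of_disjoint hdisjM, hMncard, hrep, hdone', card_insert_of_notMem hun,
        card_insert_of_notMem hudone, card_sdiff_of_subset hRsub]
      have := hP.M_card
      have := card_le_card hRsub
      omega
    · intro r hr hcl hrt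
      rcases hnU' r hr with rfl | hrU
      · have hk : IsKept N l (mkItem x (chS H F U φ x) B) := by
          by_contra hk
          rw [hrt', if_neg hk] at hrt
          exact hrt (mem_insert_self _ _)
        obtain ⟨rfl, rfl⟩ := hc hk
        refine ⟨mkItem x (chS H F U φ x) B, ?_, rfl, hfibu ▸ hZ, hfibu ▸ hPe, hfibu ▸ hT⟩
        unfold stepItems
        rw [if_pos hk]
        exact mem_insert_self _ _
      · have hru := hne r hrU
        rw [hrtmem r hru] at hrt
        rw [hcl'] at hcl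
        split_ifs at hcl with hh
        · exact absurd hcl.symm hru
        · have hrR : r ∉ R := hcl ▸ hh
          rw [hfib r hru hrR, hdf _ (hufib r hrU), hhd _ (hufib r hrU)]
          obtain ⟨I, hI, h1, h2, h3, h4⟩ := hP.live r hrU hcl hrt
          refine ⟨I, hitems I hI fun hxI => hrR ?_, h1, h2, h3, h4⟩
          rw [h4] at hxI
          obtain ⟨a, ha, hax⟩ := mem_image.1 hxI
          simp only [hRdef, absorbed, liveSet, repSet, doneSet, mem_filter, mem_univ, true_and]
          exact ⟨⟨⟨hrU, hcl⟩, hrt⟩, φ.injective hax ▸ ha⟩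
    · intro r hr hcl T hT' hTne hTall
      rcases hnU' r hr with rfl | hrU
      · rw [hfibu] at hT' hTall
        rw [hMe]
        by_cases hpart : ∃ c ∈ R, (T ∩ fib p.cl c).Nonempty ∧ T ∩ fib p.cl c ≠ fib p.cl c
        · obtain ⟨c, hc', h1, h2⟩ := hpart
          obtain ⟨d, hd, hd1, hd2⟩ :=
            hP.conn c (hR c hc').1 (hR c hc').2.1 _ inter_subset_right h1 h2
          have hd3 : p.cl d.2 = c := (hP.M_sub d hd).2.2 ▸ hd1
          refine ⟨d, mem_union_left _ hd, by rw [hcl', if_pos (hd1 ▸ hc')], fun h => hd2 ?_⟩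
          simp [fib, hd1, hd3, h]
        push Not at hpart
        by_cases huT : r ∈ T
        · obtain ⟨a, haS, haT⟩ : ∃ a ∈ Su, a ∉ T := by
            by_contra h
            push Not at h
            exact hTall (Subset.antisymm hT' h)
          rcases mem_insert.1 haS with rfl | haR
          · exact absurd huT haT
          obtain ⟨c, hc', hac⟩ := mem_biUnion.1 haR
          obtain ⟨d, hd, hd1⟩ := hMnR c hc'
          refine ⟨d, mem_union_right _ hd, by rw [hcl', if_pos (hd1 ▸ hc')], fun h => ?_⟩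
          rw [(hMn d hd).1] at h
          have hne' : (T ∩ fib p.cl c).Nonempty :=
            ⟨d.1, mem_inter.2 ⟨h.2 huT, by simp [fib, hd1]⟩⟩
          exact haT (mem_inter.1 ((hpart c hc' hne').symm ▸ hac)).1
        · obtain ⟨a, haT⟩ := hTne
          rcases mem_insert.1 (hT' haT) with rfl | haR
          · exact absurd haT huT
          obtain ⟨c, hc', hac⟩ := mem_biUnion.1 haR
          obtain ⟨d, hd, hd1⟩ := hMnR c hc'
          refine ⟨d, mem_union_right _ hd, by rw [hcl', if_pos (hd1 ▸ hc')], fun h => ?_⟩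
          rw [(hMn d hd).1] at h
          have hd4 : d.1 ∈ fib p.cl c := by simp [fib, hd1]
          exact huT (h.1 (mem_inter.1
            ((hpart c hc' ⟨a, mem_inter.2 ⟨haT, hac⟩⟩).symm ▸ hd4)).1)
      · have hru := hne r hrU
        rw [hcl'] at hcl
        split_ifs at hcl with hh
        · exact absurd hcl.symm hru
        · have hrR : r ∉ R := hcl ▸ hh
          rw [hfib r hru hrR] at hT' hTall
          obtain ⟨d, hd, hd1, hd2⟩ := hP.conn r hrU hcl T hT' hTne hTall
          exact ⟨d, mem_union_left _ hd, by rw [hcl', hd1, if_neg hrR], hd2⟩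
    · intro r hr
      by_cases hru : r = u
      · subst hru
        rw [hinimg]
        simp only [hD', stepD, ← hxdef, Function.update_self]
        exact image_subset_image fun I hI => mem_filter.2 (hBitems I hI)
      · rw [hin r hru]
        simp only [hD', stepD, hxdef, Function.update_of_ne (fun e => hru (φ.injective e))]
        exact hP.lin r ((hrtmem r hru).1 hr)
    · intro r hr hrt
      rcases hnU' r hr with rfl | hrU
      · have hk : IsKept N l (mkItem x (chS H F U φ x) B) := by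
          by_contra hk
          rw [hrt', if_neg hk] at hrt
          exact hrt (mem_insert_self _ _)
        obtain ⟨-, rfl⟩ := hc hk
        rw [hinimg]
        simp only [hD', stepD, ← hxdef, Function.update_self]
      · have hru := hne r hrU
        rw [hin r hru]
        simp only [hD', stepD, hxdef, Function.update_of_ne (fun e => hru (φ.injective e))]
        exact hP.kept r hrU fun h => hrt ((hrtmem r hru).2 h)
    · intro a ha hcl
      rcases hnU' a ha with rfl | haU
      · exact absurd hclu' hcl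
      have hau := hne a haU
      by_cases hca : p.cl a = a
      · have haR : a ∈ R := by
          by_contra h
          rw [hcl', hca, if_neg h] at hcl
          exact hcl rfl
        obtain ⟨I, hI, hI1, -, -, -⟩ := hRitem a haR
        refine ⟨fun J hJ e => ?_, u, fun h => ((hU' u).1 h).1 rfl, ?_, ?_, ?_⟩
        · rcases hitems' J hJ with h | ⟨h, h'⟩
          · exact hau (φ.injective (e.symm.trans h))
          · exact h' (htop I (hBitems I hI).1 J h (hI1.trans e.symm) ▸ (hBitems I hI).2)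
        · rw [hclu', hcl', hca, if_pos haR]
        · simp only [hD', stepD]
          rw [if_pos ⟨I, (hBitems I hI).1, (hBitems I hI).2, hI1⟩]
        · rw [hrank a hau, ← hxdef, hranku]
          exact hH.rank_lt _ haU
      · obtain ⟨htop', w, hw1, hw2, hw3, hw4⟩ := hP.parent a haU hca
        refine ⟨fun J hJ e => ?_, w, hUn _ hw1, ?_, ?_, ?_⟩
        · rcases hitems' J hJ with h | ⟨h, -⟩
          · exact hau (φ.injective (e.symm.trans h))
          · exact htop' J h e
        · rw [hcl', hcl', hw2]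
        · rw [hw3]
          simp only [hD', stepD]
          rw [if_neg]
          rintro ⟨I, hI, -, h⟩
          exact htop' I hI h
        · rw [hrank a hau, hrank w (hne w hw1)]
          exact hw4
    · intro a ha
      rcases hnU' a ha with rfl | haU
      · rw [hclu']
      · rw [hrank a (hne a haU), hcl']
        split_ifs with hh
        · rw [← hxdef, hranku]
          exact (hH.rank_lt _ haU).le
        · rw [hrank _ (hne _ (hP.cl_done a haU).1)]
          exact hP.rank_cl a haU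
    · intro r hr hne'
      by_cases hru : r = u
      · subst hru
        rw [hfibu] at hne' ⊢
        have hk : ¬ IsKept N l (mkItem x (chS H F U φ x) B) := by
          intro hk
          rw [hrt', if_pos hk] at hr
          exact (hP.rt_sub r hr).1 hx
        rw [hkept] at hk
        exact not_lt.1 fun h => hk ⟨hne', h⟩
      · have hr' := (hrtmem r hru).1 hr
        rw [hfib r hru (hrtold r hr').2, hhd _ (hufib r (hP.rt_sub r hr').1)] at hne' ⊢
        unfold weight
        rw [hdf _ (hufib r (hP.rt_sub r hr').1)]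
        exact hP.rt_weight r hr' hne'
    · intro r hr
      by_cases hru : r = u
      · subst hru
        rw [hfibu]
        have hd : ∀ c ∈ R, ∀ c' ∈ R, c ≠ c' → Disjoint (fib p.cl c) (fib p.cl c') := by
          intro c _ c' _ hcc
          refine Finset.disjoint_left.2 fun a h h' => hcc ?_
          exact (mem_filter.1 h).2.symm.trans (mem_filter.1 h').2
        have hcard : Su.card = (∑ c ∈ R, (fib p.cl c).card) + 1 := by
          rw [hSu, card_insert_of_notMem, card_biUnion hd]
          intro h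
          obtain ⟨c, hc', hcu⟩ := mem_biUnion.1 h
          exact hufib c (hR c hc').1 hcu
        have hsub : R.biUnion (fun c => dartsFrom O (fib p.cl c)) ⊆ dartsFrom O' Su := by
          intro d hd'
          obtain ⟨c, hc', hdc⟩ := mem_biUnion.1 hd'
          exact (hdS d).2 (Or.inr ⟨c, hc', hdc⟩)
        have hsum : ∀ c ∈ R, ((fib p.cl c).card : ℝ) * N ≤ (dartsFrom O (fib p.cl c)).card * l := by
          intro c hc'
          obtain ⟨I, hI, -, h2, h3, -⟩ := hRitem c hc'
          have := (hH.ok I (hBitems I hI).1).pos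
          have hinjc : Set.InjOn (fun d : α × α => s(φ d.1, φ d.2))
              (dartsFrom O (fib p.cl c) : Set (α × α)) :=
            (dart_inj hH).mono fun d hd' => (mem_filter.1 hd').1
          rw [h2, h3, card_image_of_injective _ φ.injective, card_image_of_injOn hinjc] at this
          have h0 : (0 : ℝ) ≤ (I.T.card : ℝ) := Nat.cast_nonneg _
          linarith
        have hcardsub := card_le_card hsub
        rw [card_biUnion] at hcardsub
        · rw [hcard]
          push_cast
          rw [add_sub_cancel_right, sum_mul]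
          refine (sum_le_sum hsum).trans ?_
          rw [← sum_mul]
          exact mul_le_mul_of_nonneg_right (by exact_mod_cast hcardsub) hlpos
        · intro c hc' c' hc'' hcc
          refine Finset.disjoint_left.2 fun d h h' => ?_
          exact Finset.disjoint_left.1 (hd c hc' c' hc'' hcc)
            (mem_filter.1 h).2 (mem_filter.1 h').2
      · have hr' := (hrtmem r hru).1 hr
        rw [hfib r hru (hrtold r hr').2, hdf _ (hufib r (hP.rt_sub r hr').1)]
        exact hP.rt_nonroot r hr'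
    · intro r hr h hh
      by_cases hru : r = u
      · subst hru
        rw [hfibu, hheads] at hh
        rcases hh.2 with ⟨-, h2⟩ | ⟨c, hc', hc''⟩
        · exact Or.inl (hpos h h2 hh.1)
        · exact Or.inl (hpos h (hRfib c hc' h hc'') hh.1)
      · have hr' := (hrtmem r hru).1 hr
        rw [hfib r hru (hrtold r hr').2, hhd _ (hufib r (hP.rt_sub r hr').1)] at hh
        rw [hrank r hru]
        by_cases hhu : h = u
        · subst hhu
          right
          rw [← hxdef, hranku]
          exact hH.rank_lt _ (hP.rt_sub r hr').1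
        · rw [hrank h hhu]
          exact (hP.rt_heads r hr' h hh).imp_left fun h' => hpos h h' hhu
  · -- the cost
    have hcongr : ∀ T : Finset α, u ∉ T → costOn K1 K2 p'.M T = costOn K1 K2 p.M T := by
      intro T hT
      refine prod_congr rfl fun a ha => ?_
      rw [hin a fun e => hT (e ▸ ha)]
    split_ifs with hk
    · rw [hrt', if_pos hk, hdone', insert_sdiff_of_notMem _ fun h => (hP.rt_sub u h).1 hx]
      unfold costOn
      rw [prod_insert fun h => hudone (mem_sdiff.1 h).1, hjcard, mul_comm]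
      congr 1
      exact hcongr _ fun h => hudone (mem_sdiff.1 h).1
    · rw [hrt', if_neg hk, hdone', mul_one]
      have : insert u (doneSet U φ) \ insert u p.rt = doneSet U φ \ p.rt := by
        ext a
        by_cases ha : a = u <;> simp [ha, hudone]
      rw [this]
      exact hcongr _ fun h => hudone (mem_sdiff.1 h).1

end Embedding

section Run

variable {H : SimpleGraph β} [DecidableRel H.Adj] {N l : ℝ} {F : SimpleGraph α}
  [DecidableRel F.Adj]

/-- One step of the process, keeping the total cost. -/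
lemma step_exists (hN : 0 ≤ N) (hl : 0 < l)
    (hw : ∀ (S : Finset β) (E : Finset (Sym2 β)),
      (∀ e ∈ E, e ∈ H.edgeSet ∧ ∀ y ∈ e, y ∈ S) → (E.card : ℝ) * l ≤ S.card * N + 1)
    {U : Finset β} (hU : U.Nonempty) {items : Finset (Item β)} {D : Deco β}
    (hH : HInv H N l ⌊2 * (N + 1) / l⌋₊ ⌊N + 1⌋₊ U items D)
    (Φ : Finset (α ↪ β)) (ps : (α ↪ β) → PS α)
    (hΦ : ∀ φ ∈ Φ, (∀ a b, F.Adj a b → H.Adj (φ a) (φ b)) ∧ PInv F N l U items D φ (ps φ)) :
    ∃ x ∈ U, ∃ (items' : Finset (Item β)) (D' : Deco β) (Φ' : Finset (α ↪ β))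
      (ps' : (α ↪ β) → PS α),
      HInv H N l ⌊2 * (N + 1) / l⌋₊ ⌊N + 1⌋₊ (U.erase x) items' D' ∧
      (∀ φ ∈ Φ', (∀ a b, F.Adj a b → H.Adj (φ a) (φ b)) ∧
        PInv F N l (U.erase x) items' D' φ (ps' φ)) ∧
      ∑ φ ∈ Φ, costOn ⌊2 * (N + 1) / l⌋₊ ⌊N + 1⌋₊ (ps φ).M (doneSet U φ \ (ps φ).rt) ≤
        ∑ φ ∈ Φ', costOn ⌊2 * (N + 1) / l⌋₊ ⌊N + 1⌋₊ (ps' φ).M
          (doneSet (U.erase x) φ \ (ps' φ).rt) := by
  classical
  set K1 := ⌊2 * (N + 1) / l⌋₊
  set K2 := ⌊N + 1⌋₊
  obtain ⟨x, hx, hd, hk⟩ := exists_pick hN hl hw hU hH.ok hH.disj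
  set out0 := U.filter (H.Adj x) with hout0
  set at0 := items.filter (fun I => x ∈ I.T) with hat0
  set C := out0.powerset ×ˢ at0.powerset with hC
  set w : Finset β × Finset (Item β) → ℝ := fun c =>
    (1 / 2 ^ out0.card) * (1 / (2 ^ (c.2.card + 1) * at0.card.choose c.2.card)) with hwdef
  set ps' : (α ↪ β) → PS α := fun φ => stepPS H F N l U items D φ (ps φ) x with hps'
  set ok : Finset β × Finset (Item β) → (α ↪ β) → Prop := fun c φ => ∀ u, φ u = x →
    IsKept N l (mkItem x (chS H F U φ x) (chA U items φ (ps φ) x)) →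
      c.1 = chS H F U φ x ∧ c.2 = chA U items φ (ps φ) x with hok
  set cost' : (α ↪ β) → ℝ := fun φ =>
    costOn K1 K2 (ps' φ).M (doneSet (U.erase x) φ \ (ps' φ).rt) with hcost'
  set cost : (α ↪ β) → ℝ := fun φ => costOn K1 K2 (ps φ).M (doneSet U φ \ (ps φ).rt) with hcost
  have hcnn : ∀ (M : Finset (α × α)) (S : Finset α), 0 ≤ costOn K1 K2 M S := fun M S =>
    prod_nonneg fun a _ => by positivity
  have hw0 : ∀ c ∈ C, 0 < w c := by
    intro c hc
    have : (0 : ℝ) < at0.card.choose c.2.card := by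
      exact_mod_cast Nat.choose_pos (card_le_card (mem_powerset.1 (mem_product.1 hc).2))
    simp only [hwdef]
    positivity
  have hCne : C.Nonempty := ⟨(∅, ∅), by simp [hC]⟩
  have hW0 : 0 < ∑ c ∈ C, w c := sum_pos hw0 hCne
  have hW1 : ∑ c ∈ C, w c ≤ 1 := by
    calc ∑ c ∈ C, w c = ∑ _S ∈ out0.powerset, (1 / 2 ^ out0.card : ℝ) *
          ∑ A ∈ at0.powerset, (1 : ℝ) / (2 ^ (A.card + 1) * at0.card.choose A.card) := by
          simp only [hC, sum_product, hwdef, mul_sum]
      _ ≤ ∑ _S ∈ out0.powerset, (1 / 2 ^ out0.card : ℝ) * 1 :=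
          sum_le_sum fun S _ => mul_le_mul_of_nonneg_left (sum_weights_le_one at0) (by positivity)
      _ = 1 := by
          rw [sum_const, card_powerset, nsmul_eq_mul, mul_one]
          push_cast
          field_simp
  have key : ∀ φ ∈ Φ, (∑ c ∈ C, w c) * cost φ ≤
      ∑ c ∈ C, if ok c φ then w c * cost' φ else 0 := by
    intro φ hφ
    obtain ⟨hhom, hP⟩ := hΦ φ hφ
    by_cases hu : ∃ u, φ u = x
    · set u := hu.choose with hudef
      have hux : φ u = x := hu.choose_spec
      have hps : ps' φ = hitPS H F N l U items D φ (ps φ) x u := by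
        simp only [hps', stepPS, dif_pos hu, hudef]
      by_cases hkept : IsKept N l (mkItem x (chS H F U φ x) (chA U items φ (ps φ) x))
      · set c0 := (chS H F U φ x, chA U items φ (ps φ) x) with hc0
        have hc0C : c0 ∈ C := by
          simp only [hC, hc0, mem_product, mem_powerset, hout0, hat0]
          exact ⟨chS_subset x, chA_subset _ x⟩
        have hok0 : ok c0 φ := fun _ _ _ => ⟨rfl, rfl⟩
        have hsub := mem_product.1 hc0C
        have hcost0 := (pinv_step_hit hH hP hhom hx hux (S := c0.1) (A := c0.2)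
          (mem_powerset.1 hsub.1) (mem_powerset.1 hsub.2) hl.le fun _ => ⟨rfl, rfl⟩).2
        rw [if_pos hkept, ← hps] at hcost0
        refine le_trans ?_ (single_le_sum (f := fun c => if ok c φ then w c * cost' φ else 0)
          (fun c hc => by split_ifs <;> [exact mul_nonneg (hw0 c hc).le (hcnn _ _); rfl]) hc0C)
        simp only [if_pos hok0]
        calc (∑ c ∈ C, w c) * cost φ ≤ 1 * cost φ := mul_le_mul_of_nonneg_right hW1 (hcnn _ _)
          _ ≤ w c0 * (cost φ * (2 ^ K1 * 2 ^ (c0.2.card + 1) * (K2.choose c0.2.card : ℝ))) := by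
              rw [one_mul, mul_left_comm]
              refine le_mul_of_one_le_right (hcnn _ _) ?_
              simp only [hwdef]
              have h1 : ((2 : ℝ) ^ out0.card) ≤ 2 ^ K1 := pow_le_pow_right₀ (by norm_num) hd
              have h2 : (at0.card.choose c0.2.card : ℝ) ≤ K2.choose c0.2.card := by
                exact_mod_cast Nat.choose_le_choose _ hk
              have h3 : (0 : ℝ) < at0.card.choose c0.2.card := by
                exact_mod_cast Nat.choose_pos (card_le_card (mem_powerset.1 hsub.2))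
              rw [div_mul_div_comm, one_mul, div_mul_eq_mul_div, one_mul, one_le_div (by positivity)]
              rw [mul_assoc ((2 : ℝ) ^ K1)]
              gcongr
          _ = w c0 * cost' φ := by rw [hcost', hcost]; simp only [hc0]; rw [← hcost0]
      · have hokall : ∀ c, ok c φ := fun c a ha h => absurd h hkept
        have hcost0 := (pinv_step_hit hH hP hhom hx hux (S := ∅) (A := ∅)
          (empty_subset _) (empty_subset _) hl.le fun h => absurd h hkept).2
        rw [if_neg hkept, mul_one, ← hps] at hcost0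
        simp only [hokall, if_true, hcost', hcost0, hcost, sum_mul]
        exact le_rfl
    · have hokall : ∀ c, ok c φ := fun c a ha => absurd ⟨a, ha⟩ hu
      have hps : ps' φ = ps φ := by simp only [hps', stepPS, dif_neg hu]
      have hdone : doneSet (U.erase x) φ = doneSet U φ := by
        ext a
        have : φ a ≠ x := fun h => hu ⟨a, h⟩
        simp [doneSet, this]
      simp only [hokall, if_true, hcost', hps, hdone, hcost, sum_mul]
      exact le_rfl
  set g : Finset β × Finset (Item β) → ℝ := fun c => ∑ φ ∈ Φ.filter (ok c), cost' φ with hg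
  obtain ⟨c, hc, hcg⟩ := exists_ge_average C w g (fun c hc => (hw0 c hc).le) hW0
    (a := ∑ φ ∈ Φ, cost φ) (by
      rw [mul_sum]
      refine (sum_le_sum key).trans (le_of_eq ?_)
      rw [sum_comm]
      refine sum_congr rfl fun c _ => ?_
      rw [hg, mul_sum, sum_filter])
  obtain ⟨hc1, hc2⟩ := mem_product.1 hc
  rw [mem_powerset] at hc1 hc2
  refine ⟨x, hx, stepItems N l items x c.1 c.2, stepD H U items D x c.2, Φ.filter (ok c), ps',
    hinv_step hH hx hd hk hc1 hc2, fun φ hφ => ?_, hcg⟩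
  obtain ⟨hφ, hok'⟩ := mem_filter.1 hφ
  obtain ⟨hhom, hP⟩ := hΦ φ hφ
  refine ⟨hhom, ?_⟩
  by_cases hu : ∃ u, φ u = x
  · have hps : ps' φ = hitPS H F N l U items D φ (ps φ) x hu.choose := by
      simp only [hps', stepPS, dif_pos hu]
    rw [hps]
    exact (pinv_step_hit hH hP hhom hx hu.choose_spec hc1 hc2 hl.le
      fun h => hok' _ hu.choose_spec h).1
  · have hps : ps' φ = ps φ := by simp only [hps', stepPS, dif_neg hu]
    rw [hps]
    exact pinv_step_free hP (fun a h => hu ⟨a, h⟩) _ _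

/-- Running the process to the end. -/
lemma run_exists (hN : 0 ≤ N) (hl : 0 < l)
    (hw : ∀ (S : Finset β) (E : Finset (Sym2 β)),
      (∀ e ∈ E, e ∈ H.edgeSet ∧ ∀ y ∈ e, y ∈ S) → (E.card : ℝ) * l ≤ S.card * N + 1)
    (U : Finset β) : ∀ (items : Finset (Item β)) (D : Deco β),
    HInv H N l ⌊2 * (N + 1) / l⌋₊ ⌊N + 1⌋₊ U items D →
    ∀ (Φ : Finset (α ↪ β)) (ps : (α ↪ β) → PS α),
    (∀ φ ∈ Φ, (∀ a b, F.Adj a b → H.Adj (φ a) (φ b)) ∧ PInv F N l U items D φ (ps φ)) →
    ∃ (items' : Finset (Item β)) (D' : Deco β) (Φ' : Finset (α ↪ β)) (ps' : (α ↪ β) → PS α),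
      HInv H N l ⌊2 * (N + 1) / l⌋₊ ⌊N + 1⌋₊ ∅ items' D' ∧
      (∀ φ ∈ Φ', (∀ a b, F.Adj a b → H.Adj (φ a) (φ b)) ∧
        PInv F N l ∅ items' D' φ (ps' φ)) ∧
      ∑ φ ∈ Φ, costOn ⌊2 * (N + 1) / l⌋₊ ⌊N + 1⌋₊ (ps φ).M (doneSet U φ \ (ps φ).rt) ≤
        ∑ φ ∈ Φ', costOn ⌊2 * (N + 1) / l⌋₊ ⌊N + 1⌋₊ (ps' φ).M
          (doneSet ∅ φ \ (ps' φ).rt) := by
  induction U using Finset.strongInduction with
  | H U ih =>
    intro items D hH Φ ps hΦ
    rcases U.eq_empty_or_nonempty with rfl | hU
    · exact ⟨items, D, Φ, ps, hH, hΦ, le_rfl⟩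
    obtain ⟨x, hx, items1, D1, Φ1, ps1, hH1, hΦ1, hle1⟩ := step_exists hN hl hw hU hH Φ ps hΦ
    obtain ⟨items2, D2, Φ2, ps2, hH2, hΦ2, hle2⟩ :=
      ih _ (erase_ssubset hx) items1 D1 hH1 Φ1 ps1 hΦ1
    exact ⟨items2, D2, Φ2, ps2, hH2, hΦ2, hle1.trans hle2⟩

/-- There is a decomposition with certificates for many embeddings. -/
theorem exists_deco (hN : 0 ≤ N) (hl : 0 < l)
    (hw : ∀ (S : Finset β) (E : Finset (Sym2 β)),
      (∀ e ∈ E, e ∈ H.edgeSet ∧ ∀ y ∈ e, y ∈ S) → (E.card : ℝ) * l ≤ S.card * N + 1)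
    (Φ : Finset (α ↪ β)) (hΦ : ∀ φ ∈ Φ, ∀ a b, F.Adj a b → H.Adj (φ a) (φ b)) :
    ∃ (D : Deco β) (Φ' : Finset (α ↪ β)) (ps : (α ↪ β) → PS α),
      D.Bounded ⌊2 * (N + 1) / l⌋₊ ⌊N + 1⌋₊ ∧
      (∀ φ ∈ Φ', (∀ a b, F.Adj a b → H.Adj (φ a) (φ b)) ∧ Good F D N l φ (ps φ)) ∧
      (Φ.card : ℝ) ≤ ∑ φ ∈ Φ', costOn ⌊2 * (N + 1) / l⌋₊ ⌊N + 1⌋₊ (ps φ).M
        (univ \ (ps φ).rt) := by
  classical
  set D0 : Deco β := ⟨fun _ => 0, fun _ => ∅, fun _ => ∅, fun _ => ∅, id⟩
  set p0 : PS α := ⟨∅, ∅, id⟩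
  have hH0 : HInv H N l ⌊2 * (N + 1) / l⌋₊ ⌊N + 1⌋₊ univ ∅ D0 :=
    ⟨by simp, by simp, fun x => by simp [D0], fun x => by simp [D0], fun x y hy => by simp [D0] at hy,
      fun x _ => rfl, fun x hx => absurd (mem_univ x) hx⟩
  have hP0 : ∀ φ ∈ Φ, PInv F N l univ (∅ : Finset (Item β)) D0 φ p0 := by
    intro φ _
    have hd : doneSet (univ : Finset β) φ = ∅ := by simp [doneSet]
    exact ⟨fun _ _ => rfl, fun a h => absurd (mem_univ _) h, by simp [p0],
      fun a b _ h => absurd (mem_univ _) h, by simp [p0], by simp [p0, repSet, hd],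
      fun a h => absurd (mem_univ _) h, fun a h => absurd (mem_univ _) h, by simp [p0],
      fun a h => absurd (mem_univ _) h, fun a h => absurd (mem_univ _) h,
      fun a h => absurd (mem_univ _) h, by simp [p0], by simp [p0], by simp [p0]⟩
  obtain ⟨items, D, Φ', ps, hH, hΦ', hle⟩ := run_exists hN hl hw univ ∅ D0 hH0 Φ (fun _ => p0)
    fun φ hφ => ⟨hΦ φ hφ, hP0 φ hφ⟩
  have hdone : ∀ φ : α ↪ β, doneSet (∅ : Finset β) φ = univ := fun φ => by simp [doneSet]
  refine ⟨D, Φ', ps, ⟨hH.out_card, hH.lin_card, fun x y hy =>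
    (hH.out_rank x y hy).resolve_left (notMem_empty y)⟩, fun φ hφ => ⟨(hΦ' φ hφ).1, ?_⟩, ?_⟩
  · obtain ⟨-, hP⟩ := hΦ' φ hφ
    set p := ps φ
    have hrep : ∀ r, p.cl r = r → r ∈ p.rt := by
      intro r hr
      by_contra h
      obtain ⟨I, hI, -⟩ := hP.live r (notMem_empty _) hr h
      obtain ⟨y, hy⟩ := (hH.ok I hI).ne
      exact notMem_empty y ((hH.ok I hI).sub hy)
    have hclrt : ∀ u, p.cl u ∈ p.rt := fun u => hrep _ (hP.cl_done u (notMem_empty _)).2
    refine ⟨hclrt, fun r hr => (hP.rt_sub r hr).2, fun a b hab => ?_, fun d hd => ?_, ?_,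
      fun r hr => hP.conn r (notMem_empty _) (hP.rt_sub r hr).2, hP.lin,
      fun u hu => hP.kept u (notMem_empty _) hu, fun u hu => ?_,
      fun u => hP.rank_cl u (notMem_empty _), hP.rt_weight, hP.rt_nonroot,
      fun r hr h hh => (hP.rt_heads r hr h hh).resolve_left (notMem_empty _)⟩
    · exact (hP.orient a b hab (notMem_empty _)).imp_right (·.2)
    · exact ⟨(hP.M_sub d hd).1, (hP.M_sub d hd).2.2⟩
    · have h := hP.M_card
      have hr : repSet (∅ : Finset β) φ p = p.rt := by
        ext r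
        simp only [repSet, hdone, mem_filter, mem_univ, true_and]
        exact ⟨hrep r, fun h' => (hP.rt_sub r h').2⟩
      rw [hr, hdone, card_univ] at h
      exact h
    · have hcl : p.cl u ≠ u := fun h => hu (h ▸ hclrt u)
      obtain ⟨-, w, -, h1, h2, h3⟩ := hP.parent u (notMem_empty _) hcl
      exact ⟨w, h1, h2, h3⟩
  · have h0 : ∀ φ : α ↪ β, doneSet (univ : Finset β) φ = ∅ := fun φ => by simp [doneSet]
    simp only [hdone, h0, empty_sdiff, costOn, prod_empty, sum_const, nsmul_one] at hle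
    exact hle

end Run

end Vale.Agent.P064
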